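import Vale.Agent.P016.Base

noncomputable section
namespace ART
open Complex MeasureTheory NumberField Filter
open scoped Classical Topology

section
variable {K : Type} [Field K] [NumberField K]

theorem hK_norm (m : ℕ) (x y : 𝓞 K) :
    ((Algebra.norm ℤ (x + m * y) : ℤ) : ZMod m) = (Algebra.norm ℤ x : ℤ) := by
  have h := fun z : 𝓞 K => (Int.castRingHom (ZMod m)).map_det
    (Algebra.leftMulMatrix (RingOfIntegers.basis K) z)
  simp only [eq_intCast] at h
  rw [Algebra.norm_eq_matrix_det (RingOfIntegers.basis K),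
    Algebra.norm_eq_matrix_det (RingOfIntegers.basis K), h, h, map_add, map_add, ← nsmul_eq_mul,
    map_nsmul, map_nsmul]
  congr 1
  ext i j
  simp

theorem hK_mod [IsTotallyComplex K] (m : ℕ) (x y : 𝓞 K) :
    Ideal.absNorm (Ideal.span {x + m * y}) ≡ Ideal.absNorm (Ideal.span {x}) [MOD m] := by
  rw [← ZMod.natCast_eq_natCast_iff, Ideal.absNorm_span_singleton, Ideal.absNorm_span_singleton,
    ← Int.cast_natCast, ← Int.cast_natCast (R := ZMod m) (Algebra.norm ℤ x).natAbs,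
    Int.natAbs_of_nonneg (norm_int_nonneg _), Int.natAbs_of_nonneg (norm_int_nonneg _), hK_norm]

theorem hK_mem (b : Ideal (𝓞 K)) : ((3 * Ideal.absNorm b : ℕ) : 𝓞 K) ∈ b := by
  rw [Nat.cast_mul]
  exact b.mul_mem_left _ (Ideal.absNorm_mem b)

theorem hK_per [IsTotallyComplex K] {b : Ideal (𝓞 K)} (hb : b ≠ ⊥) {g : ℕ → ℂ}
    (hg : ∀ a, g (a + 3) = g a) : Per (3 * Ideal.absNorm b) (rho b g) := by
  intro x y
  have h0 : ((3 * Ideal.absNorm b : ℕ) : 𝓞 K) * y ∈ b := b.mul_mem_right _ (hK_mem b)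
  have hN : Ideal.absNorm b ≠ 0 := fun h => hb (Ideal.absNorm_eq_zero_iff.1 h)
  unfold rho
  by_cases hx : x ∈ b
  · have hx' := b.add_mem hx h0
    rw [if_pos hx, if_pos hx']
    have h1 := hK_mod (3 * Ideal.absNorm b) x y
    obtain ⟨a, ha⟩ := Ideal.absNorm_dvd_absNorm_of_le ((Ideal.span_singleton_le_iff_mem b).2 hx)
    obtain ⟨a', ha'⟩ := Ideal.absNorm_dvd_absNorm_of_le ((Ideal.span_singleton_le_iff_mem b).2 hx')
    rw [ha, ha', mul_comm 3] at h1
    have h2 : a' % 3 = a % 3 := Nat.ModEq.mul_left_cancel' hN h1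
    have hp : Function.Periodic g 3 := hg
    rw [ha, ha', Nat.mul_div_cancel_left _ (Nat.pos_of_ne_zero hN),
      Nat.mul_div_cancel_left _ (Nat.pos_of_ne_zero hN), ← hp.map_mod_nat a', h2, hp.map_mod_nat]
  · rw [if_neg hx, if_neg fun h => hx ((b.add_mem_iff_left h0).1 h)]

theorem hK_inv (b : Ideal (𝓞 K)) (g : ℕ → ℂ) : Inv (rho b g) := by
  intro e x
  unfold rho
  rw [Ideal.span_singleton_mul_left_unit e.isUnit]
  exact if_congr (b.unit_mul_mem_iff_mem e.isUnit) rfl rfl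

theorem hK_le (b : Ideal (𝓞 K)) {g : ℕ → ℂ} (hg : ∀ a, ‖g a‖ ≤ 1) (x : 𝓞 K) : ‖rho b g x‖ ≤ 1 := by
  unfold rho
  split_ifs
  · exact hg _
  · simp

theorem hK_mean {b : Ideal (𝓞 K)} {m : ℕ} (hm : 0 < m) (hb : (m : 𝓞 K) ∈ b) {g : ℕ → ℂ}
    (hg : ∀ a, g a = 1) : ∃ r : ℝ, 0 < r ∧ mean m (rho b g) = r := by
  have : Finite (𝓞 K ⧸ Ideal.span {(m : 𝓞 K)}) :=
    Nat.finite_of_card_ne_zero (by rw [card_quot hm]; positivity)
  have := Fintype.ofFinite (𝓞 K ⧸ Ideal.span {(m : 𝓞 K)})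
  refine ⟨(∑ x : 𝓞 K ⧸ Ideal.span {(m : 𝓞 K)}, if Quotient.out x ∈ b then 1 else 0)
    / (m : ℝ) ^ dg K, div_pos (Finset.sum_pos' (fun x _ => by positivity)
      ⟨0, Finset.mem_univ _, ?_⟩) (by positivity), ?_⟩
  · rw [if_pos ((Ideal.span_singleton_le_iff_mem b).2 hb
      (Ideal.Quotient.eq_zero_iff_mem.1 (Ideal.Quotient.mk_out _)))]
    exact one_pos
  · rw [mean, finsum_eq_sum_of_fintype]
    push_cast
    congr 1
    refine Finset.sum_congr rfl fun x _ => ?_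
    unfold rho
    split_ifs
    · rw [hg, ofReal_one]
    · rw [ofReal_zero]

end

theorem hK_real {C d : ℝ} {n : ℕ} (hC : 1 ≤ C) (hd : 1 ≤ d) (hn : 1 ≤ n) :
    (2 ^ n * d) ^ 2 * Real.exp (2 * n) * ((2 ^ n * d) ^ 4 * (C * (3 * (2 ^ n * d)) * d) ^ (6 * n))
      ≤ Real.exp ((18 * C + 20) * n * (n + Real.log d)) := by
  have hn1 : (1 : ℝ) ≤ n := by exact_mod_cast hn
  have hl := Real.log_nonneg hd
  have h2 : (2 : ℝ) ≤ Real.exp 1 := by linarith [Real.add_one_le_exp (1 : ℝ)]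
  have a1 : 2 ^ n * d ≤ Real.exp (n + Real.log d) := by
    rw [Real.exp_add, Real.exp_log (by linarith), ← mul_one (n : ℝ), Real.exp_nat_mul]
    gcongr
  have a2 : d ≤ Real.exp (n + Real.log d) :=
    le_trans (le_mul_of_one_le_left (by linarith) (one_le_pow₀ one_le_two)) a1
  have hnL : (n : ℝ) ≤ n + Real.log d := by linarith
  generalize n + Real.log d = L at a1 a2 hnL ⊢
  have a3 : 3 * C ≤ Real.exp (3 * C * L) := by
    have := Real.add_one_le_exp (3 * C * L)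
    nlinarith
  have a4 : C * (3 * (2 ^ n * d)) * d ≤ Real.exp (3 * C * L) * Real.exp L * Real.exp L := by
    rw [show C * (3 * (2 ^ n * d)) * d = 3 * C * (2 ^ n * d) * d by ring]
    gcongr
  calc _ ≤ Real.exp L ^ 2 * Real.exp (2 * n) *
        (Real.exp L ^ 4 * (Real.exp (3 * C * L) * Real.exp L * Real.exp L) ^ (6 * n)) := by gcongr
    _ ≤ _ := by
      simp only [← Real.exp_nat_mul, ← Real.exp_add]
      refine Real.exp_le_exp.2 ?_
      push_cast
      nlinarith [mul_le_mul_of_nonneg_right hn1 (show 0 ≤ L by linarith),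
        mul_le_mul_of_nonneg_left (show 1 ≤ L by linarith) (show (0 : ℝ) ≤ n by linarith)]

theorem hK (h1 : HZ) (h2 : ClsZ) : HK := by
  obtain ⟨C, hC, h1⟩ := h1
  refine ⟨18 * C + 20, by linarith, fun K _ _ _ g hg hg1 => ?_⟩
  obtain ⟨c, hc, h1⟩ := h1 K
  obtain ⟨B, hB0, hB, hcard, hz⟩ := h2 K
  have hN : ∀ b ∈ B, 0 < Ideal.absNorm b := fun b hb =>
    Nat.pos_of_ne_zero fun h => (hB b hb).1 (Ideal.absNorm_eq_zero_iff.1 h)
  choose! Λ d1 d2 d3 d4 using fun b (hb : b ∈ B) => h1 (3 * Ideal.absNorm b) (rho b g)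
    (by have := hN b hb; omega) (hK_per (hB b hb).1 hg) (hK_inv b g) (hK_le b hg1)
  refine ⟨fun z => ∑ b ∈ B, (Ideal.absNorm b : ℂ) ^ z * Λ b z,
    Differentiable.fun_sum fun b hb => Differentiable.mul
      (differentiable_id.const_cpow (.inl (by exact_mod_cast (hN b hb).ne'))) (d1 b hb),
    fun z h => ?_, fun h => ?_, fun z h h' => ?_⟩
  · rw [hz g z hg1 h, Finset.mul_sum]
    exact Finset.sum_congr rfl fun b hb => by rw [d2 b hb z h]; ring
  · choose! r r1 r2 using fun b (hb : b ∈ B) =>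
      hK_mean (show 0 < 3 * Ideal.absNorm b by have := hN b hb; omega) (hK_mem b) h
    have e : ∑ b ∈ B, (Ideal.absNorm b : ℂ) ^ (1 : ℂ) * Λ b 1
        = ((∑ b ∈ B, Ideal.absNorm b * (c * r b) : ℝ) : ℂ) := by
      push_cast
      exact Finset.sum_congr rfl fun b hb => by rw [cpow_one, d3 b hb, r2 b hb]
    beta_reduce
    rw [e, ofReal_ne_zero]
    exact (Finset.sum_pos (fun b hb => mul_pos (by exact_mod_cast hN b hb)
      (mul_pos hc (r1 b hb))) hB0).ne'
  · have hd : (1 : ℝ) ≤ dc K := by exact_mod_cast dc_pos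
    have key : ∀ b ∈ B, ‖(Ideal.absNorm b : ℂ) ^ z * Λ b z‖ ≤ (1 + ‖z‖) ^ 2 *
        ((2 ^ dg K * dc K) ^ 4 * (C * (3 * (2 ^ dg K * dc K)) * dc K) ^ (6 * dg K)) := by
      intro b hb
      have a1 : (1 : ℝ) ≤ Ideal.absNorm b := by exact_mod_cast hN b hb
      have a2 : (Ideal.absNorm b : ℝ) ≤ 2 ^ dg K * dc K := by exact_mod_cast (hB b hb).2
      have a3 : ‖(Ideal.absNorm b : ℂ) ^ z‖ ≤ (2 ^ dg K * dc K) ^ 4 := by
        rw [norm_natCast_cpow_of_pos (hN b hb)]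
        refine (Real.rpow_le_rpow_of_exponent_le a1 h').trans ?_
        rw [show (4 : ℝ) = (4 : ℕ) by norm_num, Real.rpow_natCast]
        gcongr
      have a4 := d4 b hb z h h'
      push_cast at a4
      rw [norm_mul, mul_left_comm]
      refine mul_le_mul a3 (a4.trans ?_) (norm_nonneg _) (by positivity)
      gcongr
    refine (norm_sum_le _ _).trans ((Finset.sum_le_card_nsmul _ _ _ key).trans ?_)
    rw [nsmul_eq_mul, mul_left_comm]
    refine mul_le_mul_of_nonneg_left (le_trans ?_ (hK_real hC hd dg_pos)) (by positivity)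
    gcongr

end ART
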