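import Vale.Agent.P016.Base

noncomputable section
namespace ART
open Complex MeasureTheory NumberField Filter
open scoped Classical Topology

variable {K : Type} [Field K] [NumberField K]

theorem HZ_le (a : ℝ) : MeasurableSet {u : InfinitePlace K → ℝ | ∑ w, u w ≤ a} :=
  measurableSet_le (by fun_prop) measurable_const

theorem HZ_ge (a : ℝ) : MeasurableSet {u : InfinitePlace K → ℝ | a ≤ ∑ w, u w} :=
  measurableSet_le measurable_const (by fun_prop)

theorem HZ_push {φ : (InfinitePlace K → ℝ) → ℝ} {V : ℝ} (hV : ∀ h : ℝ → ℂ, Integrable h →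
      Integrable (fun u : InfinitePlace K → ℝ => (φ u : ℂ) * h (∑ w, u w)) ∧
      ∫ u : InfinitePlace K → ℝ, (φ u : ℂ) * h (∑ w, u w) = V * ∫ t, h t)
    {s : ℂ} (hs : 0 < s.re) (a : ℝ) :
    IntegrableOn (fun u : InfinitePlace K → ℝ => (φ u : ℂ) * Complex.exp (s * (∑ w, u w : ℝ)))
      {u | ∑ w, u w ≤ a} ∧
    ∫ u in {u : InfinitePlace K → ℝ | ∑ w, u w ≤ a}, (φ u : ℂ) * Complex.exp (s * (∑ w, u w : ℝ))
      = V * (Complex.exp (s * a) / s) := by
  have h1 := hV ((Set.Iic a).indicator fun t : ℝ => Complex.exp (s * t))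
    ((integrable_indicator_iff measurableSet_Iic).2 (integrableOn_exp_mul_complex_Iic hs a))
  have e : (fun u : InfinitePlace K → ℝ =>
      (φ u : ℂ) * (Set.Iic a).indicator (fun t : ℝ => Complex.exp (s * t)) (∑ w, u w))
      = Set.indicator {u | ∑ w, u w ≤ a} fun u => (φ u : ℂ) * Complex.exp (s * (∑ w, u w : ℝ)) := by
    funext u
    by_cases hu : ∑ w, u w ≤ a
    · rw [Set.indicator_of_mem (Set.mem_Iic.2 hu), Set.indicator_of_mem (by exact hu)]
    · rw [Set.indicator_of_notMem (mt Set.mem_Iic.1 hu), Set.indicator_of_notMem (by exact hu),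
        mul_zero]
  rw [e, integrable_indicator_iff (HZ_le a), integral_indicator (HZ_le a),
    integral_indicator measurableSet_Iic, integral_exp_mul_complex_Iic hs] at h1
  exact h1

theorem HZ_cut {φ : (InfinitePlace K → ℝ) → ℝ} (hφ : IsPhi φ) {V : ℝ}
    (hV : ∀ h : ℝ → ℂ, Integrable h →
      Integrable (fun u : InfinitePlace K → ℝ => (φ u : ℂ) * h (∑ w, u w)) ∧
      ∫ u : InfinitePlace K → ℝ, (φ u : ℂ) * h (∑ w, u w) = V * ∫ t, h t)
    {κ c0 : ℝ} {ρ ρ' : 𝓞 K → ℂ} (hP : ∀ u, ρ 0 + Th ρ u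
      = ((κ * Real.exp (-∑ w, u w) : ℝ) : ℂ) * (ρ' 0 + Th ρ' fun w => c0 - u w))
    {z : ℂ} (hz : 1 < z.re)
    (hi : Integrable fun u => (φ u : ℂ) * Th ρ u * Complex.exp (z * (∑ w, u w : ℝ))) (a : ℝ) :
    ∫ u in {u | ∑ w, u w ≤ a}, (φ u : ℂ) * Th ρ u * Complex.exp (z * (∑ w, u w : ℝ))
      = κ * Complex.exp ((z - 1) * (rk K * c0 : ℝ)) *
          (∫ u in {u | rk K * c0 - a ≤ ∑ w, u w},
            (φ (-u) : ℂ) * Th ρ' u * Complex.exp ((1 - z) * (∑ w, u w : ℝ)))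
        + κ * ρ' 0 * (V * (Complex.exp ((z - 1) * a) / (z - 1)))
        - ρ 0 * (V * (Complex.exp (z * a) / z)) := by
  obtain ⟨i1, e1⟩ := HZ_push hV (s := z - 1) (by rw [sub_re, one_re]; linarith) a
  obtain ⟨i2, e2⟩ := HZ_push hV (s := z) (by linarith) a
  have hS : ∀ u : InfinitePlace K → ℝ,
      ∑ w, ((fun _ => c0) - u : InfinitePlace K → ℝ) w = rk K * c0 - ∑ w, u w := by
    intro u
    simp only [Pi.sub_apply]
    rw [Finset.sum_sub_distrib, Finset.sum_const, Finset.card_univ, nsmul_eq_mul, rk]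
  have e3 : κ * Complex.exp ((z - 1) * (rk K * c0 : ℝ)) *
      (∫ u in {u | rk K * c0 - a ≤ ∑ w, u w},
        (φ (-u) : ℂ) * Th ρ' u * Complex.exp ((1 - z) * (∑ w, u w : ℝ)))
      = ∫ u in {u | ∑ w, u w ≤ a}, ((φ u : ℂ) * Th ρ u * Complex.exp (z * (∑ w, u w : ℝ))
        - κ * ρ' 0 * ((φ u : ℂ) * Complex.exp ((z - 1) * (∑ w, u w : ℝ)))
        + ρ 0 * ((φ u : ℂ) * Complex.exp (z * (∑ w, u w : ℝ)))) := by
    rw [← integral_const_mul, ← integral_indicator (HZ_ge _), ← integral_indicator (HZ_le a),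
      ← integral_sub_left_eq_self _ _ fun _ => c0]
    refine integral_congr_ae (Eventually.of_forall fun u => ?_)
    dsimp only
    by_cases hu : ∑ w, u w ≤ a
    · rw [Set.indicator_of_mem (by rw [Set.mem_ofPred_eq, hS]; linarith),
        Set.indicator_of_mem (by exact hu), hS]
      have a1 : φ (-((fun _ => c0) - u)) = φ u := by
        rw [← hφ.2.2.1 u (-c0)]
        congr 1
        funext w
        simp only [Pi.neg_apply, Pi.sub_apply]
        ring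
      have a2 : Th ρ' ((fun _ => c0) - u) = Th ρ' fun w => c0 - u w := rfl
      have a3 : Complex.exp ((z - 1) * (rk K * c0 : ℝ))
          * Complex.exp ((1 - z) * (rk K * c0 - ∑ w, u w : ℝ))
          = Complex.exp ((z - 1) * (∑ w, u w : ℝ)) := by
        rw [← Complex.exp_add, ofReal_sub]
        congr 1
        ring
      have a4 : (Real.exp (-∑ w, u w) : ℂ) * Complex.exp (z * (∑ w, u w : ℝ))
          = Complex.exp ((z - 1) * (∑ w, u w : ℝ)) := by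
        rw [ofReal_exp, ← Complex.exp_add, ofReal_neg]
        congr 1
        ring
      have a5 := hP u
      rw [ofReal_mul] at a5
      rw [a1, a2]
      linear_combination (κ * φ u * Th ρ' fun w => c0 - u w) * a3
        - (φ u * Complex.exp (z * (∑ w, u w : ℝ))) * a5
        - (κ * φ u * (ρ' 0 + Th ρ' fun w => c0 - u w)) * a4
    · rw [Set.indicator_of_notMem (by rw [Set.mem_ofPred_eq, hS]; intro h; exact hu (by linarith)),
        Set.indicator_of_notMem (by exact hu)]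
  have i3 : IntegrableOn (fun u => (φ u : ℂ) * Th ρ u * Complex.exp (z * (∑ w, u w : ℝ))
      - κ * ρ' 0 * ((φ u : ℂ) * Complex.exp ((z - 1) * (∑ w, u w : ℝ)))) {u | ∑ w, u w ≤ a} :=
    hi.integrableOn.sub (i1.const_mul _)
  rw [e3, integral_add i3 (i2.const_mul _), integral_sub hi.integrableOn (i1.const_mul _),
    integral_const_mul, integral_const_mul, e1, e2]
  ring

theorem HZ_B [IsTotallyComplex K] (h6 : Tail) {φ : (InfinitePlace K → ℝ) → ℝ} (hφ : IsPhi φ)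
    {ρ' : 𝓞 K → ℂ} (h' : ∀ y, ‖ρ' y‖ ≤ 1) {κ y : ℝ} (hκ : 0 ≤ κ) (hy : 1 ≤ y) (a : ℝ) {z : ℂ}
    (hz : -2 ≤ z.re) :
    ‖κ * Complex.exp ((z - 1) * (rk K * (Real.log 3 - 2 * Real.log y) : ℝ)) *
        ∫ u in {u | rk K * (Real.log 3 - 2 * Real.log y) - a ≤ ∑ w, u w},
          (φ (-u) : ℂ) * Th ρ' u * Complex.exp ((1 - z) * (∑ w, u w : ℝ))‖
      ≤ κ * (y ^ dg K) ^ 3 * Real.exp a ^ 2 * Real.exp (z.re * a) * Real.exp (2 * dg K) := by
  have h1 := (h6 K _ ρ' _ _ hφ.neg h' (HZ_ge (rk K * (Real.log 3 - 2 * Real.log y) - a))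
    fun u hu => hu).2.2 (1 - z) 3 (by norm_num) (by norm_num) (by
      rw [sub_re, one_re]; push_cast; linarith)
  rw [norm_mul, norm_mul, norm_real, Real.norm_of_nonneg hκ, Complex.norm_exp]
  refine (mul_le_mul_of_nonneg_left h1 (by positivity)).trans ?_
  have h2 : 0 ≤ (rk K : ℝ) * Real.log 3 :=
    mul_nonneg (Nat.cast_nonneg _) (Real.log_nonneg (by norm_num))
  have h3 : (y ^ dg K) ^ 3 * Real.exp a ^ 2 * Real.exp (z.re * a)
      = Real.exp (6 * (rk K * Real.log y) + 2 * a + z.re * a) := by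
    rw [← Real.exp_log (show 0 < y by linarith), ← Real.exp_nat_mul, ← Real.exp_nat_mul,
      ← Real.exp_nat_mul, ← Real.exp_add, ← Real.exp_add, Real.log_exp, dg_eq]
    congr 1
    push_cast
    ring
  rw [← mul_assoc, mul_assoc κ, ← Real.exp_add, mul_assoc κ (_ ^ 3), mul_assoc κ (_ * _), h3,
    re_mul_ofReal, sub_re, sub_re, one_re]
  refine mul_le_mul_of_nonneg_right (mul_le_mul_of_nonneg_left (Real.exp_le_exp.2 ?_) hκ)
    (Real.exp_pos _).le
  push_cast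
  nlinarith

theorem HZ_mean : mean 1 (fun _ : 𝓞 K => (1 : ℂ)) = 1 := by
  have h1 := card_quot (K := K) one_pos
  rw [one_pow, Nat.card_eq_one_iff_unique] at h1
  obtain ⟨h2, ⟨a⟩⟩ := h1
  rw [mean, finsum_eq_single _ a fun x hx => absurd (Subsingleton.elim x a) hx]
  simp

theorem HZ_num {A B V κ E F X d : ℝ} (hE : 1 ≤ E) (hF : 4 ≤ F) (hX : 1 ≤ X) (hEF : E ≤ F ^ 2)
    (hκ : κ ≤ F) (hκ0 : 0 ≤ κ) (hκ' : 1 ≤ κ * (F * d)) (hd : d ^ 2 ≤ X) (hV0 : 0 ≤ V) (hA : A ≤ E)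
    (hB : B ≤ κ * X ^ 3 * E) (hV : V * κ ^ 2 / 2 ≤ 2 * E + κ ^ 5 * X ^ 3 * E) :
    A + B + κ * V + V ≤ (F ^ 2 * X) ^ 6 := by
  have hF1 : 1 ≤ F := by linarith
  have h1 : V ≤ 6 * (E * F ^ 7 * X ^ 4) := by
    have a1 : 1 ≤ κ ^ 2 * (F ^ 2 * X) := by
      calc (1 : ℝ) ≤ (κ * (F * d)) ^ 2 := one_le_pow₀ hκ'
        _ = κ ^ 2 * (F ^ 2 * d ^ 2) := by ring
        _ ≤ _ := by gcongr
    have a2 : E ≤ F ^ 5 * X ^ 3 * E :=
      le_mul_of_one_le_left (by linarith) (one_le_mul_of_one_le_of_one_le (one_le_pow₀ hF1)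
        (one_le_pow₀ hX))
    have a3 : κ ^ 5 * X ^ 3 * E ≤ F ^ 5 * X ^ 3 * E := by gcongr
    calc V ≤ V * (κ ^ 2 * (F ^ 2 * X)) := le_mul_of_one_le_right hV0 a1
      _ = V * κ ^ 2 * (F ^ 2 * X) := by ring
      _ ≤ 6 * (F ^ 5 * X ^ 3 * E) * (F ^ 2 * X) :=
          mul_le_mul_of_nonneg_right (by linarith) (by positivity)
      _ = _ := by ring
  have h2 : E * F ^ 7 * X ^ 4 ≤ E * F ^ 8 * X ^ 4 := by gcongr; norm_num
  have h3 : κ * V ≤ 6 * (E * F ^ 8 * X ^ 4) := by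
    calc κ * V ≤ F * (6 * (E * F ^ 7 * X ^ 4)) := by gcongr
      _ = _ := by ring
  have h4 : E ≤ E * F ^ 8 * X ^ 4 := by
    rw [mul_assoc]
    exact le_mul_of_one_le_right (by linarith) (one_le_mul_of_one_le_of_one_le (one_le_pow₀ hF1)
      (one_le_pow₀ hX))
  have h5 : κ * X ^ 3 * E ≤ E * F ^ 8 * X ^ 4 := by
    calc κ * X ^ 3 * E ≤ F ^ 8 * X ^ 4 * E := by
          gcongr
          · exact hκ.trans (le_self_pow₀ hF1 (by norm_num))
          · norm_num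
      _ = _ := by ring
  have h6 : 14 * (E * F ^ 8 * X ^ 4) ≤ (F ^ 2 * X) ^ 6 := by
    calc 14 * (E * F ^ 8 * X ^ 4) ≤ F ^ 2 * (F ^ 2 * F ^ 8 * X ^ 6) := by
          gcongr
          · nlinarith
          · norm_num
      _ = _ := by ring
  linarith

theorem hZ (h1 : ExPhi) (h2 : PushF) (h3 : Unf) (h4 : PoisK) (h5 : ZpB) (h6 : Tail) : HZ := by
  refine ⟨16, by norm_num, fun K _ _ _ => ?_⟩
  obtain ⟨φ, hφ⟩ := h1 K
  obtain ⟨V, hV0, hV⟩ := h2 K φ hφ
  obtain ⟨κ, hκ1, hκ2, hκ⟩ := h4 K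
  have hd : (1 : ℝ) ≤ dc K := Nat.one_le_cast.2 dc_pos
  have hκ0 : 0 < κ := lt_of_lt_of_le (by positivity) hκ1
  have hn : 2 ≤ dg K := by have := dg_eq (K := K); have := rk_pos (K := K); omega
  have hc : ∀ a : ℝ, ∀ u ∈ {u : InfinitePlace K → ℝ | ∑ w, u w ≤ a}ᶜ, a ≤ ∑ w, u w :=
    fun a u hu => le_of_not_ge hu
  have hVb : V * κ ^ 2 / 2 ≤ 2 * Real.exp (2 * dg K)
      + κ ^ 5 * ((dc K : ℝ) ^ dg K) ^ 3 * Real.exp (2 * dg K) := by
    obtain ⟨ρ', a1, a2, a3⟩ := hκ 1 (fun _ => 1) one_pos (fun _ _ => rfl) fun _ => norm_one.le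
    have two : ((2 : ℕ) : ℂ).re = 2 := by simp
    obtain ⟨a4, a5⟩ := h3 K φ (fun _ => 1) (2 : ℕ) hφ (fun _ _ => rfl) (fun _ => norm_one.le)
      (by rw [two]; norm_num)
    have a6 := HZ_cut hφ hV a3 (by rw [two]; norm_num) a4 (Real.log κ)
    have a7 := HZ_B h6 hφ a1 hκ0.le (y := ((1 : ℕ) : ℝ) * dc K) (by simpa using hd) (Real.log κ)
      (z := (2 : ℕ)) (by rw [two]; norm_num)
    have a8 := h5 K (fun _ => 1) 2 (fun _ => norm_one.le) le_rfl (by norm_num)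
    have a9 := (h6 K φ (fun _ => 1) _ _ hφ (fun _ => norm_one.le) (HZ_le (Real.log κ)).compl
      (hc _)).2.2 (2 : ℕ) 2 le_rfl (by norm_num) (by rw [two]; norm_num)
    rw [← a5, ← integral_add_compl (HZ_le (Real.log κ)) a4] at a8
    have b1 : Complex.exp ((((2 : ℕ) : ℂ) - 1) * (Real.log κ : ℝ)) = κ := by
      rw [show ((2 : ℕ) : ℂ) - 1 = 1 by norm_num, one_mul, ← ofReal_exp, Real.exp_log hκ0]
    have b2 : Complex.exp (((2 : ℕ) : ℂ) * (Real.log κ : ℝ)) = κ ^ 2 := by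
      rw [Complex.exp_nat_mul, ← ofReal_exp, Real.exp_log hκ0]
    rw [a2, HZ_mean, b1, b2] at a6
    rw [two, show (2 : ℝ) * Real.log κ = (2 : ℕ) * Real.log κ by norm_num, Real.exp_nat_mul,
      Real.exp_log hκ0] at a7
    rw [two, show (2 : ℝ) - (2 : ℕ) = 0 by norm_num, zero_mul, Real.exp_zero, one_mul] at a9
    generalize (∫ u in {u : InfinitePlace K → ℝ | ∑ w, u w ≤ Real.log κ}, _ : ℂ) = I1 at a6 a8
    generalize (∫ u in {u : InfinitePlace K → ℝ | ∑ w, u w ≤ Real.log κ}ᶜ, _ : ℂ) = I2 at a8 a9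
    generalize (κ : ℂ) * Complex.exp _ * _ = B at a6 a7
    have b3 : ((V * κ ^ 2 / 2 : ℝ) : ℂ) = I1 + I2 - I2 - B := by
      rw [a6]
      push_cast
      ring
    have b4 := (norm_sub_le (I1 + I2 - I2) B).trans (add_le_add (norm_sub_le (I1 + I2) I2) le_rfl)
    rw [← b3, norm_real, Real.norm_of_nonneg (by positivity)] at b4
    rw [Nat.cast_one, one_mul] at a7
    nlinarith
  refine ⟨κ * V, by positivity, fun m ρ hm hp hi hρ => ?_⟩
  obtain ⟨ρ', a1, a2, a3⟩ := hκ m ρ hm hp hρ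
  have hm1 : (1 : ℝ) ≤ m := Nat.one_le_cast.2 hm
  have hmd : (1 : ℝ) ≤ m * dc K := one_le_mul_of_one_le_of_one_le hm1 hd
  obtain ⟨-, tA, bA⟩ := h6 K φ ρ _ _ hφ hρ (HZ_le 0).compl (hc 0)
  have tB := (h6 K _ ρ' _ _ hφ.neg a1
    (HZ_ge (rk K * (Real.log 3 - 2 * Real.log (m * dc K)) - 0)) fun u hu => hu).2.1
  refine ⟨fun z => z * (z - 1) * ((∫ u in {u | ∑ w, u w ≤ 0}ᶜ,
      (φ u : ℂ) * Th ρ u * Complex.exp (z * (∑ w, u w : ℝ))) +
    κ * Complex.exp ((z - 1) * (rk K * (Real.log 3 - 2 * Real.log (m * dc K)) : ℝ)) *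
      ∫ u in {u | rk K * (Real.log 3 - 2 * Real.log (m * dc K)) - 0 ≤ ∑ w, u w},
        (φ (-u) : ℂ) * Th ρ' u * Complex.exp ((1 - z) * (∑ w, u w : ℝ)))
    + κ * ρ' 0 * V * z - ρ 0 * V * (z - 1), ?_, fun z hz => ?_, ?_, fun z hz hz' => ?_⟩
  · refine (((differentiable_id.mul (differentiable_id.sub_const 1)).mul (tA.add
      (Differentiable.mul (by fun_prop) (tB.comp (differentiable_id.const_sub 1))))).add
      (by fun_prop)).sub (by fun_prop)
  · obtain ⟨a4, a5⟩ := h3 K φ ρ z hφ hi hρ hz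
    have z0 : z ≠ 0 := fun h => by rw [h, zero_re] at hz; linarith
    have z1 : z - 1 ≠ 0 := fun h => by rw [sub_eq_zero.1 h, one_re] at hz; linarith
    dsimp only
    rw [mul_assoc _ (GG z ^ rk K), ← a5, ← integral_add_compl (HZ_le 0) a4,
      HZ_cut hφ hV a3 hz a4 0]
    simp only [ofReal_zero, mul_zero, Complex.exp_zero]
    field_simp
    ring
  · simp only [sub_self, mul_zero, zero_mul, zero_add, sub_zero, a2]
    push_cast
    ring
  · have b1 := bA z 4 (by norm_num) le_rfl (by exact_mod_cast hz')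
    have b2 := HZ_B h6 hφ a1 hκ0.le hmd 0 hz
    rw [mul_zero, Real.exp_zero, one_mul] at b1
    rw [mul_zero, Real.exp_zero, one_pow, mul_one, mul_one] at b2
    have hX : (dc K : ℝ) ^ dg K ≤ (m * dc K) ^ dg K :=
      pow_le_pow_left₀ (by positivity) (le_mul_of_one_le_left (by positivity) hm1) _
    have hE : Real.exp (2 * dg K) ≤ (4 ^ dg K) ^ 2 := by
      rw [← pow_mul, mul_comm (dg K), pow_mul, mul_comm, Real.exp_nat_mul]
      refine pow_le_pow_left₀ (Real.exp_pos _).le ?_ _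
      rw [show (2 : ℝ) = (2 : ℕ) * 1 by norm_num, Real.exp_nat_mul]
      exact pow_le_pow_left₀ (Real.exp_pos _).le (Real.exp_one_lt_d9.le.trans (by norm_num)) 2
    have b3 := HZ_num (Real.one_le_exp (by positivity))
      (le_self_pow₀ (by norm_num) (by omega)) (one_le_pow₀ hmd) hE hκ2 hκ0.le
      ((inv_le_iff_one_le_mul₀ (by positivity)).1 hκ1)
      ((pow_le_pow_right₀ hd hn).trans hX) hV0.le b1 b2 (hVb.trans (by gcongr))
    have b4 : (((4 : ℝ) ^ dg K) ^ 2 * (m * dc K) ^ dg K) ^ 6 = (16 * m * dc K) ^ (6 * dg K) := by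
      rw [← pow_mul, mul_comm (dg K), pow_mul, ← mul_pow, ← pow_mul, mul_comm (dg K), mul_assoc]
      norm_num
    rw [← b4]
    refine le_trans ?_ (mul_le_mul_of_nonneg_left b3 (by positivity))
    dsimp only
    generalize (∫ u in {u : InfinitePlace K → ℝ | ∑ w, u w ≤ 0}ᶜ, _ : ℂ) = A
    generalize (κ : ℂ) * Complex.exp _ * _ = B
    have c1 : ‖z - 1‖ ≤ 1 + ‖z‖ := by linarith [norm_sub_le z 1, norm_one (α := ℂ)]
    have c0 := norm_nonneg z
    have c2 : ‖z * (z - 1) * (A + B)‖ ≤ (1 + ‖z‖) ^ 2 * (‖A‖ + ‖B‖) := by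
      rw [norm_mul, norm_mul, sq]
      gcongr
      · linarith
      · exact norm_add_le _ _
    have c3 : ‖κ * ρ' 0 * V * z‖ ≤ (1 + ‖z‖) ^ 2 * (κ * V) := by
      rw [norm_mul, norm_mul, norm_mul, norm_real, norm_real, Real.norm_of_nonneg hκ0.le,
        Real.norm_of_nonneg hV0.le]
      calc κ * ‖ρ' 0‖ * V * ‖z‖ ≤ κ * 1 * V * (1 + ‖z‖) ^ 2 := by
            gcongr
            · exact a1 0
            · nlinarith
        _ = _ := by ring
    have c4 : ‖ρ 0 * V * (z - 1)‖ ≤ (1 + ‖z‖) ^ 2 * V := by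
      rw [norm_mul, norm_mul, norm_real, Real.norm_of_nonneg hV0.le]
      calc ‖ρ 0‖ * V * ‖z - 1‖ ≤ 1 * V * (1 + ‖z‖) ^ 2 := by
            gcongr
            · exact hρ 0
            · nlinarith
        _ = _ := by ring
    refine (norm_sub_le _ _).trans ((add_le_add (norm_add_le _ _) le_rfl).trans ?_)
    linarith

end ART
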