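import Vale.Agent.P016.Defs

noncomputable section
namespace ART
open Complex MeasureTheory NumberField Filter
open scoped Classical Topology

section
variable {F : Type} [Field F] [NumberField F]

theorem ep_pow (v : HS F) :
    ∃ p n : ℕ, 0 < n ∧ (p : 𝓞 F) ∈ v.asIdeal ∧ p.Prime ∧ qv v = p ^ n :=
  have := v.isMaximal
  Ideal.exists_prime_and_absNorm_eq_pow v.asIdeal

theorem ep_uniq (v : HS F) {p q : ℕ} (hp : p.Prime) (hq : q.Prime) (h1 : (p : 𝓞 F) ∈ v.asIdeal)
    (h2 : (q : 𝓞 F) ∈ v.asIdeal) : p = q := by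
  by_contra h
  obtain ⟨a, b, hab⟩ : IsCoprime (p : 𝓞 F) (q : 𝓞 F) :=
    ((Nat.coprime_primes hp hq).2 h).cast
  exact v.isPrime.ne_top ((Ideal.eq_top_iff_one _).2
    (hab ▸ add_mem (Ideal.mul_mem_left _ a h1) (Ideal.mul_mem_left _ b h2)))

theorem ep_two_le (v : HS F) : 2 ≤ qv v := by
  obtain ⟨p, n, hn, -, hp, h⟩ := ep_pow v
  exact h ▸ hp.two_le.trans (Nat.le_self_pow hn.ne' p)

theorem ep_minFac (v : HS F) : (qv v).minFac.Prime ∧ ((qv v).minFac : 𝓞 F) ∈ v.asIdeal := by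
  obtain ⟨p, n, hn, h1, hp, h⟩ := ep_pow v
  rw [h, hp.pow_minFac hn.ne']
  exact ⟨hp, h1⟩

theorem ep_card (T : Finset (HS F)) {p : ℕ} (hp : p.Prime) (h : ∀ v ∈ T, (qv v).minFac = p) :
    T.card ≤ Module.finrank ℤ (𝓞 F) := by
  have h1 : ∏ v ∈ T, v.asIdeal ∣ Ideal.span {(p : 𝓞 F)} := by
    rw [← Finset.prod_image (s := T) (g := fun v : HS F => v.asIdeal) (f := fun J => J)
      fun v _ w _ e => IsDedekindDomain.HeightOneSpectrum.ext e]
    refine Finset.prod_primes_dvd _ (fun J hJ => ?_) fun J hJ => ?_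
    all_goals obtain ⟨v, hv, rfl⟩ := Finset.mem_image.1 hJ
    · exact v.prime
    · exact Ideal.dvd_span_singleton.2 (h v hv ▸ (ep_minFac v).2)
  have h2 := map_dvd Ideal.absNorm h1
  rw [map_prod, Ideal.absNorm_span_natCast] at h2
  have h3 : p ^ T.card ≤ ∏ v ∈ T, Ideal.absNorm v.asIdeal :=
    Finset.pow_card_le_prod _ _ _ fun v hv => h v hv ▸ Nat.minFac_le (by have := ep_two_le v; omega)
  exact (Nat.pow_le_pow_iff_right hp.one_lt).1 (h3.trans (Nat.le_of_dvd (pow_pos hp.pos _) h2))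

theorem ep_sumP {θ : ℝ} (hθ : 1 < θ) : Summable fun v : HS F => (qv v : ℝ) ^ (-θ) := by
  have hs : Summable fun p : ℕ => (p : ℝ) ^ (-θ) := Real.summable_nat_rpow.2 (by linarith)
  refine summable_of_sum_le (c := Module.finrank ℤ (𝓞 F) * ∑' p : ℕ, (p : ℝ) ^ (-θ))
    (fun v => by positivity) fun T => ?_
  calc _ ≤ ∑ v ∈ T, ((qv v).minFac : ℝ) ^ (-θ) := Finset.sum_le_sum fun v _ =>
        Real.rpow_le_rpow_of_nonpos (by exact_mod_cast (qv v).minFac_pos)
          (by exact_mod_cast Nat.minFac_le (by have := ep_two_le v; omega)) (by linarith)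
    _ ≤ ∑ p ∈ T.image fun v => (qv v).minFac, Module.finrank ℤ (𝓞 F) * (p : ℝ) ^ (-θ) := by
        rw [Finset.sum_comp (fun p : ℕ => (p : ℝ) ^ (-θ)) fun v => (qv v).minFac]
        refine Finset.sum_le_sum fun p hp => ?_
        obtain ⟨v, -, hv⟩ := Finset.mem_image.1 hp
        rw [nsmul_eq_mul]
        gcongr
        exact ep_card _ (hv ▸ (ep_minFac v).1) fun w hw => (Finset.mem_filter.1 hw).2
    _ ≤ _ := by
        rw [← Finset.mul_sum]
        gcongr
        exact hs.sum_le_tsum _ fun p _ => by positivity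

/-- The ideals all of whose prime factors lie in `T`. -/
def ep_S (T : Finset (HS F)) : Set {J : Ideal (𝓞 F) // J ≠ ⊥} :=
  {J | ∀ v : HS F, v.asIdeal ∣ J.1 → v ∈ T}

theorem ep_dvd {v w : HS F} {k : ℕ} (h : w.asIdeal ∣ v.asIdeal ^ k) : w = v :=
  IsDedekindDomain.HeightOneSpectrum.ext
    (associated_iff_eq.1 (w.prime.associated_of_dvd v.prime (w.prime.dvd_of_dvd_pow h)))

theorem ep_equiv {T : Finset (HS F)} {v : HS F} (hv : v ∉ T) :
    ∃ e : ℕ × ep_S T ≃ ep_S (insert v T), ∀ x, (e x).1.1 = v.asIdeal ^ x.1 * x.2.1.1 := by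
  refine ⟨Equiv.ofBijective (fun x => ⟨⟨v.asIdeal ^ x.1 * x.2.1.1,
    mul_ne_zero (pow_ne_zero _ v.ne_bot) x.2.1.2⟩, fun w hw => ?_⟩) ⟨?_, ?_⟩, fun _ => rfl⟩
  · rcases w.prime.dvd_or_dvd hw with h | h
    · exact ep_dvd h ▸ Finset.mem_insert_self _ _
    · exact Finset.mem_insert_of_mem (x.2.2 w h)
  · have key : ∀ (k l : ℕ) (J J' : ep_S T), k ≤ l →
        v.asIdeal ^ k * J.1.1 = v.asIdeal ^ l * J'.1.1 → k = l ∧ J = J' := by
      intro k l J J' hkl h
      obtain ⟨m, rfl⟩ := Nat.exists_eq_add_of_le hkl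
      rw [pow_add, mul_assoc] at h
      have h1 := mul_left_cancel₀ (pow_ne_zero k v.ne_bot) h
      rcases m with _ | m
      · exact ⟨rfl, Subtype.ext (Subtype.ext (by simpa using h1))⟩
      · exact (hv (J.2 v (h1 ▸ (dvd_pow_self _ m.succ_ne_zero).mul_right _))).elim
    rintro ⟨k, J⟩ ⟨l, J'⟩ h
    have h1 : v.asIdeal ^ k * J.1.1 = v.asIdeal ^ l * J'.1.1 :=
      congrArg (fun x : ep_S (insert v T) => x.1.1) h
    rcases le_total k l with h2 | h2
    · exact Prod.ext (key k l J J' h2 h1).1 (key k l J J' h2 h1).2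
    · exact Prod.ext (key l k J' J h2 h1.symm).1.symm (key l k J' J h2 h1.symm).2.symm
  · rintro ⟨⟨J, hJ⟩, h⟩
    obtain ⟨k, J', h1, rfl⟩ := WfDvdMonoid.max_power_factor hJ v.irreducible
    refine ⟨(k, ⟨⟨J', right_ne_zero_of_mul hJ⟩, fun w hw => ?_⟩), rfl⟩
    exact (Finset.mem_insert.1 (h w (hw.mul_left _))).resolve_left fun e => h1 (e ▸ hw)

theorem ep_empty : ep_S (∅ : Finset (HS F)) = {⟨⊤, top_ne_bot⟩} := by
  ext J
  refine ⟨fun h => Subtype.ext (by_contra fun h' => ?_), fun h v hv => ?_⟩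
  · obtain ⟨P, hP, hle⟩ := Ideal.exists_le_maximal J.1 h'
    exact Finset.notMem_empty _ (h ⟨P, hP.isPrime, fun e => J.2 (le_bot_iff.1 (e ▸ hle))⟩
      (Ideal.dvd_iff_le.2 hle))
  · rw [Set.mem_singleton_iff.1 h] at hv
    exact (v.isPrime.ne_top (top_le_iff.1 (Ideal.le_of_dvd hv))).elim

theorem ep_fin {R : Type} [NormedField R] [CompleteSpace R] (f : Ideal (𝓞 F) →* R)
    (h : ∀ v : HS F, ‖f v.asIdeal‖ < 1) (T : Finset (HS F)) :
    (Summable fun J : ep_S T => ‖f J.1.1‖) ∧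
      HasSum (fun J : ep_S T => f J.1.1) (∏ v ∈ T, (1 - f v.asIdeal)⁻¹) := by
  induction T using Finset.induction with
  | empty =>
    rw [ep_empty, Finset.prod_empty, ← f.map_one, Ideal.one_eq_top]
    exact ⟨(Set.finite_singleton _).summable fun J : {J : Ideal (𝓞 F) // J ≠ ⊥} => ‖f J.1‖,
      hasSum_singleton (⟨⊤, top_ne_bot⟩ : {J : Ideal (𝓞 F) // J ≠ ⊥}) fun J => f J.1⟩
  | insert v T hv ih =>
    obtain ⟨e, he⟩ := ep_equiv hv
    have h1 : Summable fun k : ℕ => ‖f v.asIdeal ^ k‖ := summable_norm_geometric_of_norm_lt_one (h v)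
    rw [← e.summable_iff, ← e.hasSum_iff, Finset.prod_insert hv]
    simp only [Function.comp_def, he, map_mul, map_pow]
    refine ⟨?_, ?_⟩
    · apply Summable.mul_norm h1 ih.1
    · apply (hasSum_geometric_of_norm_lt_one (h v)).mul ih.2
      apply summable_mul_of_summable_norm h1 ih.1

theorem ep_ev (J : {J : Ideal (𝓞 F) // J ≠ ⊥}) : ∀ᶠ T : Finset (HS F) in atTop, J ∈ ep_S T := by
  filter_upwards [eventually_ge_atTop (Ideal.finite_factors J.2).toFinset] with T hT v hv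
  exact hT ((Set.Finite.mem_toFinset _).2 hv)

theorem ep_sumI {θ : ℝ} (hθ : 1 < θ) :
    Summable fun J : {J : Ideal (𝓞 F) // J ≠ ⊥} => (Ideal.absNorm J.1 : ℝ) ^ (-θ) := by
  let f : Ideal (𝓞 F) →* ℝ :=
    { toFun := fun J => (Ideal.absNorm J : ℝ) ^ (-θ)
      map_one' := by simp
      map_mul' := fun I J => by
        rw [map_mul, Nat.cast_mul, Real.mul_rpow (Nat.cast_nonneg _) (Nat.cast_nonneg _)] }
  have h0 : ∀ J, 0 ≤ f J := fun J => Real.rpow_nonneg (Nat.cast_nonneg _) _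
  have h1 : ∀ v : HS F, f v.asIdeal ≤ 1 / 2 := fun v => by
    have h2 : (2 : ℝ) ≤ qv v := by exact_mod_cast ep_two_le v
    calc _ ≤ (qv v : ℝ) ^ (-1 : ℝ) := Real.rpow_le_rpow_of_exponent_le (by linarith) (by linarith)
      _ ≤ _ := by rw [Real.rpow_neg_one, ← one_div]; gcongr
  refine summable_of_sum_le (c := Real.exp (2 * ∑' v : HS F, (qv v : ℝ) ^ (-θ)))
    (fun J => h0 J.1) fun s => ?_
  obtain ⟨T, hT⟩ := ((eventually_all_finset s).2 fun J _ => ep_ev J).exists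
  have h2 := (hasSum_subtype_iff_indicator (f := fun J : {J : Ideal (𝓞 F) // J ≠ ⊥} => f J.1)).1
    (ep_fin f (fun v => by rw [Real.norm_of_nonneg (h0 _)]; linarith [h1 v]) T).2
  calc _ = ∑ J ∈ s, (ep_S T).indicator (fun J => f J.1) J :=
        Finset.sum_congr rfl fun J hJ => (Set.indicator_of_mem (hT J hJ) fun J => f J.1).symm
    _ ≤ _ := sum_le_hasSum s (fun J _ => Set.indicator_nonneg (fun _ _ => h0 _) _) h2
    _ ≤ ∏ v ∈ T, Real.exp (2 * f v.asIdeal) := by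
        refine Finset.prod_le_prod (fun v _ => inv_nonneg.2 (by linarith [h1 v])) fun v _ => ?_
        refine le_trans ?_ (Real.add_one_le_exp _)
        rw [inv_le_iff_one_le_mul₀ (by linarith [h1 v])]
        nlinarith [h0 v.asIdeal, h1 v]
    _ ≤ _ := by
        rw [← Real.exp_sum, ← Finset.mul_sum]
        gcongr
        exact (ep_sumP hθ).sum_le_tsum T fun v _ => h0 _

theorem ep_norm_lt (v : HS F) {z : ℂ} (hz : 0 < z.re) : ‖(qv v : ℂ) ^ (-z)‖ < 1 := by
  have h := ep_two_le v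
  rw [norm_natCast_cpow_of_pos (by omega), neg_re]
  exact Real.rpow_lt_one_of_one_lt_of_neg (by exact_mod_cast h) (by linarith)

end

theorem eP : EP := by
  intro F _ _
  refine ⟨fun θ => ep_sumI, fun θ => ep_sumP, fun g z g1 gm gb hz => ?_⟩
  let f : Ideal (𝓞 F) →* ℂ :=
    { toFun := fun J => g (Ideal.absNorm J) * (Ideal.absNorm J : ℂ) ^ (-z)
      map_one' := by simp [g1]
      map_mul' := fun I J => by
        rw [map_mul, gm, Nat.cast_mul, natCast_mul_natCast_cpow]; ring }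
  have h1 : ∀ v : HS F, ‖f v.asIdeal‖ < 1 := fun v =>
    (norm_mul_le _ _).trans_lt ((mul_le_of_le_one_left (norm_nonneg _) (gb _)).trans_lt
      (ep_norm_lt v (by linarith)))
  have h2 : ∀ J : {J : Ideal (𝓞 F) // J ≠ ⊥}, ‖f J.1‖ ≤ (Ideal.absNorm J.1 : ℝ) ^ (-z.re) :=
    fun J => (norm_mul_le _ _).trans ((mul_le_of_le_one_left (norm_nonneg _) (gb _)).trans_eq
      (norm_natCast_cpow_of_pos (Nat.pos_of_ne_zero (mt Ideal.absNorm_eq_zero_iff.1 J.2)) _))
  have h3 := tendsto_tsum_of_dominated_convergence (𝓕 := atTop)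
    (f := fun (T : Finset (HS F)) J => (ep_S T).indicator (fun J => f J.1) J)
    (g := fun J => f J.1) (ep_sumI hz)
    (fun J => tendsto_const_nhds.congr' ((ep_ev J).mono fun T hT =>
      (Set.indicator_of_mem hT fun J => f J.1).symm))
    (.of_forall fun T J => (norm_indicator_le_norm_self _ _).trans (h2 J))
  refine h3.congr fun T => ?_
  exact ((hasSum_subtype_iff_indicator (f := fun J : {J : Ideal (𝓞 F) // J ≠ ⊥} => f J.1)).1
    (ep_fin f h1 T).2).tsum_eq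

theorem ep_x0_mul (a b : ℕ) : x0 (a * b) = x0 a * x0 b := by
  simp only [x0, ← Nat.dvd_iff_mod_eq_zero, Nat.prime_three.dvd_mul]
  by_cases h : 3 ∣ a <;> by_cases h' : 3 ∣ b <;> simp [h, h']

theorem rm3 : Rm3 := by
  intro F _ _
  have h3 : Ideal.span {((3 : ℕ) : 𝓞 F)} ≠ 0 := by simp
  have hne : ∀ (v : HS F) (z : ℂ), 0 < z.re → 1 - (qv v : ℂ) ^ (-z) ≠ 0 := fun v z hz h => by
    have := ep_norm_lt v hz
    rw [← sub_eq_zero.1 h, norm_one] at this
    exact lt_irrefl _ this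
  refine ⟨fun z => ∏ v ∈ (Ideal.finite_factors h3).toFinset, (1 - (qv v : ℂ) ^ (-z)),
    Differentiable.fun_finsetProd fun v _ => (differentiable_const _).sub
      (differentiable_neg.const_cpow (Or.inl ?_)),
    fun z hz => Finset.prod_ne_zero_iff.2 fun v _ => hne v z hz, fun z hz => ?_⟩
  · have := ep_two_le v
    exact Nat.cast_ne_zero.2 (by omega)
  have h1 := (eP F).2.2 (fun _ => 1) z rfl (fun _ _ => (mul_one _).symm) (fun _ => norm_one.le) hz
  have h2 := (eP F).2.2 x0 z (by simp [x0]) ep_x0_mul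
    (fun a => by rw [x0]; split_ifs <;> simp) hz
  have h4 : HasProd (fun v : HS F => if v ∈ (Ideal.finite_factors h3).toFinset then
      1 - (qv v : ℂ) ^ (-z) else 1) _ :=
    hasProd_prod_of_ne_finset_one (s := (Ideal.finite_factors h3).toFinset) fun v hv => if_neg hv
  rw [Finset.prod_congr rfl fun v hv => if_pos hv] at h4
  have h5 : zg F (fun _ => 1) z = zeta F z := by simp [zg, NQ.zeta]
  rw [← h5]
  refine h2.unique ?_
  convert h1.mul h4 using 2 with v
  obtain ⟨p, n, hn, hp1, hp, hq⟩ := ep_pow v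
  have h6 : v ∈ (Ideal.finite_factors h3).toFinset ↔ qv v % 3 = 0 := by
    rw [Set.Finite.mem_toFinset, Set.mem_setOf_eq, Ideal.dvd_span_singleton,
      ← Nat.dvd_iff_mod_eq_zero, hq]
    refine ⟨fun h => ep_uniq v Nat.prime_three hp h hp1 ▸ dvd_pow_self 3 hn.ne', fun h => ?_⟩
    rwa [(Nat.prime_dvd_prime_iff_eq Nat.prime_three hp).1 (Nat.prime_three.dvd_of_dvd_pow h)]
  rw [x0]
  simp only [h6]
  split_ifs
  · rw [one_mul, inv_mul_cancel₀ (hne v z (by linarith))]; simp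
  · simp

end ART
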