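import Vale.Agent.P016.Base

noncomputable section
namespace ART
open Complex MeasureTheory NumberField Filter
open scoped Classical Topology

section
variable {K : Type} [Field K] [NumberField K]

theorem poisK_norm_ch (x : K) : ‖ch x‖ = 1 := by
  unfold ch
  have : (2 * Real.pi * I * ((Algebra.trace ℚ K x : ℚ) : ℂ))
      = ((2 * Real.pi * ((Algebra.trace ℚ K x : ℚ) : ℝ) : ℝ) : ℂ) * I := by
    push_cast; ring
  rw [this, Complex.norm_exp_ofReal_mul_I]

theorem poisK_ch_zero : ch (0 : K) = 1 := by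
  unfold ch; simp

theorem poisK_dl_zero : Dl (0 : K) := fun y => ⟨0, by simp⟩

theorem poisK_bij (m : ℕ) (hm : 0 < m) :
    Function.Bijective fun p : (𝓞 K ⧸ Ideal.span {(m : 𝓞 K)}) × 𝓞 K =>
      (Quotient.out p.1 + m * p.2 : 𝓞 K) := by
  have hm' : (m : 𝓞 K) ≠ 0 := by exact_mod_cast hm.ne'
  have hmk : ∀ (q : 𝓞 K ⧸ Ideal.span {(m : 𝓞 K)}) (x : 𝓞 K),
      Ideal.Quotient.mk (Ideal.span {(m : 𝓞 K)}) (Quotient.out q + m * x) = q := by
    intro q x
    have h0 : Ideal.Quotient.mk (Ideal.span {(m : 𝓞 K)}) ((m : 𝓞 K) * x) = 0 :=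
      Ideal.Quotient.eq_zero_iff_mem.2 (Ideal.mem_span_singleton.2 (dvd_mul_right _ _))
    rw [map_add, h0, add_zero]
    exact Ideal.Quotient.mk_out q
  constructor
  · rintro ⟨q, x⟩ ⟨q', x'⟩ h
    have hq : q = q' := by
      have h1 := congrArg (Ideal.Quotient.mk (Ideal.span {(m : 𝓞 K)})) h
      simp only at h1
      rwa [hmk, hmk] at h1
    subst hq
    simp only [add_right_inj] at h
    rw [mul_left_cancel₀ hm' h]
  · intro y
    have h1 : y - Quotient.out (Ideal.Quotient.mk (Ideal.span {(m : 𝓞 K)}) y)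
        ∈ Ideal.span {(m : 𝓞 K)} := by
      rw [← Ideal.Quotient.eq]
      exact (Ideal.Quotient.mk_out _).symm
    obtain ⟨x, hx⟩ := Ideal.mem_span_singleton.1 h1
    refine ⟨⟨Ideal.Quotient.mk _ y, x⟩, ?_⟩
    simp only
    rw [← hx]; ring

theorem poisK_Gs (m : ℕ) (hm : 0 < m) (η : K) (u : InfinitePlace K → ℝ) :
    Gs (η / dc K / m) (fun w => Real.log 3 - u w)
      = Gs η (fun w => Real.log 3 - 2 * Real.log (m * dc K) - u w) := by
  have hm' : (m : K) ≠ 0 := by exact_mod_cast hm.ne'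
  have hd' : (dc K : K) ≠ 0 := by exact_mod_cast (dc_pos (K := K)).ne'
  have h1 : η / dc K / m = ((m * dc K : ℕ) : K)⁻¹ * η := by
    push_cast; field_simp
  have h2 : ((m * dc K : ℕ) : K)⁻¹ ≠ 0 := by
    push_cast; exact inv_ne_zero (mul_ne_zero hm' hd')
  rw [h1, Gs_mul h2, lg_inv]
  congr 1
  funext w
  simp only [Pi.add_apply, Pi.neg_apply, lg, InfinitePlace.map_natCast, Real.log_pow]
  push_cast; ring

theorem poisK_split {ρ : 𝓞 K → ℂ} (h : ∀ x, ‖ρ x‖ ≤ 1) (u : InfinitePlace K → ℝ) :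
    Summable (fun x : 𝓞 K => ρ x * (Gs (x : K) u : ℝ)) ∧
    ρ 0 + Th ρ u = ∑' x : 𝓞 K, ρ x * (Gs (x : K) u : ℝ) := by
  have hs : Summable (fun x : 𝓞 K => ρ x * (Gs (x : K) u : ℝ)) := by
    refine Summable.of_norm_bounded (summable_Gs (one_ne_zero) (0 : K) u) fun x => ?_
    rw [norm_mul, Complex.norm_real, Real.norm_of_nonneg (Gs_pos _ _).le, zero_add, one_mul]
    exact mul_le_of_le_one_left (Gs_pos _ _).le (h x)
  refine ⟨hs, ?_⟩
  rw [hs.tsum_eq_add_tsum_ite 0]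
  unfold Th
  congr 1
  simp [Gs_zero]

end

theorem poisK (h : PoisL) : PoisK := by
  intro K _ _ _
  obtain ⟨κ, h1, h2, hP⟩ := h K
  refine ⟨κ, h1, h2, fun m ρ hm hper hρ => ?_⟩
  have hm' : (m : K) ≠ 0 := by exact_mod_cast hm.ne'
  have hd' : (dc K : K) ≠ 0 := by exact_mod_cast (dc_pos (K := K)).ne'
  have hmC : (m : ℂ) ≠ 0 := by exact_mod_cast hm.ne'
  have hcard := card_quot (K := K) hm
  have : Finite (𝓞 K ⧸ Ideal.span {(m : 𝓞 K)}) :=
    Nat.finite_of_card_ne_zero (by rw [hcard]; exact pow_ne_zero _ hm.ne')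
  let _ : Fintype (𝓞 K ⧸ Ideal.span {(m : 𝓞 K)}) := Fintype.ofFinite _
  rw [Nat.card_eq_fintype_card] at hcard
  set ρ' : 𝓞 K → ℂ := fun η => if Dl ((η : K) / dc K) then
      (∑ q : 𝓞 K ⧸ Ideal.span {(m : 𝓞 K)}, ρ (Quotient.out q) *
        ch (((Quotient.out q : 𝓞 K) : K) * ((η : K) / dc K) / m)) / (m : ℂ) ^ dg K else 0 with hρ'
  have hb : ∀ y, ‖ρ' y‖ ≤ 1 := by
    intro y
    simp only [hρ']
    split_ifs
    · rw [norm_div, norm_pow, Complex.norm_natCast, div_le_one (by positivity)]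
      refine (norm_sum_le _ _).trans ?_
      refine (Finset.sum_le_card_nsmul _ _ 1 fun q _ => ?_).trans ?_
      · rw [norm_mul, poisK_norm_ch, mul_one]; exact hρ _
      · rw [Finset.card_univ, hcard]; simp
    · simp
  refine ⟨ρ', hb, ?_, fun u => ?_⟩
  · simp only [hρ', mean, finsum_eq_sum_of_fintype]
    simp [poisK_dl_zero, poisK_ch_zero]
  obtain ⟨hs, hsum⟩ := poisK_split hρ u
  obtain ⟨-, hsum'⟩ := poisK_split hb (fun w => Real.log 3 - 2 * Real.log (m * dc K) - u w)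
  rw [hsum, hsum']
  set e := Equiv.ofBijective _ (poisK_bij (K := K) m hm) with he
  have hs2 := (e.summable_iff).2 hs
  rw [← e.tsum_eq, show (fun c => ρ (e c) * ((Gs ((e c : 𝓞 K) : K) u : ℝ) : ℂ))
    = (fun x : 𝓞 K => ρ x * ((Gs (x : K) u : ℝ) : ℂ)) ∘ e from rfl, hs2.tsum_prod, tsum_fintype]
  have hinj : Function.Injective fun η : 𝓞 K => (η : K) / dc K := by
    intro a b hab
    simp only at hab
    rw [div_left_inj' hd'] at hab
    exact Subtype.ext hab
  set v : InfinitePlace K → ℝ := fun w => Real.log 3 - 2 * Real.log (m * dc K) - u w with hv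
  set G : (𝓞 K ⧸ Ideal.span {(m : 𝓞 K)}) → 𝓞 K → ℂ := fun q η => if Dl ((η : K) / dc K) then
      ch (((Quotient.out q : 𝓞 K) : K) * ((η : K) / dc K) / m) * (Gs (η : K) v : ℝ) else 0 with hG
  have hGs : ∀ q, Summable (G q) := by
    intro q
    refine Summable.of_norm_bounded (summable_Gs (one_ne_zero) (0 : K) v) fun x => ?_
    simp only [hG]
    rw [zero_add, one_mul]
    split_ifs
    · rw [norm_mul, poisK_norm_ch, Complex.norm_real, Real.norm_of_nonneg (Gs_pos _ _).le, one_mul]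
    · rw [norm_zero]; exact (Gs_pos _ _).le
  have hq : ∀ q : 𝓞 K ⧸ Ideal.span {(m : 𝓞 K)},
      ∑' c : 𝓞 K, ((fun x : 𝓞 K => ρ x * ((Gs (x : K) u : ℝ) : ℂ)) ∘ e) (q, c)
        = ((κ / (m : ℝ) ^ dg K * Real.exp (-∑ w, u w) : ℝ) : ℂ) *
          ∑' η, ρ (Quotient.out q) * G q η := by
    intro q
    have h3 : ∀ c : 𝓞 K, ((fun x : 𝓞 K => ρ x * ((Gs (x : K) u : ℝ) : ℂ)) ∘ e) (q, c)
        = ρ (Quotient.out q) * ((Gs ((Quotient.out q + m * c : 𝓞 K) : K) u : ℝ) : ℂ) := by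
      intro c
      show ρ (Quotient.out q + m * c) * _ = _
      rw [hper]; rfl
    simp only [h3]
    rw [tsum_mul_left, hP m _ u hm, tsum_mul_left, mul_left_comm]
    congr 2
    rw [← hinj.tsum_eq]
    · refine tsum_congr fun η => ?_
      simp only [hG]
      rw [poisK_Gs m hm]
    · intro ξ hξ
      have hD : Dl ξ := by
        by_contra hn
        exact hξ (if_neg hn)
      obtain ⟨y, hy⟩ := hD.integral
      refine ⟨y, ?_⟩
      simp only
      rw [hy]; field_simp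
  simp only [hq]
  rw [← Finset.mul_sum, ← Summable.tsum_finsetSum fun q _ => (hGs q).mul_left _, ← tsum_mul_left,
    ← tsum_mul_left]
  refine tsum_congr fun η => ?_
  simp only [hG, hρ']
  split_ifs
  · simp only [← mul_assoc]
    rw [← Finset.sum_mul]
    generalize (∑ q : 𝓞 K ⧸ Ideal.span {(m : 𝓞 K)}, ρ (Quotient.out q) *
        ch (((Quotient.out q : 𝓞 K) : K) * ((η : K) / dc K) / m)) = T
    push_cast
    field_simp
  · simp

end ART
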