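import Vale.Agent.P016.Base
import Vale.Agent.P026.Pois

noncomputable section
namespace ART
open Complex MeasureTheory NumberField Filter
open scoped Classical Topology

section aux
variable {K : Type} [Field K] [NumberField K]

/-- The index set of the integral basis. -/
abbrev PoisLI (K : Type) [Field K] [NumberField K] : Type :=
  Module.Free.ChooseBasisIndex ℤ (𝓞 K)

/-- Real coordinates on the product of the complex places. -/
def PoisLP (x : PoisLI K → ℝ) (w : InfinitePlace K) : ℂ :=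
  ∑ i, (x i : ℂ) * w.embedding (integralBasis K i)

/-- Coordinates on the dual lattice. -/
def PoisLD (k : PoisLI K → ℤ) : K := (integralBasis K).traceDual.equivFun.symm fun i => (k i : ℚ)

/-- The covolume. -/
def PoisLc (K : Type) [Field K] [NumberField K] : ℝ := 2⁻¹ ^ rk K * √(dc K)

theorem PoisL_tr [IsTotallyComplex K] (x : K) :
    ((Algebra.trace ℚ K x : ℚ) : ℝ) = ∑ w : InfinitePlace K, 2 * (w.embedding x).re := by
  have h := congrArg Complex.re (trace_eq_sum_embeddings ℂ (K := ℚ) (L := K) (x := x))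
  rw [← (RingHom.equivRatAlgHom K ℂ).sum_comp, Complex.re_sum,
    ← Finset.univ.sum_fiberwise (fun φ => InfinitePlace.mk φ)] at h
  refine Eq.trans (by simp) (h.trans (Finset.sum_congr rfl fun w _ => ?_))
  have e : ∀ φ ∈ Finset.univ.filter (fun φ : K →+* ℂ => InfinitePlace.mk φ = w),
      (RingHom.equivRatAlgHom K ℂ φ x).re = (w.embedding x).re := by
    intro φ hφ
    rw [← (Finset.mem_filter.1 hφ).2]
    rcases InfinitePlace.embedding_mk_eq φ with h1 | h1
    · rw [h1]; rfl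
    · rw [h1, ComplexEmbedding.conjugate_coe_eq, Complex.conj_re]; rfl
  rw [Finset.sum_congr rfl e, Finset.sum_const, InfinitePlace.card_filter_mk_eq,
    IsTotallyComplex.mult_eq, nsmul_eq_mul, Nat.cast_ofNat]

theorem PoisL_mp {ι E : Type} [Fintype ι] [NormedAddCommGroup E] [NormedSpace ℝ E]
    [FiniteDimensional ℝ E] [MeasurableSpace E] [BorelSpace E] (μ : Measure E) [μ.IsAddHaarMeasure]
    (B : Module.Basis ι ℝ E) {c : ℝ} (hc : c = (μ (ZSpan.fundamentalDomain B)).toReal) :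
    MeasurePreserving B.equivFunL.symm volume (ENNReal.ofReal c⁻¹ • μ) := by
  refine ⟨B.equivFunL.symm.continuous.measurable, ?_⟩
  have h1 := Measure.isAddLeftInvariant_eq_smul
    (Measure.map B.equivFunL.symm (volume : Measure (ι → ℝ))) μ
  generalize Measure.addHaarScalarFactor
    (Measure.map B.equivFunL.symm (volume : Measure (ι → ℝ))) μ = r at h1
  have h2 : Measure.map B.equivFunL.symm (volume : Measure (ι → ℝ))
      (ZSpan.fundamentalDomain B) = 1 := by
    rw [Measure.map_apply B.equivFunL.symm.continuous.measurable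
      (ZSpan.fundamentalDomain_measurableSet B)]
    have : B.equivFunL.symm ⁻¹' ZSpan.fundamentalDomain B =
        Set.pi Set.univ fun _ => Set.Ico (0 : ℝ) 1 := by
      ext x
      have e : ∀ i, B.repr (B.equivFunL.symm x) i = x i := fun i =>
        congrFun (B.equivFunL.apply_symm_apply x) i
      simp only [Set.mem_preimage, ZSpan.mem_fundamentalDomain, e, Set.mem_pi, Set.mem_univ,
        true_imp_iff]
    rw [this, volume_pi, Measure.pi_pi]
    simp
  rw [h1, Measure.smul_apply] at h2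
  have h3 := congrArg ENNReal.toReal h2
  rw [ENNReal.smul_def, smul_eq_mul, ENNReal.toReal_mul, ← hc, ENNReal.coe_toReal,
    ENNReal.toReal_one] at h3
  rw [h1, ENNReal.smul_def, ← eq_inv_of_mul_eq_one_left h3, ENNReal.ofReal_coe_nnreal]

theorem PoisL_c_pos : 0 < PoisLc K := by
  have : (0 : ℝ) < dc K := Nat.cast_pos.2 dc_pos
  unfold PoisLc
  positivity

theorem PoisL_vol [IsTotallyComplex K] : PoisLc K =
    (volume (ZSpan.fundamentalDomain (mixedEmbedding.latticeBasis K))).toReal := by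
  have e : InfinitePlace.nrComplexPlaces K = rk K :=
    Fintype.card_congr (Equiv.subtypeUnivEquiv IsTotallyComplex.isComplex)
  rw [mixedEmbedding.volume_fundamentalDomain_latticeBasis, ENNReal.toReal_mul, ENNReal.toReal_pow,
    ENNReal.toReal_inv, ENNReal.coe_toReal, Real.coe_sqrt, coe_nnnorm, Int.norm_eq_abs, e,
    PoisLc, dc, Nat.cast_natAbs, Int.cast_abs]
  rfl

theorem PoisL_int [IsTotallyComplex K] (g : InfinitePlace K → ℂ → ℂ) :
    ∫ x, ∏ w, g w (PoisLP x w) = (((PoisLc K)⁻¹ : ℝ) : ℂ) * ∏ w, ∫ t, g w t := by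
  let B := mixedEmbedding.latticeBasis K
  let e := Equiv.subtypeUnivEquiv (IsTotallyComplex.isComplex (K := K))
  have h := (PoisL_mp volume B PoisL_vol).integral_comp
    B.equivFunL.symm.toHomeomorph.measurableEmbedding fun z => ∏ w, g w.1 (z.2 w)
  have hE : IsEmpty {w : InfinitePlace K // w.IsReal} :=
    ⟨fun w => InfinitePlace.not_isReal_iff_isComplex.2 (IsTotallyComplex.isComplex w.1) w.2⟩
  have h1 := integral_prod_mul (μ := (volume : Measure ({w : InfinitePlace K // w.IsReal} → ℝ)))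
    (ν := (volume : Measure ({w : InfinitePlace K // w.IsComplex} → ℂ))) (fun _ => (1 : ℂ))
    fun z => ∏ w, g w.1 (z w)
  have h2 : ∫ _x : {w : InfinitePlace K // w.IsReal} → ℝ, (1 : ℂ) = 1 := by
    rw [integral_const, Measure.real, volume_pi, Measure.pi_univ]
    simp
  simp only [one_mul] at h1
  rw [h2, one_mul, integral_fintype_prod_volume_eq_prod, ← Measure.volume_eq_prod] at h1
  rw [integral_smul_measure, ENNReal.toReal_ofReal (inv_pos.2 PoisL_c_pos).le, Complex.real_smul,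
    h1] at h
  rw [← e.prod_comp fun w => ∫ t, g w t]
  refine Eq.trans (integral_congr_ae (Eventually.of_forall fun x => ?_)) h
  have h3 : B.equivFunL.symm x = ∑ i, x i • B i := B.equivFun_symm_apply x
  simp only [← e.prod_comp fun w => g w (PoisLP x w)]
  refine Finset.prod_congr rfl fun w _ => congrArg (g w.1) ?_
  rw [h3, Prod.snd_sum, Finset.sum_apply]
  refine Finset.sum_congr rfl fun i _ => ?_
  simp only [B, mixedEmbedding.latticeBasis_apply, Prod.smul_snd, Pi.smul_apply,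
    mixedEmbedding.mixedEmbedding_apply_isComplex, Complex.real_smul]
  rfl

theorem PoisL_one {T m : ℝ} (hT : 0 < T) (hm : 0 < m) (y ξ : ℂ) :
    ∫ t : ℂ, (Vg (‖y + m * t‖ ^ 2 * T) : ℝ) * cexp (-(2 * Real.pi * I * (2 * (t * ξ).re : ℝ)))
      = ((√3 / (2 * m ^ 2 * T) : ℝ) : ℂ) * (cexp (2 * Real.pi * I * (2 * (y * ξ / m).re : ℝ))
        * (Vg (‖ξ / m‖ ^ 2 * (3 / T)) : ℝ)) := by
  have h3 : (0 : ℝ) < √3 := by positivity
  have h33 : √3 ^ 2 = (3 : ℝ) := Real.sq_sqrt (by norm_num)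
  have hπ := Real.pi_pos
  have hm' : (m : ℂ) ≠ 0 := Complex.ofReal_ne_zero.2 hm.ne'
  have hb : 0 < (((2 * Real.pi / √3 * (m ^ 2 * T) : ℝ) : ℂ)).re := by
    rw [ofReal_re]
    positivity
  have key := GaussianFourier.integral_cexp_neg_mul_sq_norm_add (V := ℂ) hb
    (((-(4 * Real.pi) : ℝ) : ℂ) * I) (starRingEnd ℂ ξ)
  have h1 : ∀ t : ℂ, (Vg (‖y + m * (t - y / m)‖ ^ 2 * T) : ℝ)
      * cexp (-(2 * Real.pi * I * (2 * ((t - y / m) * ξ).re : ℝ))) =
      cexp (2 * Real.pi * I * (2 * (y * ξ / m).re : ℝ)) *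
      cexp (-((2 * Real.pi / √3 * (m ^ 2 * T) : ℝ) : ℂ) * (‖t‖ : ℂ) ^ 2 +
        ((-(4 * Real.pi) : ℝ) : ℂ) * I * ((inner ℝ (starRingEnd ℂ ξ) t : ℝ) : ℂ)) := by
    intro t
    have e1 : (inner ℝ (starRingEnd ℂ ξ) t : ℝ) = (t * ξ).re := by
      simp [Complex.inner]
    have e2 : y + m * (t - y / m) = m * t := by field_simp; ring
    have e3 : (t - y / m) * ξ = t * ξ - y * ξ / m := by ring
    rw [e1, e2, e3, norm_mul, Complex.norm_real, Real.norm_of_nonneg hm.le, QRH.Vg,
      Complex.ofReal_exp, ← Complex.exp_add, ← Complex.exp_add, sub_re]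
    congr 1
    push_cast
    ring
  have h4 : (((-(4 * Real.pi) : ℝ) : ℂ) * I) ^ 2 * (‖starRingEnd ℂ ξ‖ : ℂ) ^ 2 /
      (4 * ((2 * Real.pi / √3 * (m ^ 2 * T) : ℝ) : ℂ)) =
      ((-(2 * Real.pi / √3) * (‖ξ / m‖ ^ 2 * (3 / T)) : ℝ) : ℂ) := by
    have e : (-(2 * Real.pi / √3) * (‖ξ / m‖ ^ 2 * (3 / T)) : ℝ) =
        -((4 * Real.pi) ^ 2 * ‖ξ‖ ^ 2 / (4 * (2 * Real.pi / √3 * (m ^ 2 * T)))) := by
      rw [norm_div, Complex.norm_real, Real.norm_of_nonneg hm.le]
      field_simp
      rw [h33]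
      ring
    rw [e, Complex.norm_conj, mul_pow, I_sq]
    push_cast
    ring
  rw [← integral_sub_right_eq_self _ (y / m)]
  simp only [h1]
  rw [integral_const_mul, key, h4, Complex.finrank_real_complex, ← Complex.ofReal_exp, QRH.Vg]
  have h5 : ((2 : ℕ) : ℂ) / 2 = 1 := by norm_num
  rw [h5, cpow_one, ← Complex.ofReal_div, mul_left_comm]
  congr 2
  field_simp

theorem PoisL_trD (k : PoisLI K → ℤ) (i : PoisLI K) :
    Algebra.trace ℚ K (PoisLD k * integralBasis K i) = k i := by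
  rw [← Algebra.traceForm_apply, ← Module.Basis.traceDual_repr_apply]
  exact congrFun ((integralBasis K).traceDual.equivFun.apply_symm_apply fun i => (k i : ℚ)) i

theorem PoisL_inj : Function.Injective (PoisLD (K := K)) := by
  intro k l h
  funext i
  have h1 := PoisL_trD k i
  rw [h, PoisL_trD] at h1
  exact_mod_cast h1.symm

theorem PoisL_dual (ξ : K) : Dl ξ ↔ ξ ∈ Set.range PoisLD := by
  constructor
  · intro h
    choose k hk using fun i => h (RingOfIntegers.basis K i)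
    refine ⟨k, (integralBasis K).traceDual.ext_elem fun i => ?_⟩
    rw [Module.Basis.traceDual_repr_apply, Module.Basis.traceDual_repr_apply,
      Algebra.traceForm_apply, Algebra.traceForm_apply, PoisL_trD, integralBasis_apply]
    exact (hk i).symm
  · rintro ⟨k, rfl⟩ y
    refine ⟨∑ i, (RingOfIntegers.basis K).repr y i * k i, ?_⟩
    have e : (y : K) = ∑ i, (((RingOfIntegers.basis K).repr y i : ℤ) : ℚ) • integralBasis K i := by
      conv_lhs => rw [← (integralBasis K).sum_repr (y : K)]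
      exact Finset.sum_congr rfl fun i _ => congrArg (· • _) (integralBasis_repr_apply K y i)
    rw [e, Finset.mul_sum, map_sum]
    push_cast
    refine Finset.sum_congr rfl fun i _ => ?_
    rw [mul_smul_comm, map_smul, PoisL_trD, smul_eq_mul]

theorem PoisL_char [IsTotallyComplex K] (k : PoisLI K → ℤ) (x : PoisLI K → ℝ) :
    QRH.poisE k x = ∏ w : InfinitePlace K,
      cexp (-(2 * Real.pi * I * (2 * (PoisLP x w * w.embedding (PoisLD k)).re : ℝ))) := by
  have h1 : ∑ w : InfinitePlace K, 2 * (PoisLP x w * w.embedding (PoisLD k)).re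
      = ∑ i, (k i : ℝ) * x i := by
    simp only [PoisLP, Finset.sum_mul, Complex.re_sum, Finset.mul_sum]
    rw [Finset.sum_comm]
    refine Finset.sum_congr rfl fun i _ => ?_
    have h2 := PoisL_tr (PoisLD k * integralBasis K i)
    rw [PoisL_trD, Rat.cast_intCast] at h2
    rw [h2, Finset.sum_mul]
    refine Finset.sum_congr rfl fun w _ => ?_
    rw [mul_assoc (x i : ℂ), Complex.re_ofReal_mul, map_mul, mul_comm (w.embedding (PoisLD k))]
    ring
  rw [← Complex.exp_sum, Finset.sum_neg_distrib, ← Finset.mul_sum, ← Complex.ofReal_sum, h1,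
    QRH.poisE]
  push_cast
  rfl

theorem PoisL_lat (k : PoisLI K → ℤ) (w : InfinitePlace K) : PoisLP (fun i => (k i : ℝ)) w
    = w.embedding (((RingOfIntegers.basis K).equivFun.symm k : 𝓞 K) : K) := by
  rw [Module.Basis.equivFun_symm_apply, PoisLP]
  simp

theorem PoisL_add (x y : PoisLI K → ℝ) (w : InfinitePlace K) :
    PoisLP (x + y) w = PoisLP x w + PoisLP y w := by
  simp [PoisLP, add_mul, Finset.sum_add_distrib]

theorem PoisL_bd {x : PoisLI K → ℝ} {R : ℝ} (h : ‖x‖ ≤ R) (w : InfinitePlace K) :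
    ‖PoisLP x w‖ ≤ ∑ i, R * ‖w.embedding (integralBasis K i)‖ := by
  refine (norm_sum_le _ _).trans (Finset.sum_le_sum fun i _ => ?_)
  rw [norm_mul, Complex.norm_real]
  exact mul_le_mul_of_nonneg_right ((norm_le_pi_norm x i).trans h) (norm_nonneg _)

theorem PoisL_loc {z δ : ℂ} {S : ℝ} (h : ‖δ‖ ≤ S) (u : ℝ) : Vg (‖z + δ‖ ^ 2 * Real.exp u)
    ≤ Vg (-(S ^ 2 * Real.exp u)) * Vg (‖z‖ ^ 2 * Real.exp (u - Real.log 2)) := by
  have hπ := Real.pi_pos
  have h1 : ‖z‖ ≤ ‖z + δ‖ + S := by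
    have := norm_sub_le (z + δ) δ
    rw [add_sub_cancel_right] at this
    linarith
  have h2 : ‖z‖ ^ 2 ≤ (‖z + δ‖ + S) ^ 2 := by gcongr
  have h3 : ‖z‖ ^ 2 / 2 - S ^ 2 ≤ ‖z + δ‖ ^ 2 := by nlinarith [sq_nonneg (‖z + δ‖ - S)]
  have h4 := mul_le_mul_of_nonneg_right h3 (Real.exp_pos u).le
  rw [QRH.Vg, QRH.Vg, QRH.Vg, ← Real.exp_add, Real.exp_le_exp, Real.exp_sub,
    Real.exp_log two_pos, ← mul_add]
  refine mul_le_mul_of_nonpos_left (le_of_eq_of_le (by ring) h4) ?_
  exact neg_nonpos.2 (by positivity)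

theorem PoisL_Gs (x : K) (u : InfinitePlace K → ℝ) :
    Gs x u = ∏ w : InfinitePlace K, Vg (‖w.embedding x‖ ^ 2 * Real.exp (u w)) := by
  simp only [Gs, InfinitePlace.norm_embedding_eq]

theorem PoisL_kap [IsTotallyComplex K] :
    ((4 : ℝ) ^ dg K * dc K)⁻¹ ≤ √3 ^ rk K / √(dc K) ∧ √3 ^ rk K / √(dc K) ≤ 4 ^ dg K := by
  have hd : (1 : ℝ) ≤ dc K := Nat.one_le_cast.2 dc_pos
  have h1 : (1 : ℝ) ≤ √(dc K) := Real.one_le_sqrt.2 hd
  have h2 : √(dc K) ≤ dc K := Real.sqrt_le_self_iff.2 (Or.inr hd)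
  have h3 : (1 : ℝ) ≤ √3 := Real.one_le_sqrt.2 (by norm_num)
  have h4 : √3 ≤ 4 := Real.sqrt_le_iff.2 ⟨by norm_num, by norm_num⟩
  have h5 : (1 : ℝ) ≤ 4 ^ dg K := one_le_pow₀ (by norm_num)
  constructor
  · rw [inv_eq_one_div]
    gcongr
    · exact one_le_pow₀ h3
    · nlinarith
  · refine (div_le_self (by positivity) h1).trans ((pow_le_pow_left₀ (by positivity) h4 _).trans ?_)
    exact pow_le_pow_right₀ (by norm_num) (by rw [dg_eq]; omega)

theorem PoisL_coef [IsTotallyComplex K] {m : ℕ} (hm : 0 < m) (y : K) (u : InfinitePlace K → ℝ)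
    (k : PoisLI K → ℤ) :
    ∫ x, (∏ w : InfinitePlace K, ((Vg (‖w.embedding y + (m : ℝ) * PoisLP x w‖ ^ 2
      * Real.exp (u w)) : ℝ) : ℂ)) * QRH.poisE k x
      = ((√3 ^ rk K / √(dc K) / (m : ℝ) ^ dg K * Real.exp (-∑ w, u w) : ℝ) : ℂ)
        * (ch (y * PoisLD k / m) * (Gs (PoisLD k / m) (fun w => Real.log 3 - u w) : ℝ)) := by
  have hm' : (0 : ℝ) < m := Nat.cast_pos.2 hm
  simp only [PoisL_char, ← Finset.prod_mul_distrib]
  rw [PoisL_int fun w t => ((Vg (‖w.embedding y + (m : ℝ) * t‖ ^ 2 * Real.exp (u w)) : ℝ) : ℂ)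
    * cexp (-(2 * Real.pi * I * (2 * (t * w.embedding (PoisLD k)).re : ℝ)))]
  simp only [PoisL_one (Real.exp_pos _) hm']
  rw [Finset.prod_mul_distrib, Finset.prod_mul_distrib, ← mul_assoc, ← Complex.ofReal_prod,
    ← Complex.ofReal_prod, ← Complex.ofReal_mul, ← Complex.exp_sum, ← Finset.mul_sum,
    ← Complex.ofReal_sum, PoisL_Gs, ch, ← Complex.ofReal_ratCast, PoisL_tr]
  simp only [map_div₀, map_mul, map_natCast, Complex.ofReal_natCast, Real.exp_sub,
    Real.exp_log (show (0 : ℝ) < 3 by norm_num)]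
  congr 2
  have hd : (0 : ℝ) < √(dc K) := Real.sqrt_pos.2 (Nat.cast_pos.2 dc_pos)
  rw [Finset.prod_div_distrib, Finset.prod_mul_distrib, Finset.prod_const, Finset.prod_const,
    ← Real.exp_sum, Real.exp_neg, PoisLc, dg_eq, Finset.card_univ, ← rk, mul_pow, ← pow_mul,
    inv_pow]
  field_simp

end aux

theorem poisL : PoisL := by
  intro K _ _ _
  refine ⟨√3 ^ rk K / √(dc K), PoisL_kap.1, PoisL_kap.2, fun m y u hm => ?_⟩
  have hm' : (m : K) ≠ 0 := Nat.cast_ne_zero.2 hm.ne'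
  have hd : (dc K : K) ≠ 0 := Nat.cast_ne_zero.2 dc_pos.ne'
  let N := (RingOfIntegers.basis K).equivFun.symm.toEquiv
  have hs : Summable fun k : PoisLI K → ℤ =>
      ch (y * PoisLD k / m) * (Gs (PoisLD k / m) (fun w => Real.log 3 - u w) : ℝ) := by
    choose z hz using fun k : PoisLI K → ℤ => ((PoisL_dual _).2 ⟨k, rfl⟩).integral
    have hi : Function.Injective z := fun k l h => PoisL_inj (mul_left_cancel₀ hd (by
      rw [← hz, ← hz, h]))
    refine Summable.of_norm (((summable_Gs (inv_ne_zero (mul_ne_zero hd hm')) 0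
      fun w => Real.log 3 - u w).comp_injective hi).congr fun k => ?_)
    have e : 2 * Real.pi * I * ((Algebra.trace ℚ K (y * PoisLD k / m) : ℚ) : ℂ)
        = I * ((2 * Real.pi * (Algebra.trace ℚ K (y * PoisLD k / m) : ℚ) : ℝ) : ℂ) := by
      push_cast; ring
    rw [norm_mul, ch, e, Complex.norm_exp_I_mul_ofReal, one_mul, Complex.norm_real,
      Real.norm_of_nonneg (Gs_pos _ _).le, Function.comp_apply, hz]
    congr 1
    field_simp
    ring
  have e0 : ∀ (k : PoisLI K → ℤ) (w : InfinitePlace K), w.embedding (y : K)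
      + (m : ℝ) * PoisLP (fun i => (k i : ℝ)) w = w.embedding ((y : K) + m * (N k : K)) := by
    intro k w
    rw [PoisL_lat, map_add, map_mul, map_natCast, Complex.ofReal_natCast]
    rfl
  have key := QRH.pois_gen (fun x => ∏ w : InfinitePlace K,
    ((Vg (‖w.embedding (y : K) + (m : ℝ) * PoisLP x w‖ ^ 2 * Real.exp (u w)) : ℝ) : ℂ))
    (by unfold PoisLP QRH.Vg; fun_prop) (fun R => ?_)
    (by rw [funext (PoisL_coef hm (y : K) u)]; exact hs.mul_left _)
  · rw [funext (PoisL_coef hm (y : K) u), tsum_mul_left] at key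
    rw [← N.tsum_eq, ← PoisL_inj.tsum_eq (f := fun ξ : K => if Dl ξ then
      ch (y * ξ / m) * (Gs (ξ / m) (fun w => Real.log 3 - u w) : ℝ) else 0)
      (fun ξ hξ => (PoisL_dual ξ).1 (by by_contra h; exact hξ (if_neg h)))]
    simp only [if_pos ((PoisL_dual _).2 ⟨_, rfl⟩)]
    rw [← key]
    refine tsum_congr fun k => ?_
    simp only [e0]
    rw [← Complex.ofReal_prod, ← PoisL_Gs]
    push_cast
    rfl
  · refine ⟨_, (N.summable_iff.2 (summable_Gs hm' y fun w => u w - Real.log 2)).mul_left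
      (∏ w : InfinitePlace K, Vg (-((m * ∑ i, R * ‖w.embedding (integralBasis K i)‖) ^ 2
        * Real.exp (u w)))), fun x hx k => ?_⟩
    rw [norm_prod, Function.comp_apply, PoisL_Gs, ← Finset.prod_mul_distrib]
    refine Finset.prod_le_prod (fun w _ => norm_nonneg _) fun w _ => ?_
    rw [Complex.norm_real, Real.norm_of_nonneg (r := Vg _) (Real.exp_pos _).le, PoisL_add, mul_add,
      add_comm ((m : ℝ) * PoisLP x w), ← add_assoc, e0]
    refine PoisL_loc ?_ _
    rw [norm_mul, Complex.norm_real, Real.norm_natCast]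
    exact mul_le_mul_of_nonneg_left (PoisL_bd hx w) m.cast_nonneg

end ART
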