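import Vale.Agent.P016.Base

noncomputable section
namespace ART
open Complex MeasureTheory NumberField Filter
open scoped Classical Topology

theorem tail_three_le : (3 : ℝ) ≤ 2 * Real.pi / √3 := by
  have h1 : √3 ≤ (2 : ℝ) := Real.sqrt_le_iff.2 ⟨by norm_num, by norm_num⟩
  rw [le_div_iff₀ (Real.sqrt_pos.2 (by norm_num))]
  linarith [Real.pi_gt_three]

theorem tail_GG {k : ℕ} (h2 : 2 ≤ k) (h4 : k ≤ 4) : ‖GG k‖ ≤ 1 := by
  obtain ⟨j, rfl⟩ : ∃ j, k = j + 1 := ⟨k - 1, by omega⟩
  have hc : (0 : ℝ) < 2 * Real.pi / √3 := lt_of_lt_of_le (by norm_num) tail_three_le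
  have h1 : Complex.Gamma ((j + 1 : ℕ) : ℂ) = (j.factorial : ℂ) := by
    rw [Nat.cast_add, Nat.cast_one, Complex.Gamma_nat_eq_factorial]
  rw [NQ.GG, norm_mul, h1, Complex.norm_cpow_eq_rpow_re_of_pos hc, Complex.norm_natCast,
    neg_re, natCast_re, Real.rpow_neg hc.le, Real.rpow_natCast, inv_mul_le_iff₀ (by positivity),
    mul_one]
  refine le_trans ?_ (pow_le_pow_left₀ (by norm_num) tail_three_le _)
  have h5 : j ≤ 3 := by omega
  interval_cases j <;> norm_num [Nat.factorial]

theorem zpB (h1 : EP) (h2 : ZetaA) : ZpB := by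
  intro K _ _ ρ k hρ hk2 hk4
  have hs := (h1 K).1 2 one_lt_two
  have hz : (zeta K 2).re = ∑' J : {J : Ideal (𝓞 K) // J ≠ ⊥},
      (Ideal.absNorm J.1 : ℝ) ^ (-2 : ℝ) := by
    rw [← Complex.ofReal_re (∑' _, _), Complex.ofReal_tsum, NQ.zeta]
    congr 2
    funext J
    rw [Complex.ofReal_cpow (Nat.cast_nonneg _)]
    simp
  have hb : ‖Zp ρ k‖ ≤ (zeta K 2).re := by
    rw [hz, Zp]
    refine tsum_of_norm_bounded hs.hasSum fun J => ?_
    have hJ : 0 < Ideal.absNorm J.1 :=
      Nat.pos_of_ne_zero fun h => J.2 (Ideal.absNorm_eq_zero_iff.1 h)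
    split_ifs with h
    · rw [norm_mul, Complex.norm_natCast_cpow_of_pos hJ]
      refine (mul_le_of_le_one_left (by positivity) (hρ _)).trans ?_
      refine Real.rpow_le_rpow_of_exponent_le (by exact_mod_cast hJ) ?_
      have : (2 : ℝ) ≤ k := by exact_mod_cast hk2
      simpa using this
    · rw [norm_zero]
      positivity
  rw [norm_mul, norm_pow]
  exact (mul_le_of_le_one_left (norm_nonneg _)
    (pow_le_one₀ (norm_nonneg _) (tail_GG hk2 hk4))).trans (hb.trans (h2 K).2.2.1)

theorem tail_pt {f : ℂ} {g s a k : ℝ} {z : ℂ} (hf : ‖f‖ ≤ g) (ha : a ≤ s) (hk : z.re ≤ k) :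
    ‖f * Complex.exp (z * s)‖ ≤ Real.exp ((z.re - k) * a) * (g * Real.exp (k * s)) := by
  rw [norm_mul, Complex.norm_exp, mul_left_comm, ← Real.exp_add]
  refine mul_le_mul hf (Real.exp_le_exp.2 ?_) (Real.exp_pos _).le ((norm_nonneg _).trans hf)
  have : (z * (s : ℂ)).re = z.re * s := by simp
  rw [this]
  nlinarith

theorem tail_gen {α : Type} [MeasurableSpace α] {μ : Measure α} {f : α → ℂ} {g s : α → ℝ} {a : ℝ}
    (hf : Measurable f) (hs : Measurable s) (hg : ∀ u, ‖f u‖ ≤ g u) (ha : ∀ᵐ u ∂μ, a ≤ s u)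
    (hi : ∀ k : ℝ, 1 < k → Integrable (fun u => g u * Real.exp (k * s u)) μ) :
    (∀ z : ℂ, Integrable (fun u => f u * Complex.exp (z * s u)) μ) ∧
      Differentiable ℂ fun z : ℂ => ∫ u, f u * Complex.exp (z * s u) ∂μ := by
  have hm : ∀ z : ℂ, Measurable fun u => f u * Complex.exp (z * s u) := fun z => by fun_prop
  have h1 : ∀ z : ℂ, Integrable (fun u => f u * Complex.exp (z * s u)) μ := fun z =>
    ((hi (max z.re 2) (one_lt_two.trans_le (le_max_right _ _))).const_mul
      (Real.exp ((z.re - max z.re 2) * a))).mono' (hm z).aestronglyMeasurable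
      (ha.mono fun u hu => tail_pt (hg u) hu (le_max_left _ _))
  refine ⟨h1, fun z₀ => ?_⟩
  set k : ℝ := |z₀.re| + 1 with hk
  have hk1 : 1 ≤ k := by linarith [abs_nonneg z₀.re]
  refine (hasDerivAt_integral_of_dominated_loc_of_deriv_le (s := Metric.ball z₀ 1)
    (F' := fun z u => f u * (Complex.exp (z * s u) * s u))
    (bound := fun u => (Real.exp (2 * k * |a|) * ((1 + |a|) * Real.exp (-a))) *
      (g u * Real.exp ((k + 1) * s u)))
    (Metric.ball_mem_nhds _ one_pos) (Eventually.of_forall fun z => (hm z).aestronglyMeasurable)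
    (h1 z₀) (Measurable.aestronglyMeasurable (by fun_prop)) (ha.mono fun u hu z hz => ?_)
    ((hi (k + 1) (by linarith)).const_mul _)
    (Eventually.of_forall fun u z _ => ?_)).2.differentiableAt
  · have hz1 : |z.re - z₀.re| ≤ 1 := by
      rw [← sub_re]
      exact (Complex.abs_re_le_norm _).trans (mem_ball_iff_norm.1 hz).le
    have hz2 : |z.re| ≤ k := by
      have := abs_add_le (z.re - z₀.re) z₀.re
      rw [sub_add_cancel] at this
      linarith
    have h2 := tail_pt (z := z) (k := k) (hg u) hu ((le_abs_self _).trans hz2)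
    have h3 : Real.exp ((z.re - k) * a) ≤ Real.exp (2 * k * |a|) := by
      refine Real.exp_le_exp.2 ((le_abs_self _).trans ?_)
      rw [abs_mul]
      refine mul_le_mul_of_nonneg_right ?_ (abs_nonneg _)
      rw [abs_le] at hz2 ⊢
      constructor <;> linarith
    have h4 : |s u| ≤ (1 + |a|) * Real.exp (s u - a) := by
      have h5 := Real.add_one_le_exp (s u - a)
      have h6 : |s u| ≤ s u - a + |a| := by
        have := abs_add_le (s u - a) a
        rwa [sub_add_cancel, abs_of_nonneg (sub_nonneg.2 hu)] at this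
      nlinarith [abs_nonneg a]
    have hg0 : 0 ≤ g u := (norm_nonneg _).trans (hg u)
    rw [← mul_assoc, norm_mul, Complex.norm_real, Real.norm_eq_abs]
    refine (mul_le_mul (h2.trans (mul_le_mul_of_nonneg_right h3 (by positivity))) h4
      (abs_nonneg _) (by positivity)).trans (le_of_eq ?_)
    rw [add_mul k 1, one_mul, Real.exp_add (k * s u), sub_eq_add_neg, Real.exp_add]
    ring
  · have := ((hasDerivAt_id z).mul_const (s u : ℂ)).cexp.const_mul (f u)
    simpa using this

theorem tail (h1 : Unf) (h2 : ZpB) : Tail := by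
  intro K _ _ _ φ ρ S a hφ hρ hS ha
  have hone : ∀ x : 𝓞 K, ‖(fun _ : 𝓞 K => (1 : ℂ)) x‖ ≤ 1 := fun _ => by simp
  set g : (InfinitePlace K → ℝ) → ℝ := fun u => φ u * (Th (fun _ : 𝓞 K => 1) u).re with hg
  have hfg : ∀ u, ‖(φ u : ℂ) * Th ρ u‖ ≤ g u := fun u => by
    rw [norm_mul, Complex.norm_real, Real.norm_of_nonneg (hφ.2.1 u).1]
    exact mul_le_mul_of_nonneg_left (norm_Th_le hρ u) (hφ.2.1 u).1
  have he : ∀ (k : ℝ) u, (φ u : ℂ) * Th (fun _ : 𝓞 K => 1) u *
      Complex.exp (k * (∑ w, u w : ℝ)) = ((g u * Real.exp (k * ∑ w, u w) : ℝ) : ℂ) := by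
    intro k u
    rw [Th_one_eq u, hg]
    simp only [Complex.ofReal_mul, Complex.ofReal_exp]
  have hU := fun (k : ℝ) (hk : 1 < k) =>
    h1 K φ (fun _ => 1) k hφ (fun _ _ => rfl) hone (by simpa using hk)
  have hi : ∀ k : ℝ, 1 < k → Integrable fun u => g u * Real.exp (k * ∑ w, u w) := by
    intro k hk
    have := (hU k hk).1
    simp only [he] at this
    exact this.re
  have ha' : ∀ᵐ u ∂volume.restrict S, a ≤ ∑ w, u w :=
    (ae_restrict_mem hS).mono ha
  have hm : Measurable fun u => (φ u : ℂ) * Th ρ u :=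
    (Complex.measurable_ofReal.comp hφ.1).mul (measurable_Th hρ)
  obtain ⟨h3, h4⟩ := tail_gen (μ := volume.restrict S) hm
    (s := fun u => ∑ w, u w) (by fun_prop) hfg ha' fun k hk => (hi k hk).restrict
  refine ⟨h3, h4, fun z k hk2 hk4 hz => ?_⟩
  have hk : (1 : ℝ) < k := by exact_mod_cast hk2
  refine (norm_integral_le_of_norm_le (((hi k hk).restrict).const_mul
    (Real.exp ((z.re - k) * a))) (ha'.mono fun u hu => tail_pt (hfg u) hu hz)).trans ?_
  rw [integral_const_mul]
  refine mul_le_mul_of_nonneg_left ?_ (Real.exp_pos _).le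
  refine (setIntegral_le_integral (hi k hk) (Eventually.of_forall fun u =>
    mul_nonneg ((norm_nonneg _).trans (hfg u)) (Real.exp_pos _).le)).trans ?_
  have h5 := (hU k hk).2
  simp only [he] at h5
  rw [integral_complex_ofReal] at h5
  have h6 := h2 K (fun _ => 1) k hone hk2 hk4
  rw [Complex.ofReal_natCast] at h5
  rw [← h5, Complex.norm_real] at h6
  exact (le_abs_self _).trans h6

end ART
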