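import Vale.Agent.P016.Base

noncomputable section
namespace ART
open Complex MeasureTheory NumberField Filter
open scoped Classical Topology

variable {K : Type} [Field K] [NumberField K]

theorem Unf_one {z : ℂ} (hz : 0 < z.re) :
    ∫ t : ℝ, ((Vg (Real.exp t) : ℝ) : ℂ) * Complex.exp (z * t) = GG z := by
  have hc : 0 < 2 * Real.pi / √3 := by positivity
  have h1 := integral_cpow_mul_exp_neg_mul_Ioi hz hc
  rw [← Real.range_exp, ← Set.image_univ, integral_image_eq_integral_abs_deriv_smul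
    MeasurableSet.univ (fun x _ => (Real.hasDerivAt_exp x).hasDerivWithinAt)
    Real.exp_injective.injOn, Measure.restrict_univ, one_div, inv_cpow, ← cpow_neg] at h1
  · rw [NQ.GG, ← h1]
    refine integral_congr_ae (Eventually.of_forall fun t => ?_)
    dsimp only
    rw [abs_of_pos (Real.exp_pos t), real_smul,
      cpow_def_of_ne_zero (ofReal_ne_zero.2 (Real.exp_pos t).ne'),
      ← ofReal_log (Real.exp_pos t).le, Real.log_exp, QRH.Vg, ofReal_exp, ofReal_exp t,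
      ← Complex.exp_add, ← Complex.exp_add, ← Complex.exp_add]
    congr 1
    push_cast
    ring
  · rw [arg_ofReal_of_nonneg hc.le]
    exact Real.pi_ne_zero.symm

theorem Unf_GG_ne {z : ℂ} (hz : 0 < z.re) : GG z ≠ 0 := by
  have hc : 0 < 2 * Real.pi / √3 := by positivity
  exact mul_ne_zero (cpow_ne_zero_iff.2 (Or.inl (ofReal_ne_zero.2 hc.ne')))
    (Gamma_ne_zero_of_re_pos hz)

/-- The integrand that belongs to one element. -/
def UnfG (z : ℂ) (x : K) (u : InfinitePlace K → ℝ) : ℂ :=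
  (Gs x u : ℝ) * Complex.exp (z * (∑ w, u w : ℝ))

theorem Unf_pi {z : ℂ} (hz : 0 < z.re) : ∫ u, UnfG z (1 : K) u = GG z ^ rk K := by
  have h1 := integral_fintype_prod_volume_eq_pow (ι := InfinitePlace K)
    fun t : ℝ => ((Vg (Real.exp t) : ℝ) : ℂ) * Complex.exp (z * t)
  rw [Unf_one hz] at h1
  rw [rk, ← h1]
  refine integral_congr_ae (Eventually.of_forall fun u => ?_)
  simp only [UnfG, Gs, map_one, one_pow, one_mul, ofReal_prod, ofReal_sum, Finset.mul_sum,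
    Complex.exp_sum, Finset.prod_mul_distrib]

theorem Unf_int_one {z : ℂ} (hz : 0 < z.re) : Integrable (UnfG z (1 : K)) :=
  Integrable.of_integral_ne_zero (by rw [Unf_pi hz]; exact pow_ne_zero _ (Unf_GG_ne hz))

theorem Unf_mul (z : ℂ) {y : K} (hy : y ≠ 0) (x : K) (u : InfinitePlace K → ℝ) :
    UnfG z (y * x) u = UnfG z x (u + lg y) * Complex.exp (-z * (∑ w, lg y w : ℝ)) := by
  simp only [UnfG, Gs_mul hy, Pi.add_apply, Finset.sum_add_distrib]
  rw [mul_assoc, ← Complex.exp_add]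
  congr 2
  push_cast
  ring

theorem Unf_norm [IsTotallyComplex K] (z : ℂ) {x : 𝓞 K} (hx : x ≠ 0) :
    Complex.exp (-z * (∑ w, lg (x : K) w : ℝ))
      = (Ideal.absNorm (Ideal.span {x}) : ℂ) ^ (-z) := by
  have hx' : (x : K) ≠ 0 := RingOfIntegers.coe_ne_zero_iff.2 hx
  have h1 : Real.exp (∑ w, lg (x : K) w) = Ideal.absNorm (Ideal.span {x}) := by
    rw [Real.exp_sum, ← prod_sq_int]
    exact Finset.prod_congr rfl fun w _ => exp_lg hx' w
  rw [← ofReal_natCast, ← h1, cpow_def_of_ne_zero (ofReal_ne_zero.2 (Real.exp_pos _).ne'),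
    ← ofReal_log (Real.exp_pos _).le, Real.log_exp, mul_comm]

theorem Unf_eq [IsTotallyComplex K] (z : ℂ) {x : 𝓞 K} (hx : x ≠ 0) : UnfG z (x : K)
    = fun u => UnfG z (1 : K) (u + lg (x : K)) * (Ideal.absNorm (Ideal.span {x}) : ℂ) ^ (-z) := by
  funext u
  rw [← Unf_norm z hx, ← Unf_mul z (RingOfIntegers.coe_ne_zero_iff.2 hx), mul_one]

theorem Unf_fold {E : Type} [NormedAddCommGroup E] [NormedSpace ℝ E]
    {φ : (InfinitePlace K → ℝ) → ℝ} (hφ : IsPhi φ) {H : (InfinitePlace K → ℝ) → E}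
    (hH : Integrable H) :
    HasSum (fun e : (𝓞 K)ˣ => ∫ u, φ u • H (u + lg ((e : 𝓞 K) : K))) (∫ u, H u) := by
  obtain ⟨h1, h2, -, -, h5⟩ := hφ
  have := countable_int (K := K)
  have : Countable (𝓞 K)ˣ := Units.val_injective.countable
  have e1 : ∀ e : (𝓞 K)ˣ, lg (((e⁻¹ : (𝓞 K)ˣ) : 𝓞 K) : K) + lg ((e : 𝓞 K) : K) = 0 := by
    intro e
    rw [← lg_mul (Units.coe_ne_zero _) (Units.coe_ne_zero _)]
    funext w
    simp [lg]
  have e2 : ∀ e : (𝓞 K)ˣ, ∫ u, φ u • H (u + lg ((e : 𝓞 K) : K))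
      = ∫ u, φ (u + lg (((e⁻¹ : (𝓞 K)ˣ) : 𝓞 K) : K)) • H u := by
    intro e
    rw [← integral_add_right_eq_self (fun u => φ u • H (u + lg ((e : 𝓞 K) : K)))
      (lg (((e⁻¹ : (𝓞 K)ˣ) : 𝓞 K) : K))]
    simp only [add_assoc, e1, add_zero]
  have e3 : ∀ u, HasSum (fun e : (𝓞 K)ˣ => φ (u + lg (((e⁻¹ : (𝓞 K)ˣ) : 𝓞 K) : K))) 1 :=
    fun u => (Equiv.inv (𝓞 K)ˣ).hasSum_iff.2 (h5 u)
  simp only [e2]
  refine hasSum_integral_of_dominated_convergence
    (fun e u => φ (u + lg (((e⁻¹ : (𝓞 K)ˣ) : 𝓞 K) : K)) * ‖H u‖)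
    (fun e => (h1.comp (measurable_add_const _)).aestronglyMeasurable.smul hH.1)
    (fun e => Eventually.of_forall fun u => ?_)
    (Eventually.of_forall fun u => ((e3 u).mul_right _).summable) ?_
    (Eventually.of_forall fun u => ?_)
  · rw [norm_smul, Real.norm_of_nonneg (h2 _).1]
  · simp only [fun u => ((e3 u).mul_right ‖H u‖).tsum_eq, one_mul]
    exact hH.norm
  · simpa only [one_smul] using (e3 u).smul_const (H u)

theorem Unf_tsum {α ι : Type} [MeasurableSpace α] {μ : Measure α} [Countable ι] {F : ι → α → ℂ}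
    (hF : ∀ i, Integrable (F i) μ) (hs : Summable fun i => ∫ a, ‖F i a‖ ∂μ)
    (hm : AEStronglyMeasurable (fun a => ∑' i, F i a) μ) :
    Integrable (fun a => ∑' i, F i a) μ := by
  refine ⟨hm, lt_of_le_of_lt (lintegral_mono fun a => enorm_tsum_le_tsum_enorm) ?_⟩
  rw [lintegral_tsum fun i => (hF i).1.enorm]
  simp only [← fun i => ofReal_integral_norm_eq_lintegral_enorm (hF i)]
  rw [← ENNReal.ofReal_tsum_of_nonneg (fun i => integral_nonneg fun a => norm_nonneg _) hs]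
  exact ENNReal.ofReal_lt_top

variable (K) in
/-- The nonzero principal ideals. -/
abbrev UnfP : Type := {J : {J : Ideal (𝓞 K) // J ≠ ⊥} // ∃ x, J.1 = Ideal.span {x}}

omit [NumberField K] in
theorem Unf_gen_ne (J : UnfP K) : J.2.choose ≠ 0 := fun h =>
  J.1.2 (by rw [J.2.choose_spec, h, Ideal.span_singleton_eq_bot])

omit [NumberField K] in
theorem Unf_inj : Function.Injective fun p : UnfP K × (𝓞 K)ˣ => (p.2 : 𝓞 K) * p.1.2.choose := by
  rintro ⟨J, e⟩ ⟨J', e'⟩ h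
  dsimp only at h
  have h1 : J = J' := by
    refine Subtype.ext (Subtype.ext ?_)
    rw [J.2.choose_spec, J'.2.choose_spec, ← Ideal.span_singleton_mul_left_unit e.isUnit, h,
      Ideal.span_singleton_mul_left_unit e'.isUnit]
  subst h1
  rw [Units.ext (mul_right_cancel₀ (Unf_gen_ne J) h)]

omit [NumberField K] in
theorem Unf_surj {x : 𝓞 K} (hx : x ≠ 0) :
    ∃ p : UnfP K × (𝓞 K)ˣ, (p.2 : 𝓞 K) * p.1.2.choose = x := by
  let J : UnfP K := ⟨⟨Ideal.span {x}, mt Ideal.span_singleton_eq_bot.1 hx⟩, x, rfl⟩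
  obtain ⟨e, he⟩ := Ideal.span_singleton_eq_span_singleton.1 J.2.choose_spec.symm
  exact ⟨(J, e), (mul_comm _ _).trans he⟩

theorem unf (h : EP) : Unf := by
  intro K _ _ _ φ ρ z hφ hρ hρ1 hz
  have hz0 : 0 < z.re := by linarith
  have := countable_int (K := K)
  have : Countable (𝓞 K)ˣ := Units.val_injective.countable
  have := countable_ideal (K := K)
  obtain ⟨g, hg⟩ : ∃ g : UnfP K → 𝓞 K, ∀ J, J.2.choose = g J := ⟨_, fun _ => rfl⟩
  have hg0 : ∀ J, g J ≠ 0 := fun J => hg J ▸ Unf_gen_ne J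
  have hgs : ∀ J, Ideal.span {g J} = J.1.1 := fun J => hg J ▸ J.2.choose_spec.symm
  obtain ⟨H, hH⟩ : ∃ H : UnfP K → (InfinitePlace K → ℝ) → ℂ,
      ∀ J u, H J u = ρ (g J) * UnfG z (g J : K) u := ⟨_, fun _ _ => rfl⟩
  have hH' : ∀ J, H J = fun u => UnfG z (1 : K) (u + lg (g J : K)) *
      (ρ (g J) * (Ideal.absNorm J.1.1 : ℂ) ^ (-z)) := by
    intro J
    funext u
    rw [hH, Unf_eq z (hg0 J), hgs]
    ring
  have hHi : ∀ J, Integrable (H J) := fun J => by
    rw [hH']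
    exact ((Unf_int_one hz0).comp_add_right _).mul_const _
  have hexp : (fun u => (φ u : ℂ) * Th ρ u * Complex.exp (z * (∑ w, u w : ℝ)))
      = fun u => ∑' p : UnfP K × (𝓞 K)ˣ, φ u • H p.1 (u + lg ((p.2 : 𝓞 K) : K)) := by
    funext u
    rw [Th, ← Unf_inj.tsum_eq fun x hx => Unf_surj fun h0 => hx (if_pos h0), ← tsum_mul_left,
      ← tsum_mul_right]
    refine tsum_congr fun p => ?_
    have e1 := Unf_mul z (Units.coe_ne_zero p.2) (g p.1 : K) u
    rw [sum_lg_unit, ofReal_zero, mul_zero, Complex.exp_zero, mul_one] at e1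
    have e2 : (((p.2 : 𝓞 K) * g p.1 : 𝓞 K) : K) = ((p.2 : 𝓞 K) : K) * (g p.1 : K) :=
      map_mul (algebraMap (𝓞 K) K) _ _
    rw [hg, if_neg (mul_ne_zero p.2.ne_zero (hg0 _)), hρ, hH, ← e1, e2, UnfG, real_smul]
    ring
  have hFi : ∀ p : UnfP K × (𝓞 K)ˣ,
      Integrable fun u => φ u • H p.1 (u + lg ((p.2 : 𝓞 K) : K)) := fun p => by
    have h1 := (hHi p.1).comp_add_right (lg ((p.2 : 𝓞 K) : K))
    refine h1.norm.mono' (hφ.1.aestronglyMeasurable.smul h1.1) (Eventually.of_forall fun u => ?_)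
    rw [norm_smul, Real.norm_of_nonneg (hφ.2.1 u).1]
    exact mul_le_of_le_one_left (norm_nonneg _) (hφ.2.1 u).2
  have hFs : Summable fun p : UnfP K × (𝓞 K)ˣ =>
      ∫ u, ‖φ u • H p.1 (u + lg ((p.2 : 𝓞 K) : K))‖ := by
    have h1 : ∀ J, HasSum (fun e : (𝓞 K)ˣ => ∫ u, ‖φ u • H J (u + lg ((e : 𝓞 K) : K))‖)
        (∫ u, ‖H J u‖) := fun J => by
      simp only [norm_smul, fun u => Real.norm_of_nonneg (hφ.2.1 u).1]
      exact Unf_fold hφ (hHi J).norm
    refine (summable_prod_of_nonneg fun p => integral_nonneg fun u => norm_nonneg _).2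
      ⟨fun J => (h1 J).summable, ?_⟩
    simp only [fun J => (h1 J).tsum_eq]
    refine Summable.of_nonneg_of_le (fun J => integral_nonneg fun u => norm_nonneg _)
      (fun J => ?_) ((((h K).1 z.re hz).subtype _).mul_left (∫ u, ‖UnfG z (1 : K) u‖))
    rw [hH']
    simp only [norm_mul]
    rw [integral_mul_const, integral_add_right_eq_self (fun u => ‖UnfG z (1 : K) u‖),
      norm_natCast_cpow_of_pos (Nat.pos_of_ne_zero (mt Ideal.absNorm_eq_zero_iff.1 J.1.2)), neg_re]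
    exact mul_le_mul_of_nonneg_left (mul_le_of_le_one_left (by positivity) (hρ1 _))
      (integral_nonneg fun u => norm_nonneg _)
  refine ⟨?_, ?_⟩
  · have hm : Measurable fun u => (φ u : ℂ) * Th ρ u * Complex.exp (z * (∑ w, u w : ℝ)) :=
      ((measurable_ofReal.comp hφ.1).mul (measurable_Th hρ1)).mul (by fun_prop)
    rw [hexp] at hm ⊢
    exact Unf_tsum hFi hFs hm.aestronglyMeasurable
  · have h0 := hasSum_integral_of_summable_integral_norm hFi hFs
    have h2 : ∀ J, HasSum (fun e : (𝓞 K)ˣ => ∫ u, φ u • H J (u + lg ((e : 𝓞 K) : K)))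
        (∫ u, H J u) := fun J => Unf_fold hφ (hHi J)
    obtain ⟨I, hI⟩ : ∃ I : UnfP K × (𝓞 K)ˣ → ℂ,
        ∀ J (e : (𝓞 K)ˣ), ∫ u, φ u • H J (u + lg ((e : 𝓞 K) : K)) = I (J, e) :=
      ⟨fun p => ∫ u, φ u • H p.1 (u + lg ((p.2 : 𝓞 K) : K)), fun _ _ => rfl⟩
    simp only [hI] at h0 h2
    have h1 := h0.prod_fiberwise h2
    rw [hexp, ← h1.tsum_eq, Zp, ← (Subtype.val_injective (p := fun J : {J : Ideal (𝓞 K) // J ≠ ⊥}
      => ∃ x, J.1 = Ideal.span {x})).tsum_eq fun J hJ => ?_, ← tsum_mul_left]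
    · refine tsum_congr fun J => ?_
      rw [hH', integral_mul_const, integral_add_right_eq_self (UnfG z (1 : K)), Unf_pi hz0,
        dif_pos J.2, hg]
    · by_contra h0
      exact hJ (dif_neg fun h2 => h0 ⟨⟨J, h2⟩, rfl⟩)

end ART
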