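import Vale.Agent.P016.Base

noncomputable section
namespace ART
open Complex MeasureTheory NumberField Filter
open scoped Classical Topology nonZeroDivisors

variable {K : Type} [Field K] [NumberField K]

theorem ClsZ_rep (C : ClassGroup (𝓞 K)) : ∃ I : (Ideal (𝓞 K))⁰, ClassGroup.mk0 I = C ∧
    Ideal.absNorm (I : Ideal (𝓞 K)) ≤ 2 ^ dg K * dc K := by
  obtain ⟨I, h1, h2⟩ := exists_ideal_in_class_of_norm_le C
  refine ⟨I, h1, ?_⟩
  have a1 : (4 / Real.pi) ^ InfinitePlace.nrComplexPlaces K ≤ 2 ^ dg K := by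
    have b1 : 4 / Real.pi ≤ 2 := by
      rw [div_le_iff₀ Real.pi_pos]
      linarith [Real.pi_gt_three]
    have b2 : InfinitePlace.nrComplexPlaces K ≤ dg K := by
      have := InfinitePlace.card_add_two_mul_card_eq_rank K
      unfold dg
      omega
    exact (pow_le_pow_left₀ (by positivity) b1 _).trans (pow_le_pow_right₀ one_le_two b2)
  have a2 : ((Module.finrank ℚ K).factorial : ℝ) / (Module.finrank ℚ K : ℝ) ^ Module.finrank ℚ K
      ≤ 1 := by
    refine div_le_one_of_le₀ ?_ (by positivity)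
    exact_mod_cast Nat.factorial_le_pow _
  have a3 : √|(discr K : ℝ)| ≤ dc K := by
    have b1 : |(discr K : ℝ)| = dc K := by
      unfold dc
      rw [Nat.cast_natAbs, Int.cast_abs]
    have b2 : (1 : ℝ) ≤ dc K := by exact_mod_cast dc_pos
    rw [b1]
    exact Real.sqrt_le_iff.2 ⟨by positivity, by nlinarith⟩
  have a4 := h2.trans (mul_le_mul a1 (mul_le_mul a2 a3 (by positivity) zero_le_one)
    (by positivity) (by positivity))
  rw [one_mul] at a4
  exact_mod_cast a4

theorem ClsZ_piece {b : Ideal (𝓞 K)} (hb : b ≠ ⊥) (g : ℕ → ℂ) (z : ℂ) :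
    (Ideal.absNorm b : ℂ) ^ z * Zp (rho b g) z = ∑' J : {J : Ideal (𝓞 K) // J ≠ ⊥},
      if (J.1 * b).IsPrincipal then g (Ideal.absNorm J.1) * (Ideal.absNorm J.1 : ℂ) ^ (-z) else 0 := by
  have hN : Ideal.absNorm b ≠ 0 := fun h => hb (Ideal.absNorm_eq_zero_iff.1 h)
  have hN' : (Ideal.absNorm b : ℂ) ^ z ≠ 0 := by
    rw [Ne, cpow_eq_zero_iff]
    exact fun h => hN (by exact_mod_cast h.1)
  have hinj : Function.Injective fun J : {J : Ideal (𝓞 K) // J ≠ ⊥} =>
      (⟨J.1 * b, mul_ne_zero J.2 hb⟩ : {J : Ideal (𝓞 K) // J ≠ ⊥}) := fun J J' h =>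
    Subtype.ext (mul_right_cancel₀ hb (congrArg Subtype.val h))
  unfold Zp
  rw [← hinj.tsum_eq, ← tsum_mul_left]
  · refine tsum_congr fun J => ?_
    by_cases h : ∃ x, J.1 * b = Ideal.span {x}
    · have h1 := h.choose_spec
      have h2 : h.choose ∈ b := by
        rw [← Ideal.span_singleton_le_iff_mem, ← h1]
        exact Ideal.dvd_iff_le.1 (dvd_mul_left _ _)
      rw [dif_pos h, if_pos ⟨h⟩]
      unfold rho
      rw [if_pos h2, ← h1, map_mul, Nat.mul_div_cancel _ (Nat.pos_of_ne_zero hN), Nat.cast_mul,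
        natCast_mul_natCast_cpow, cpow_neg (Ideal.absNorm b : ℂ)]
      field_simp
    · rw [dif_neg h, if_neg fun h' => h h'.1, mul_zero]
  · intro J hJ
    rw [Function.mem_support] at hJ
    by_cases h : ∃ x, J.1 = Ideal.span {x}
    · rw [dif_pos h] at hJ
      have h2 : h.choose ∈ b := by
        by_contra h2
        exact hJ (by unfold rho; rw [if_neg h2, zero_mul])
      rw [← Ideal.span_singleton_le_iff_mem, ← h.choose_spec, ← Ideal.dvd_iff_le] at h2
      obtain ⟨c, hc⟩ := h2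
      refine ⟨⟨c, fun h0 => J.2 (by rw [hc, h0]; exact mul_zero _)⟩, Subtype.ext ?_⟩
      exact (mul_comm _ _).trans hc.symm
    · exact (hJ (dif_neg h)).elim

theorem clsZ (h1 : EP) (h2 : ZetaA) : ClsZ := by
  intro K _ _
  choose b hb1 hb2 using ClsZ_rep (K := K)
  have hinj : Function.Injective fun C => (b C : Ideal (𝓞 K)) := fun C C' h => by
    rw [← hb1 C, ← hb1 C', Subtype.ext h]
  have hb0 : ∀ C, (b C : Ideal (𝓞 K)) ≠ ⊥ := fun C => nonZeroDivisors.ne_zero (b C).2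
  refine ⟨Finset.univ.image fun C => (b C : Ideal (𝓞 K)), Finset.univ_nonempty.image _, ?_, ?_, ?_⟩
  · intro I hI
    obtain ⟨C, -, rfl⟩ := Finset.mem_image.1 hI
    exact ⟨hb0 C, hb2 C⟩
  · have hs := (h1 K).1 2 one_lt_two
    have e1 : (zeta K 2).re = ∑' J : {J : Ideal (𝓞 K) // J ≠ ⊥},
        (Ideal.absNorm J.1 : ℝ) ^ (-2 : ℝ) := by
      rw [← ofReal_re (∑' J : {J : Ideal (𝓞 K) // J ≠ ⊥}, (Ideal.absNorm J.1 : ℝ) ^ (-2 : ℝ)),
        ofReal_tsum]
      unfold NQ.zeta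
      congr 2
      funext J
      rw [ofReal_cpow (Nat.cast_nonneg _)]
      simp
    have e2 := (h2 K).2.2.1
    have hM : (0 : ℝ) < 2 ^ dg K * dc K := by
      have : (0 : ℝ) < dc K := by exact_mod_cast dc_pos
      positivity
    have e3 := hs.sum_le_tsum
      (Finset.univ.image fun C => (⟨b C, hb0 C⟩ : {J : Ideal (𝓞 K) // J ≠ ⊥}))
      fun J _ => by positivity
    have hinj' : Function.Injective
        fun C => (⟨b C, hb0 C⟩ : {J : Ideal (𝓞 K) // J ≠ ⊥}) := fun C C' h =>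
      hinj (congrArg (fun J : {J : Ideal (𝓞 K) // J ≠ ⊥} => J.1) h)
    rw [Finset.sum_image hinj'.injOn, ← e1] at e3
    have e4 : ∀ C ∈ (Finset.univ : Finset (ClassGroup (𝓞 K))), (((2 : ℝ) ^ dg K * dc K) ^ 2)⁻¹
        ≤ (Ideal.absNorm (b C : Ideal (𝓞 K)) : ℝ) ^ (-2 : ℝ) := fun C _ => by
      have a1 : (0 : ℝ) < Ideal.absNorm (b C : Ideal (𝓞 K)) := by
        exact_mod_cast Nat.pos_of_ne_zero fun h => hb0 C (Ideal.absNorm_eq_zero_iff.1 h)
      have a2 : (Ideal.absNorm (b C : Ideal (𝓞 K)) : ℝ) ≤ 2 ^ dg K * dc K := by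
        exact_mod_cast hb2 C
      rw [Real.rpow_neg a1.le, Real.rpow_two]
      gcongr
    have e5 := (Finset.card_nsmul_le_sum _ _ _ e4).trans (e3.trans e2)
    rw [nsmul_eq_mul, ← div_eq_mul_inv, div_le_iff₀ (by positivity), mul_comm] at e5
    rw [Finset.card_image_of_injective _ hinj]
    exact e5
  · intro g z hg hz
    rw [Finset.sum_image fun C _ C' _ h => hinj h]
    simp only [ClsZ_piece (hb0 _)]
    have hs : ∀ C, Summable fun J : {J : Ideal (𝓞 K) // J ≠ ⊥} =>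
        if (J.1 * b C).IsPrincipal then g (Ideal.absNorm J.1) * (Ideal.absNorm J.1 : ℂ) ^ (-z)
          else 0 := fun C => by
      refine ((h1 K).1 z.re hz).of_norm_bounded fun J => ?_
      have a1 : 0 < Ideal.absNorm J.1 :=
        Nat.pos_of_ne_zero fun h => J.2 (Ideal.absNorm_eq_zero_iff.1 h)
      split_ifs
      · rw [norm_mul, norm_natCast_cpow_of_pos a1, neg_re]
        exact mul_le_of_le_one_left (by positivity) (hg _)
      · rw [norm_zero]
        positivity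
    rw [← Summable.tsum_finsetSum fun C _ => hs C]
    unfold zg
    refine tsum_congr fun J => ?_
    have hJ : J.1 ∈ (Ideal (𝓞 K))⁰ := mem_nonZeroDivisors_of_ne_zero J.2
    have e : ∀ C, (J.1 * b C).IsPrincipal ↔ C = (ClassGroup.mk0 ⟨J.1, hJ⟩)⁻¹ := fun C => by
      rw [← ClassGroup.mk0_eq_one_iff (mul_mem hJ (b C).2), eq_inv_iff_mul_eq_one, mul_comm C]
      conv_rhs => rw [← hb1 C, ← map_mul]
      rfl
    simp only [e]
    rw [Finset.sum_ite_eq' Finset.univ, if_pos (Finset.mem_univ _)]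

theorem discB : DiscB := by
  intro K _ _ H hH hS
  have hs := hS.ge
  set b := (Module.Basis.ofSpan hs).reindex ((Module.Basis.ofSpan hs).indexEquiv (integralBasis K))
  have hb : ∀ i, IsIntegral ℤ (b i) ∧ ∀ φ : K →+* ℂ, ‖φ (b i)‖ ≤ H := fun i =>
    Module.Basis.ofSpan_subset hs ⟨_, (Module.Basis.reindex_apply _ _ i).symm⟩
  obtain ⟨y, hy⟩ : ∃ y : _ → 𝓞 K, ∀ i, algebraMap (𝓞 K) K (y i) = b i :=
    ⟨fun i => ⟨b i, (hb i).1⟩, fun _ => rfl⟩
  set P0 : Matrix _ _ ℤ := Matrix.of fun i j => (RingOfIntegers.basis K).repr (y j) i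
  have hP : (integralBasis K).toMatrix b = (algebraMap ℤ ℚ).mapMatrix P0 := by
    ext i j
    rw [Module.Basis.toMatrix_apply, ← hy, integralBasis_repr_apply]
    rfl
  have h1 := Algebra.discr_of_matrix_vecMul (integralBasis K) ((integralBasis K).toMatrix b)
  rw [Module.Basis.toMatrix_map_vecMul, hP, ← RingHom.map_det, ← coe_discr] at h1
  have h2 := Algebra.discr_not_zero_of_basis ℚ b
  have h3 : P0.det ≠ 0 := fun h => h2 (by rw [h1, h]; simp)
  have hcard : Fintype.card (Module.Free.ChooseBasisIndex ℤ (𝓞 K)) = dg K :=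
    (Module.finrank_eq_card_basis (integralBasis K)).symm
  have e : Module.Free.ChooseBasisIndex ℤ (𝓞 K) ≃ (K →ₐ[ℚ] ℂ) :=
    Fintype.equivOfCardEq (hcard.trans (AlgHom.card ℚ K ℂ).symm)
  have h4 := Algebra.discr_eq_det_embeddingsMatrixReindex_pow_two ℚ ℂ b e
  have h5 : ‖(Algebra.embeddingsMatrixReindex ℚ ℂ b e).det‖ ≤ (dg K * H) ^ dg K := by
    have := Matrix.det_le (A := Algebra.embeddingsMatrixReindex ℚ ℂ b e)
      (abv := NormedField.toAbsoluteValue ℂ) (x := H) fun i j => (hb i).2 (e j).toRingHom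
    rw [hcard, nsmul_eq_mul] at this
    refine this.trans ?_
    rw [mul_pow]
    refine mul_le_mul_of_nonneg_right ?_ (by positivity)
    exact_mod_cast Nat.factorial_le_pow _
  have h6 := congrArg norm h4
  rw [h1, norm_pow] at h6
  simp only [eq_intCast, map_mul, map_pow, map_intCast, norm_mul, norm_pow, norm_intCast] at h6
  have h7 : (1 : ℝ) ≤ |(P0.det : ℝ)| := by exact_mod_cast Int.one_le_abs h3
  have h8 : (dc K : ℝ) = |(discr K : ℝ)| := by
    unfold dc
    rw [Nat.cast_natAbs, Int.cast_abs]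
  rw [h8, mul_comm 2, pow_mul]
  refine le_trans ?_ (pow_le_pow_left₀ (norm_nonneg _) h5 2)
  rw [← h6]
  exact le_mul_of_one_le_left (abs_nonneg _) (one_le_pow₀ h7)

end ART
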