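import Vale.Agent.P016.Base

noncomputable section
namespace ART
open Complex MeasureTheory NumberField Filter
open scoped Classical Topology

theorem Dec_x0_mul (a b : ℕ) : x0 (a * b) = x0 a * x0 b := by
  have ha : a % 3 = 0 ∨ a % 3 = 1 ∨ a % 3 = 2 := by omega
  have hb : b % 3 = 0 ∨ b % 3 = 1 ∨ b % 3 = 2 := by omega
  rcases ha with ha | ha | ha <;> rcases hb with hb | hb | hb <;> simp [x0, Nat.mul_mod, ha, hb]
theorem Dec_x3_mul (a b : ℕ) : x3 (a * b) = x3 a * x3 b := by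
  have ha : a % 3 = 0 ∨ a % 3 = 1 ∨ a % 3 = 2 := by omega
  have hb : b % 3 = 0 ∨ b % 3 = 1 ∨ b % 3 = 2 := by omega
  rcases ha with ha | ha | ha <;> rcases hb with hb | hb | hb <;> simp [x3, Nat.mul_mod, ha, hb]
theorem Dec_x0_le (a : ℕ) : ‖x0 a‖ ≤ 1 := by unfold x0; split_ifs <;> simp
theorem Dec_x3_le (a : ℕ) : ‖x3 a‖ ≤ 1 := by unfold x3; split_ifs <;> simp
theorem Dec_cpow (N f : ℕ) (z : ℂ) : ((N ^ f : ℕ) : ℂ) ^ z = ((N : ℂ) ^ z) ^ f := by
  induction f with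
  | zero => simp
  | succ f ih => rw [pow_succ, Nat.cast_mul, natCast_mul_natCast_cpow, ih, pow_succ]

theorem Dec_one {ι : Type} [Fintype ι] (e f : ι → ℕ) (he : ∀ i, 0 < e i) (hf : ∀ i, 0 < f i)
    (h : ∑ i, e i * f i = 2) (h2 : ∀ i, Even (f i)) (g : ℕ → ℂ) : ∏ i, g (f i) = g 2 := by
  have h3 : ∀ i, 2 ≤ e i * f i := fun i => by
    have := hf i
    obtain ⟨k, hk⟩ := h2 i
    have : 2 ≤ f i := by omega
    exact this.trans (Nat.le_mul_of_pos_left _ (he i))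
  have h4 : Fintype.card ι * 2 ≤ 2 := by
    have := Finset.card_nsmul_le_sum Finset.univ _ 2 fun i _ => h3 i
    rwa [h, smul_eq_mul] at this
  have h5 : Fintype.card ι ≠ 0 := by
    intro h0
    have := Fintype.card_eq_zero_iff.1 h0
    simp at h
  obtain ⟨x, hx⟩ := Fintype.card_eq_one_iff.1 (show Fintype.card ι = 1 by omega)
  rw [Fintype.sum_eq_single x fun y hy => (hy (hx y)).elim] at h
  rw [Fintype.prod_eq_single x fun y hy => (hy (hx y)).elim]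
  have h6 := Nat.le_mul_of_pos_left (f x) (he x)
  have h7 := hf x
  obtain ⟨k, hk⟩ := h2 x
  congr 1
  omega

theorem Dec_two {ι : Type} [Fintype ι] (e f : ι → ℕ) (he : ∀ i, 0 < e i) (hf : ∀ i, 0 < f i)
    (h : ∑ i, e i * f i = 2) {a b : ι} (hab : a ≠ b) (g : ℕ → ℂ) : ∏ i, g (f i) = g 1 * g 1 := by
  have h3 : ∀ i, 1 ≤ e i * f i := fun i => Nat.mul_pos (he i) (hf i)
  have h4 : Fintype.card ι * 1 ≤ 2 := by
    have := Finset.card_nsmul_le_sum Finset.univ _ 1 fun i _ => h3 i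
    rwa [h, smul_eq_mul] at this
  have h5 : 1 < Fintype.card ι := Fintype.one_lt_card_iff.2 ⟨a, b, hab⟩
  have h6 : Fintype.card ι = 2 := by omega
  have h7 := (Finset.sum_eq_sum_iff_of_le (s := Finset.univ) fun i _ => h3 i).1 (by simp [h, h6])
  rw [Finset.prod_congr rfl fun i hi => congrArg g (Nat.eq_one_of_mul_eq_one_left (h7 i hi).symm),
    Finset.prod_const, Finset.card_univ, h6, sq]

section
variable {K : Type} [Field K] [NumberField K]

theorem Dec_card (v : HS K) : Nat.card (𝓞 K ⧸ v.asIdeal) = qv v := by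
  rw [NQ.qv, Ideal.absNorm_apply, Submodule.cardQuot_apply]

theorem Dec_three {v : HS K} (h : (3 : 𝓞 K) ∈ v.asIdeal) : qv v % 3 = 0 := by
  have h2 := Ideal.absNorm_dvd_absNorm_of_le
    ((Ideal.span_singleton_le_iff_mem _).2 (show ((3 : ℕ) : 𝓞 K) ∈ v.asIdeal by simpa using h))
  rw [Ideal.absNorm_span_natCast, Nat.dvd_prime_pow Nat.prime_three] at h2
  obtain ⟨k, -, hk⟩ := h2
  have h3 := two_le_qv v
  rw [NQ.qv, hk] at h3 ⊢
  rcases k with _ | k
  · simp at h3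
  · rw [pow_succ]; omega

theorem Dec_mod {w : 𝓞 K} (hw : w ^ 2 + w + 1 = 0) {v : HS K} (h : (3 : 𝓞 K) ∉ v.asIdeal) :
    qv v % 3 = 1 := by
  have := v.isMaximal
  let _ : Field (𝓞 K ⧸ v.asIdeal) := Ideal.Quotient.field _
  have hfin : Finite (𝓞 K ⧸ v.asIdeal) := Ideal.finiteQuotientOfFreeOfNeBot _ v.ne_bot
  let _ : Fintype (𝓞 K ⧸ v.asIdeal) := Fintype.ofFinite _
  set u := Ideal.Quotient.mk v.asIdeal w with hu
  have h1 : u ^ 2 + u + 1 = 0 := by simpa using congrArg (Ideal.Quotient.mk v.asIdeal) hw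
  have h2 : u ^ 3 = 1 := by linear_combination (u - 1) * h1
  have h3 : u ≠ 1 := by
    intro h3
    apply h
    rw [← Ideal.Quotient.eq_zero_iff_mem, map_ofNat]
    rw [h3] at h1
    linear_combination h1
  have h4 := FiniteField.pow_card u
  rw [← Nat.card_eq_fintype_card, Dec_card, pow_eq_pow_mod _ h2] at h4
  have ha : qv v % 3 = 0 ∨ qv v % 3 = 1 ∨ qv v % 3 = 2 := by omega
  rcases ha with ha | ha | ha
  · rw [ha, pow_zero] at h4; exact (h3 h4.symm).elim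
  · exact ha
  · rw [ha] at h4
    exact (h3 (by linear_combination (u ^ 2) * h4 + (1 - u) * h2)).elim

theorem Dec_root {v : HS K} (h : qv v % 3 = 1) : ∃ c : 𝓞 K, c ^ 2 + c + 1 ∈ v.asIdeal := by
  have := v.isMaximal
  let _ : Field (𝓞 K ⧸ v.asIdeal) := Ideal.Quotient.field _
  have hfin : Finite (𝓞 K ⧸ v.asIdeal) := Ideal.finiteQuotientOfFreeOfNeBot _ v.ne_bot
  have : Fact (Nat.Prime 3) := ⟨Nat.prime_three⟩
  obtain ⟨u, hu⟩ := exists_prime_orderOf_dvd_card' (G := (𝓞 K ⧸ v.asIdeal)ˣ) 3 (by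
    rw [Nat.card_units, Dec_card]; omega)
  have h2 : (u : 𝓞 K ⧸ v.asIdeal) ^ 3 = 1 := by
    rw [← Units.val_pow_eq_pow_val, ← hu, pow_orderOf_eq_one, Units.val_one]
  have h3 : (u : 𝓞 K ⧸ v.asIdeal) - 1 ≠ 0 := by
    intro h3
    rw [sub_eq_zero, Units.val_eq_one] at h3
    rw [h3, orderOf_one] at hu
    omega
  obtain ⟨c, hc⟩ := Ideal.Quotient.mk_surjective (u : 𝓞 K ⧸ v.asIdeal)
  refine ⟨c, Ideal.Quotient.eq_zero_iff_mem.1 (mul_left_cancel₀ h3 ?_)⟩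
  rw [map_add, map_add, map_pow, map_one, hc]
  linear_combination h2

variable {L : Type} [Field L] [NumberField L] [Algebra K L]

omit [NumberField L] in
theorem Dec_split {w : 𝓞 L} (hw : w ^ 2 + w + 1 = 0) (σ : 𝓞 L →ₐ[𝓞 K] 𝓞 L) (hσ : σ w = w ^ 2)
    {v : HS K} (h3 : (3 : 𝓞 K) ∉ v.asIdeal) (h : qv v % 3 = 1) :
    ∃ a b : v.asIdeal.primesOver (𝓞 L), a ≠ b := by
  obtain ⟨c, hc⟩ := Dec_root h
  have := v.isMaximal
  obtain ⟨P, hP, hPv⟩ := Ideal.exists_maximal_ideal_liesOver_of_isIntegral (S := 𝓞 L) v.asIdeal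
  have hP' := hP.isPrime
  have hQ : (P.comap σ).LiesOver v.asIdeal := ⟨by
    ext x
    rw [Ideal.mem_of_liesOver P, Ideal.under_def, Ideal.mem_comap, Ideal.mem_comap, σ.commutes]⟩
  refine ⟨⟨P, hP', hPv⟩, ⟨P.comap σ, Ideal.comap_isPrime _ _, hQ⟩, fun he => h3 ?_⟩
  have he' : ∀ x, x ∈ P ↔ σ x ∈ P := fun x => by
    have h1 : P = P.comap σ := congrArg Subtype.val he
    rw [← Ideal.mem_comap, ← h1]
  set d := algebraMap (𝓞 K) (𝓞 L) c with hd
  have h1 : d ^ 2 + d + 1 ∈ P := by simpa using (Ideal.mem_of_liesOver P v.asIdeal _).1 hc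
  have h2 : (w - d) * (w ^ 2 - d) = d ^ 2 + d + 1 := by linear_combination (w - 1 - d) * hw
  have h4 : w - d ∈ P ↔ w ^ 2 - d ∈ P := by rw [he', map_sub, hσ, hd, σ.commutes]
  have h5 : w - d ∈ P := (hP'.mem_or_mem (h2 ▸ h1)).elim id h4.2
  have h6 := Ideal.pow_mem_of_mem P (sub_mem h5 (h4.1 h5)) 2 two_pos
  have h7 : (3 : 𝓞 L) = -(w - d - (w ^ 2 - d)) ^ 2 := by
    linear_combination (w ^ 2 - 3 * w + 3) * hw
  rw [Ideal.mem_of_liesOver P, map_ofNat, h7]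
  exact neg_mem h6

theorem Dec_loc (h2 : Module.finrank K L = 2) {w : 𝓞 L} (hw : w ^ 2 + w + 1 = 0)
    (σ : 𝓞 L →ₐ[𝓞 K] 𝓞 L) (hσ : σ w = w ^ 2) (v : HS K) (z : ℂ) :
    HasProd (fun V : {V : HS L // V.under (𝓞 K) = v} => (1 - x0 (qv V.1) * (qv V.1 : ℂ) ^ z)⁻¹)
      ((1 - x0 (qv v) * (qv v : ℂ) ^ z)⁻¹ * (1 - x3 (qv v) * (qv v : ℂ) ^ z)⁻¹) := by
  have := v.isMaximal
  let e : v.asIdeal.primesOver (𝓞 L) ≃ {V : HS L // V.under (𝓞 K) = v} :=
    { toFun := fun P => ⟨⟨P.1, P.2.1, Ideal.ne_bot_of_mem_primesOver v.ne_bot P.2⟩,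
        IsDedekindDomain.HeightOneSpectrum.ext P.2.2.over.symm⟩
      invFun := fun V => ⟨V.1.asIdeal, V.1.isPrime, ⟨(congrArg (·.asIdeal) V.2).symm⟩⟩
      left_inv := fun _ => rfl
      right_inv := fun _ => rfl }
  rw [← e.hasProd_iff]
  have hs := Ideal.sum_ramification_inertia_eq_finrank v.asIdeal (𝓞 L)
  rw [← IsFractionRing.finrank_eq (𝓞 K) K (𝓞 L) L, h2] at hs
  have he : ∀ P : v.asIdeal.primesOver (𝓞 L), 0 < P.1.ramificationIdx (𝓞 K) := fun P =>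
    have := P.2.1
    Ideal.ramificationIdx_pos _ _
  have hf : ∀ P : v.asIdeal.primesOver (𝓞 L), 0 < P.1.inertiaDeg (𝓞 K) := fun P =>
    have := P.2.1
    Ideal.inertiaDeg_pos _ _
  have hq : ∀ P : v.asIdeal.primesOver (𝓞 L), qv (e P).1 = qv v ^ P.1.inertiaDeg (𝓞 K) := fun P =>
    have := P.2.1
    have := P.2.2
    (Ideal.absNorm_pow_inertiaDeg v.asIdeal P.1).symm
  convert hasProd_fintype _ using 1
  simp only [Function.comp]
  by_cases h0 : qv v % 3 = 0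
  · rw [Finset.prod_eq_one fun P _ => ?_]
    · simp [x0, x3, h0]
    · have : qv (e P).1 % 3 = 0 := by
        rw [hq, ← Nat.dvd_iff_mod_eq_zero]
        exact Dvd.dvd.pow (Nat.dvd_of_mod_eq_zero h0) (hf P).ne'
      simp [x0, this]
  have h3 : (3 : 𝓞 K) ∉ v.asIdeal := fun h => h0 (Dec_three h)
  have h4 : ∀ P : v.asIdeal.primesOver (𝓞 L), qv (e P).1 % 3 = 1 := fun P =>
    Dec_mod hw fun h => h3 (by
      have := P.2.2
      rw [Ideal.mem_of_liesOver P.1, map_ofNat]; exact h)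
  have h5 : ∀ P : v.asIdeal.primesOver (𝓞 L), (1 - x0 (qv (e P).1) * (qv (e P).1 : ℂ) ^ z)⁻¹
      = (1 - ((qv v : ℂ) ^ z) ^ P.1.inertiaDeg (𝓞 K))⁻¹ := fun P => by
    rw [x0, h4 P, if_neg one_ne_zero, one_mul, hq, Dec_cpow]
  rw [Finset.prod_congr rfl fun P _ => h5 P]
  have ha : qv v % 3 = 1 ∨ qv v % 3 = 2 := by omega
  rcases ha with ha | ha
  · obtain ⟨a, b, hab⟩ := Dec_split hw σ hσ h3 ha
    rw [Dec_two _ _ he hf hs hab fun k => (1 - ((qv v : ℂ) ^ z) ^ k)⁻¹]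
    simp [x0, x3, ha]
  · rw [Dec_one _ _ he hf hs (fun P => ?_) fun k => (1 - ((qv v : ℂ) ^ z) ^ k)⁻¹]
    · simp only [x0, x3, ha]
      rw [← mul_inv]
      congr 1
      norm_num
      ring
    · by_contra hodd
      obtain ⟨k, hk⟩ := Nat.not_even_iff_odd.1 hodd
      have h6 := h4 P
      rw [hq, hk, pow_succ, pow_mul, Nat.mul_mod, Nat.pow_mod, Nat.pow_mod (qv v), ha] at h6
      simp at h6

theorem Dec_main (h : EP) (h2 : Module.finrank K L = 2) {w : L} (hw : w ^ 2 + w + 1 = 0)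
    (σ : L →ₐ[K] L) (hσ : σ w = w ^ 2) {z : ℂ} (hz : 1 < z.re) :
    zg L x0 z = zg K x0 z * zg K x3 z := by
  obtain ⟨w, rfl⟩ : ∃ y : 𝓞 L, (y : L) = w :=
    ⟨⟨w, Polynomial.X ^ 2 + Polynomial.X + 1, by monicity!, by simpa using hw⟩, rfl⟩
  have hw' : w ^ 2 + w + 1 = 0 := RingOfIntegers.ext (by simpa using hw)
  have hσ' : RingOfIntegers.mapAlgHom σ w = w ^ 2 := RingOfIntegers.ext (by
    change σ w = _
    simpa using hσ)
  have h1 := (h L).2.2 x0 z (by simp [x0]) Dec_x0_mul Dec_x0_le hz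
  have h3 := (h K).2.2 x0 z (by simp [x0]) Dec_x0_mul Dec_x0_le hz
  have h4 := (h K).2.2 x3 z (by simp [x3]) Dec_x3_mul Dec_x3_le hz
  rw [← (Equiv.sigmaFiberEquiv fun V : HS L => V.under (𝓞 K)).hasProd_iff] at h1
  exact (h1.sigma fun v => Dec_loc h2 hw' _ hσ' v (-z)).unique (h3.mul h4)

end

theorem dec (h : EP) : Dec := by
  intro K _ _ hK
  let p : Polynomial K := Polynomial.X ^ 2 + Polynomial.X + 1
  have hd : p.natDegree = 2 := by unfold p; compute_degree!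
  have : Fact (Irreducible p) := ⟨Polynomial.irreducible_of_degree_le_three_of_not_isRoot
    (by simp [hd]) fun x hx => hK ⟨x, by simpa [p] using hx⟩⟩
  have hp0 : p ≠ 0 := this.out.ne_zero
  have hfin : Module.Finite K (AdjoinRoot p) := (AdjoinRoot.powerBasis hp0).finite
  have hr : Module.finrank K (AdjoinRoot p) = 2 := by
    rw [(AdjoinRoot.powerBasis hp0).finrank, AdjoinRoot.powerBasis_dim, hd]
  have hnf : NumberField (AdjoinRoot p) := NumberField.of_module_finite K _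
  have hw : AdjoinRoot.root p ^ 2 + AdjoinRoot.root p + 1 = 0 := by
    simpa [p] using AdjoinRoot.eval₂_root p
  refine ⟨AdjoinRoot p, inferInstance, hnf, AdjoinRoot.root p, hw, ?_, fun z hz => ?_⟩
  · rw [dg, dg, ← Module.finrank_mul_finrank ℚ K (AdjoinRoot p), hr, mul_comm]
  · refine Dec_main h hr hw (AdjoinRoot.liftAlgHom p (Algebra.ofId K _) (AdjoinRoot.root p ^ 2) ?_)
      (AdjoinRoot.liftAlgHom_root _ _ _ _) hz
    simp only [p, Polynomial.eval₂_add, Polynomial.eval₂_X_pow, Polynomial.eval₂_X,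
      Polynomial.eval₂_one]
    linear_combination (AdjoinRoot.root p ^ 2 - AdjoinRoot.root p + 1) * hw

end ART
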