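import Vale.Agent.P016.Defs
import Vale.Agent.NQ.MkSt
import Vale.Agent.NQ.B1b

noncomputable section
namespace ART
open Complex NumberField

theorem zFree (h1 : ∀ [NQ.St], NQ.Hecke) (h2 : ∀ [NQ.St], NQ.ZF) : ZFree := by
  intro F _ _ w hw
  obtain ⟨s, a1, a2, a3, a4, a5⟩ := NQ.exists_s F
  let σ : NQ.St := ⟨F, s, w, hw, a1, a2, a3, a4, a5⟩
  obtain ⟨Λ, hΛ, -, -⟩ := @h1 σ
  have h3 : Module.finrank ℚ F / 2 = @NQ.rk σ := by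
    have : 2 * @NQ.rk σ = Module.finrank ℚ F := @NQ.two_mul_rk σ
    omega
  exact ⟨Λ, hΛ.1, fun z hz => h3 ▸ hΛ.2 z hz, @h2 σ Λ hΛ⟩

end ART
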