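import Vale.Agent.P016.Defs

noncomputable section
namespace ART
open Complex MeasureTheory NumberField Filter
open scoped Classical Topology

theorem Bad_pow {p q : ℕ} [Fact p.Prime] (hq : q ∣ p - 1) {a : ZMod p} (ha : a ≠ 0)
    (h : a ^ ((p - 1) / q) = 1) : ∃ y : ZMod p, y ^ q = a := by
  obtain ⟨g, hg⟩ := IsCyclic.exists_monoid_generator (α := (ZMod p)ˣ)
  obtain ⟨k, hk⟩ := hg (Units.mk0 a ha)
  have hk' : g ^ k = Units.mk0 a ha := hk
  have ho : orderOf g = p - 1 := by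
    rw [orderOf_eq_card_of_forall_mem_powers hg, Nat.card_eq_fintype_card, ZMod.card_units]
  have hp := (Fact.out : p.Prime).two_le
  obtain ⟨m, hm⟩ := hq
  have hq0 : 0 < q := Nat.pos_of_ne_zero fun h => by
    rw [h, zero_mul] at hm
    omega
  have hm0 : 0 < m := Nat.pos_of_ne_zero fun h => by
    rw [h, mul_zero] at hm
    omega
  rw [hm, Nat.mul_div_cancel_left _ hq0] at h
  have h1 : g ^ (k * m) = 1 := by
    rw [pow_mul, hk']
    exact Units.ext h
  rw [← orderOf_dvd_iff_pow_eq_one, ho, hm] at h1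
  obtain ⟨j, rfl⟩ := Nat.dvd_of_mul_dvd_mul_right hm0 h1
  refine ⟨(g ^ j : (ZMod p)ˣ), ?_⟩
  rw [← Units.val_pow_eq_pow_val, ← pow_mul, mul_comm, hk']
  rfl

theorem Bad_cases {a : ℤ} {p z d m : ℕ} (hp : p.Prime) (h1 : ¬ IsSquare (a : ZMod p))
    (h2 : ∀ q : ℕ, q.Prime → 3 ≤ q → q ≤ z → ¬ q ∣ p - 1) (hd : d.Prime) (hm : p - 1 = d * m)
    (h3 : orderOf (a : ZMod p) ≠ p - 1) : (p : ℤ) ∣ a ^ m - 1 ∨ ∃ q : ℕ, q.Prime ∧ 3 ≤ q ∧ z < q ∧
      q ∣ m ∧ ¬ (p : ℤ) ∣ a ∧ q ∣ p - 1 ∧ ∃ y : ZMod p, y ^ q = a := by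
  have : Fact p.Prime := ⟨hp⟩
  have ha : (a : ZMod p) ≠ 0 := fun h => h1 (h ▸ IsSquare.zero)
  have hp2 := hp.two_le
  obtain ⟨q, hq, hq1, hq2⟩ : ∃ q : ℕ, q.Prime ∧ q ∣ p - 1 ∧ (a : ZMod p) ^ ((p - 1) / q) = 1 := by
    by_contra h
    push Not at h
    exact h3 (orderOf_eq_of_pow_and_pow_div_prime (by omega) (ZMod.pow_card_sub_one_eq_one ha) h)
  obtain ⟨y, hy⟩ := Bad_pow hq1 ha hq2
  have hq3 : 3 ≤ q := by
    have := hq.two_le
    by_contra h
    obtain rfl : q = 2 := by omega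
    exact h1 ⟨y, by rw [← hy, sq]⟩
  by_cases hqd : q = d
  · left
    rw [hm, hqd, Nat.mul_div_cancel_left _ hd.pos] at hq2
    rw [← ZMod.intCast_zmod_eq_zero_iff_dvd]
    push_cast
    rw [hq2, sub_self]
  · refine Or.inr ⟨q, hq, hq3, not_le.1 fun h => h2 q hq hq3 h hq1, ?_,
      fun h => ha ((ZMod.intCast_zmod_eq_zero_iff_dvd _ _).2 h), hq1, y, hy⟩
    rw [hm] at hq1
    exact ((Nat.coprime_primes hq hd).2 hqd).dvd_of_dvd_mul_left hq1

theorem Bad_omega {a : ℤ} {m : ℕ} (hm : 1 ≤ m) :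
    (a ^ m - 1).natAbs.primeFactors.card ≤ (a.natAbs + 1) * m := by
  by_cases h0 : (a ^ m - 1).natAbs = 0
  · simp [h0]
  have h1 : 2 ^ (a ^ m - 1).natAbs.primeFactors.card ≤ (a ^ m - 1).natAbs :=
    (Finset.pow_card_le_prod _ _ _ fun p hp => (Nat.prime_of_mem_primeFactors hp).two_le).trans
      (Nat.le_of_dvd (Nat.pos_of_ne_zero h0) (Nat.prod_primeFactors_dvd _))
  have h2 : (a ^ m - 1).natAbs ≤ a.natAbs ^ m + 1 := by
    simpa [Int.natAbs_pow] using Int.natAbs_sub_le (a ^ m) 1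
  have h3 : a.natAbs ^ m ≤ (2 ^ a.natAbs) ^ m := Nat.pow_le_pow_left Nat.lt_two_pow_self.le m
  have h4 : 1 ≤ (2 ^ a.natAbs) ^ m := Nat.one_le_pow _ _ (by positivity)
  have h5 : 2 ≤ 2 ^ m := by simpa using Nat.pow_le_pow_right two_pos hm
  have h6 : 2 ^ (a ^ m - 1).natAbs.primeFactors.card ≤ 2 ^ ((a.natAbs + 1) * m) := by
    rw [add_mul, pow_add, pow_mul, one_mul]
    nlinarith
  exact (Nat.pow_le_pow_iff_right one_lt_two).1 h6

theorem Bad_root {a : ℤ} (ha : 2 ≤ a.natAbs) {q : ℕ} (hq : a.natAbs < q) : ¬ ∃ b : ℤ, b ^ q = a := by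
  rintro ⟨b, rfl⟩
  rw [Int.natAbs_pow] at ha hq
  have h1 : 2 ≤ b.natAbs := by
    by_contra h
    have := Nat.pow_le_pow_left (show b.natAbs ≤ 1 by omega) q
    rw [one_pow] at this
    omega
  have h2 := Nat.pow_le_pow_left h1 q
  have h3 : q < 2 ^ q := Nat.lt_two_pow_self
  omega

theorem bad (h : KCount) : Bad := by
  obtain ⟨C, hC, H⟩ := h
  intro a ha1 ha2
  have ha : 2 ≤ a.natAbs := by
    by_contra h
    have h1 : a = 0 ∨ a = 1 ∨ a = -1 := by omega
    rcases h1 with rfl | rfl | rfl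
    · exact ha2 IsSquare.zero
    · exact ha2 IsSquare.one
    · exact ha1 rfl
  refine ⟨2 * C + 1, a.natAbs, fun z hz => ?_⟩
  have hz0 : (0 : ℝ) < z := by exact_mod_cast (show 0 < z by omega)
  set L := 1 + Real.log |(a : ℝ)| with hL
  have hL0 : 0 ≤ L := by
    have : (1 : ℝ) ≤ |(a : ℝ)| := by
      rw [← Int.cast_abs, ← Nat.cast_natAbs]
      exact_mod_cast (show 1 ≤ a.natAbs by omega)
    have := Real.log_nonneg this
    linarith
  set E := 1 + ((a.natAbs : ℝ) + 1) + 2 * C * L with hE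
  have hE0 : 0 < E := by positivity
  have hev := ((isLittleO_log_rpow_atTop (show (0 : ℝ) < 3 / 200 by norm_num)).bound
    (show 0 < (E * z)⁻¹ by positivity))
  filter_upwards [tendsto_natCast_atTop_atTop.eventually hev, eventually_ge_atTop 3] with x h1 h3
  have hx1 : (1 : ℝ) < x := by exact_mod_cast (show 1 < x by omega)
  have hx0 : (0 : ℝ) < x := by linarith
  have hl : 1 ≤ Real.log x := by
    rw [Real.le_log_iff_exp_le hx0]
    exact (Real.exp_one_lt_three.le).trans (by exact_mod_cast h3)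
  have hl0 : 0 < Real.log x := by linarith
  rw [Real.norm_of_nonneg hl0.le, Real.norm_of_nonneg (by positivity)] at h1
  set Q := ⌊(x : ℝ) ^ (1 / 200 : ℝ)⌋₊ with hQ
  have hQ1 : (Q : ℝ) ≤ (x : ℝ) ^ (1 / 200 : ℝ) := Nat.floor_le (by positivity)
  have hpow : ∀ (k : ℕ) (s : ℝ), k / 200 + s ≤ 197 / 200 →
      (Q : ℝ) ^ k * (x : ℝ) ^ s ≤ (x : ℝ) ^ (197 / 200 : ℝ) := fun k s hs => by
    refine (mul_le_mul_of_nonneg_right (pow_le_pow_left₀ (Nat.cast_nonneg _) hQ1 k)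
      (by positivity)).trans ?_
    rw [← Real.rpow_natCast, ← Real.rpow_mul hx0.le, ← Real.rpow_add hx0]
    exact Real.rpow_le_rpow_of_exponent_le hx1.le (by linarith)
  set A := Finset.Icc 1 ⌊(x : ℝ) ^ (1 / 2 : ℝ)⌋₊ with hA
  set B := (Finset.Icc 1 Q).biUnion fun m => (a ^ m - 1).natAbs.primeFactors with hB
  set S : ℕ → Finset ℕ := fun q => (Finset.Icc 1 x).filter fun p : ℕ => p.Prime ∧ ¬ (p : ℤ) ∣ a ∧
    q ∣ p - 1 ∧ ∃ y : ZMod p, y ^ q = a with hS
  set T := (Finset.Ioc z Q).filter fun q => q.Prime ∧ 3 ≤ q with hT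
  set D := T.biUnion fun q => (S q).filter fun p : ℕ => (x : ℝ) ^ (1 / 2 : ℝ) < p with hD
  have hsub : ((Finset.Icc 1 x).filter fun p : ℕ => p.Prime ∧ ¬ IsSquare (a : ZMod p) ∧
      (∀ q : ℕ, q.Prime → 3 ≤ q → q ≤ z → ¬ q ∣ p - 1) ∧ (∃ d ∈ DD x, d ∣ p - 1) ∧
      orderOf (a : ZMod p) ≠ p - 1) ⊆ A ∪ B ∪ D := by
    intro p hp
    obtain ⟨p1, p2, p3, p4, ⟨d, hd, m, hm⟩, p5⟩ := Finset.mem_filter.1 hp
    obtain ⟨-, d1, d2, -⟩ := Finset.mem_filter.1 hd
    have p6 := p2.two_le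
    have p7 := (Finset.mem_Icc.1 p1).2
    have m1 : 1 ≤ m := Nat.pos_of_ne_zero fun h => by
      rw [h, mul_zero] at hm
      omega
    have m2 : m ≤ Q := by
      refine Nat.le_floor ?_
      have b1 : (d : ℝ) * m ≤ x := by exact_mod_cast (show d * m ≤ x by omega)
      have b2 := (mul_le_mul_of_nonneg_right d2 (Nat.cast_nonneg m)).trans b1
      have b3 : (x : ℝ) = (x : ℝ) ^ (199 / 200 : ℝ) * (x : ℝ) ^ (1 / 200 : ℝ) := by
        rw [← Real.rpow_add hx0]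
        norm_num
      exact le_of_mul_le_mul_left (b2.trans b3.le) (by positivity)
    rw [Finset.mem_union, Finset.mem_union]
    by_cases hpx : (p : ℝ) ≤ (x : ℝ) ^ (1 / 2 : ℝ)
    · exact Or.inl (Or.inl (Finset.mem_Icc.2 ⟨by omega, Nat.le_floor hpx⟩))
    rcases Bad_cases p2 p3 p4 d1 hm p5 with h | ⟨q, q1, q2, q3, q4, q5⟩
    · refine Or.inl (Or.inr (Finset.mem_biUnion.2 ⟨m, Finset.mem_Icc.2 ⟨m1, m2⟩,
        Nat.mem_primeFactors.2 ⟨p2, Int.natCast_dvd.1 h, fun h0 => ?_⟩⟩))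
      have b1 : a.natAbs ^ m = 1 := by
        rw [← Int.natAbs_pow, sub_eq_zero.1 (Int.natAbs_eq_zero.1 h0), Int.natAbs_one]
      have b2 := Nat.pow_eq_one.1 b1
      omega
    · exact Or.inr (Finset.mem_biUnion.2 ⟨q, Finset.mem_filter.2 ⟨Finset.mem_Ioc.2
        ⟨q3, (Nat.le_of_dvd m1 q4).trans m2⟩, q1, q2⟩,
        Finset.mem_filter.2 ⟨Finset.mem_filter.2 ⟨p1, p2, q5⟩, not_le.1 hpx⟩⟩)
  have cA : (A.card : ℝ) ≤ (x : ℝ) ^ (197 / 200 : ℝ) := by
    rw [hA, Nat.card_Icc, Nat.add_sub_cancel]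
    exact (Nat.floor_le (by positivity)).trans
      (Real.rpow_le_rpow_of_exponent_le hx1.le (by norm_num))
  have cB : (B.card : ℝ) ≤ ((a.natAbs : ℝ) + 1) * (x : ℝ) ^ (197 / 200 : ℝ) := by
    have b1 : B.card ≤ Q * ((a.natAbs + 1) * Q) := by
      refine (Finset.card_biUnion_le_card_mul _ _ _ fun m hm => ?_).trans
        (by rw [Nat.card_Icc, Nat.add_sub_cancel])
      rw [Finset.mem_Icc] at hm
      exact (Bad_omega hm.1).trans (Nat.mul_le_mul_left _ hm.2)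
    have b2 : (B.card : ℝ) ≤ Q * ((a.natAbs + 1) * Q) := by exact_mod_cast b1
    have b3 := hpow 2 0 (by norm_num)
    rw [Real.rpow_zero, mul_one] at b3
    refine b2.trans (le_trans (le_of_eq (by ring)) (mul_le_mul_of_nonneg_left b3 (by positivity)))
  have cD : (D.card : ℝ) * (Real.log x / 2) ≤ C * (x / z + L * (x : ℝ) ^ (197 / 200 : ℝ)) := by
    have b1 : (D.card : ℝ) ≤ ∑ q ∈ T,
        (((S q).filter fun p : ℕ => (x : ℝ) ^ (1 / 2 : ℝ) < p).card : ℝ) := by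
      exact_mod_cast Finset.card_biUnion_le
    have b2 : ∀ q ∈ T, (((S q).filter fun p : ℕ => (x : ℝ) ^ (1 / 2 : ℝ) < p).card : ℝ) *
        (Real.log x / 2) ≤ C * (x * ((q : ℝ) ^ 2)⁻¹ + (Q : ℝ) ^ 4 * L * (x : ℝ) ^ (24 / 25 : ℝ)) := by
      intro q hq
      obtain ⟨q1, q2, q3⟩ := Finset.mem_filter.1 hq
      rw [Finset.mem_Ioc] at q1
      have c1 := H a q x q2 q3 (Bad_root ha (by omega)) (by omega)
      have c2 : (q : ℝ) ≤ Q := by exact_mod_cast q1.2
      refine le_trans ?_ (c1.trans ?_)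
      · rw [← nsmul_eq_mul]
        refine (Finset.card_nsmul_le_sum _ (fun p : ℕ => Real.log p) _ fun p hp => ?_).trans
          (Finset.sum_le_sum_of_subset_of_nonneg (Finset.filter_subset _ _)
            fun p _ _ => Real.log_natCast_nonneg p)
        have := Real.log_le_log (by positivity) (Finset.mem_filter.1 hp).2.le
        rw [Real.log_rpow hx0] at this
        linarith
      · rw [div_eq_mul_inv]
        gcongr
    have b3 : ∑ q ∈ T, ((q : ℝ) ^ 2)⁻¹ ≤ (z : ℝ)⁻¹ := by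
      refine (Finset.sum_le_sum_of_subset_of_nonneg (Finset.filter_subset _ _)
        fun _ _ _ => by positivity).trans ?_
      rcases le_total z Q with h | h
      · refine (sum_Ioc_inv_sq_le_sub (by omega) h).trans (sub_le_self _ (by positivity))
      · rw [Finset.Ioc_eq_empty (not_lt.2 h), Finset.sum_empty]
        positivity
    have b4 : (T.card : ℝ) ≤ Q := by
      have : T.card ≤ Q := (Finset.card_filter_le _ _).trans (by rw [Nat.card_Ioc]; omega)
      exact_mod_cast this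
    have b5 := hpow 5 (24 / 25) (by norm_num)
    refine (mul_le_mul_of_nonneg_right b1 (by positivity)).trans ?_
    rw [Finset.sum_mul]
    refine (Finset.sum_le_sum b2).trans ?_
    rw [← Finset.mul_sum, Finset.sum_add_distrib, ← Finset.mul_sum, Finset.sum_const, nsmul_eq_mul]
    refine mul_le_mul_of_nonneg_left (add_le_add (mul_le_mul_of_nonneg_left b3 hx0.le) ?_) hC.le
    refine (mul_le_mul_of_nonneg_right b4 (by positivity)).trans
      (le_trans (le_of_eq (by ring)) (mul_le_mul_of_nonneg_left b5 hL0))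
  have cD' : (D.card : ℝ) ≤ 2 * C * x / (z * Real.log x) + 2 * C * L * (x : ℝ) ^ (197 / 200 : ℝ) := by
    rw [← le_div_iff₀ (by positivity)] at cD
    refine cD.trans ?_
    have e : C * (x / z + L * (x : ℝ) ^ (197 / 200 : ℝ)) / (Real.log x / 2)
        = 2 * C * x / (z * Real.log x) + 2 * C * L * (x : ℝ) ^ (197 / 200 : ℝ) / Real.log x := by
      field_simp
    rw [e]
    exact add_le_add le_rfl (div_le_self (by positivity) hl)
  have c1 : E * (x : ℝ) ^ (197 / 200 : ℝ) ≤ x / (z * Real.log x) := by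
    have b3 : (x : ℝ) = (x : ℝ) ^ (197 / 200 : ℝ) * (x : ℝ) ^ (3 / 200 : ℝ) := by
      rw [← Real.rpow_add hx0]
      norm_num
    rw [le_inv_mul_iff₀ (by positivity)] at h1
    rw [le_div_iff₀ (by positivity)]
    refine le_trans (le_of_eq (by ring)) ((mul_le_mul_of_nonneg_left h1
      (show 0 ≤ (x : ℝ) ^ (197 / 200 : ℝ) by positivity)).trans b3.ge)
  have c2 := (Finset.card_le_card hsub).trans ((Finset.card_union_le _ _).trans
    (Nat.add_le_add_right (Finset.card_union_le _ _) _))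
  have c3 := (Nat.cast_le (α := ℝ)).2 c2
  push_cast at c3
  refine c3.trans ?_
  have e : (2 * C + 1) * x / (z * Real.log x)
      = 2 * C * x / (z * Real.log x) + x / (z * Real.log x) := by ring
  rw [e]
  rw [hE] at c1
  linarith

end ART
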