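import Vale.Agent.P016.Defs

noncomputable section
namespace ART
open Complex MeasureTheory NumberField Filter
open scoped Classical Topology

theorem Cls_card {W q : ℕ} (hW : 0 < W) (hq : 0 < q) (co : W.Coprime q) (R : Finset ℕ)
    (hR : ∀ r ∈ R, r < W) : R.card * (q - 2) ≤
      ((Finset.range (W * q)).filter fun r => r % W ∈ R ∧ 2 ≤ r % q).card := by
  rw [← Nat.card_Ico 2 q, ← Finset.card_product]
  have key : ∀ x ∈ R ×ˢ Finset.Ico 2 q, (Nat.chineseRemainder co x.1 x.2 : ℕ) % W = x.1 ∧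
      (Nat.chineseRemainder co x.1 x.2 : ℕ) % q = x.2 := fun x hx => by
    obtain ⟨h1, h2⟩ := Finset.mem_product.1 hx
    obtain ⟨e1, e2⟩ := (Nat.chineseRemainder co x.1 x.2).2
    exact ⟨Eq.trans e1 (Nat.mod_eq_of_lt (hR _ h1)),
      Eq.trans e2 (Nat.mod_eq_of_lt (Finset.mem_Ico.1 h2).2)⟩
  refine Finset.card_le_card_of_injOn (fun x => (Nat.chineseRemainder co x.1 x.2 : ℕ))
    (fun x hx => ?_) fun x hx y hy hxy => ?_
  · have hx' := Finset.mem_coe.1 hx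
    obtain ⟨h1, h2⟩ := Finset.mem_product.1 hx'
    refine Finset.mem_coe.2 (Finset.mem_filter.2 ⟨Finset.mem_range.2
      (Nat.chineseRemainder_lt_mul co _ _ hW.ne' hq.ne'), ?_, ?_⟩)
    · rw [(key x hx').1]; exact h1
    · rw [(key x hx').2]; exact (Finset.mem_Ico.1 h2).1
  · have h1 := key x (Finset.mem_coe.1 hx)
    have h2 := key y (Finset.mem_coe.1 hy)
    simp only at hxy
    exact Prod.ext (by rw [← h1.1, ← h2.1, hxy]) (by rw [← h1.2, ← h2.2, hxy])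

theorem Cls_ind {W0 r0 : ℕ} (hW0 : 0 < W0) (co : Nat.Coprime r0 W0)
    (h1 : ∀ q : ℕ, q.Prime → 3 ≤ q → q ∣ W0 → ¬ r0 ≡ 1 [MOD q]) (n : ℕ) :
    ∃ (W : ℕ) (R : Finset ℕ), 0 < W ∧ W0 ∣ W ∧ (∀ q : ℕ, q.Prime → 3 ≤ q → q ≤ 2 * n + 2 → q ∣ W) ∧
      (∀ r ∈ R, r < W ∧ Nat.Coprime r W ∧ r ≡ r0 [MOD W0] ∧
        ∀ q : ℕ, q.Prime → 3 ≤ q → q ∣ W → ¬ r ≡ 1 [MOD q]) ∧
      W.totient ^ 2 ≤ W0.totient ^ 2 * R.card ^ 2 * (4 * n + 1) := by
  induction n with
  | zero =>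
    refine ⟨W0, {r0 % W0}, hW0, dvd_rfl, fun q _ h3 h => by omega, fun r hr => ?_, by simp⟩
    rw [Finset.mem_singleton.1 hr]
    exact ⟨Nat.mod_lt _ hW0, (Nat.mod_modEq r0 W0).gcd_eq.trans co, Nat.mod_modEq _ _,
      fun q hq h3 hd h => h1 q hq h3 hd (((Nat.mod_modEq r0 W0).of_dvd hd).symm.trans h)⟩
  | succ n ih =>
    obtain ⟨W, R, hW, hd, hall, hR, hc⟩ := ih
    have hcases : ∀ q : ℕ, q.Prime → 3 ≤ q → q ≤ 2 * (n + 1) + 2 → q ≤ 2 * n + 2 ∨ q = 2 * n + 3 :=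
      fun q hq h3 h => by
        have := hq.eq_two_or_odd
        omega
    by_cases hq : (2 * n + 3).Prime ∧ ¬ 2 * n + 3 ∣ W
    · have cq : W.Coprime (2 * n + 3) := ((Nat.Prime.coprime_iff_not_dvd hq.1).2 hq.2).symm
      refine ⟨W * (2 * n + 3), (Finset.range (W * (2 * n + 3))).filter
        fun r => r % W ∈ R ∧ 2 ≤ r % (2 * n + 3), by positivity, hd.mul_right _,
        fun q hq' h3 h => ?_, fun r hr => ?_, ?_⟩
      · rcases hcases q hq' h3 h with h | h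
        · exact (hall q hq' h3 h).mul_right _
        · exact h ▸ dvd_mul_left _ _
      · obtain ⟨hr1, hr2, hr3⟩ := Finset.mem_filter.1 hr
        obtain ⟨-, e2, e3, e4⟩ := hR _ hr2
        refine ⟨Finset.mem_range.1 hr1, Nat.Coprime.mul_right
          ((Nat.mod_modEq r W).gcd_eq.symm.trans e2) ((Nat.Prime.coprime_iff_not_dvd hq.1).2
            fun h => ?_).symm, ((Nat.mod_modEq r W).of_dvd hd).symm.trans e3,
          fun q hq' h3 hdq h => ?_⟩
        · have := Nat.mod_eq_zero_of_dvd h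
          omega
        rcases (Nat.Prime.dvd_mul hq').1 hdq with hdq | hdq
        · exact e4 q hq' h3 hdq (((Nat.mod_modEq r W).of_dvd hdq).trans h)
        · rw [(Nat.prime_dvd_prime_iff_eq hq' hq.1).1 hdq, Nat.ModEq,
            Nat.mod_eq_of_lt (show 1 < 2 * n + 3 by omega)] at h
          omega
      · have hk := Cls_card hW (by omega) cq R fun r hr => (hR r hr).1
        rw [Nat.totient_mul cq, Nat.totient_prime hq.1, mul_pow]
        simp only [show 2 * n + 3 - 2 = 2 * n + 1 by omega,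
          show 2 * n + 3 - 1 = 2 * n + 2 by omega] at hk ⊢
        calc _ ≤ W0.totient ^ 2 * R.card ^ 2 * (4 * n + 1) * (2 * n + 2) ^ 2 := by gcongr
          _ = W0.totient ^ 2 * R.card ^ 2 * ((4 * n + 1) * (2 * n + 2) ^ 2) := by ring
          _ ≤ W0.totient ^ 2 * R.card ^ 2 * ((2 * n + 1) ^ 2 * (4 * (n + 1) + 1)) :=
              Nat.mul_le_mul_left _ (by nlinarith)
          _ = W0.totient ^ 2 * (R.card * (2 * n + 1)) ^ 2 * (4 * (n + 1) + 1) := by ring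
          _ ≤ _ := by gcongr
    · refine ⟨W, R, hW, hd, fun q hq' h3 h => ?_, hR, hc.trans (by gcongr; omega)⟩
      rcases hcases q hq' h3 h with h | h
      · exact hall q hq' h3 h
      · by_contra hn
        exact hq ⟨h ▸ hq', h ▸ hn⟩

theorem cls (h : Cls0) : Cls := by
  intro a ha
  obtain ⟨W0, r0, hW0, co, h1, h2⟩ := h a ha
  have ht : (0 : ℝ) < W0.totient := by exact_mod_cast Nat.totient_pos.2 hW0
  refine ⟨1 / (2 * W0.totient), by positivity, fun z hz => ?_⟩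
  obtain ⟨W, R, hW, hd, hall, hR, hc⟩ := Cls_ind hW0 co h1 (z / 2)
  refine ⟨W, R, hW, fun r hr => ⟨(hR r hr).1, (hR r hr).2.1⟩, ?_, fun p hp hpR => ?_⟩
  · have hz' : (0 : ℝ) < z := by exact_mod_cast hz
    have hs := Real.sqrt_pos.2 hz'
    have e : W.totient ^ 2 ≤ W0.totient ^ 2 * R.card ^ 2 * (4 * z) := hc.trans (by gcongr; omega)
    have e' : (W.totient : ℝ) ^ 2 ≤ (R.card * √z * (2 * W0.totient)) ^ 2 := by
      rw [mul_pow, mul_pow, Real.sq_sqrt hz'.le]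
      have : ((W.totient ^ 2 : ℕ) : ℝ) ≤ (W0.totient ^ 2 * R.card ^ 2 * (4 * z) : ℕ) :=
        Nat.cast_le.2 e
      push_cast at this
      nlinarith
    rw [div_le_iff₀ hs, div_mul_eq_mul_div, one_mul, div_le_iff₀ (by positivity)]
    exact (pow_le_pow_iff_left₀ (by positivity) (by positivity) two_ne_zero).1 e'
  · obtain ⟨-, -, e3, e4⟩ := hR _ hpR
    refine ⟨h2 p hp (((Nat.mod_modEq p W).of_dvd hd).symm.trans e3), fun q hq h3 hqz hdq => ?_⟩
    have hqW := hall q hq h3 (by omega)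
    exact e4 q hq h3 hqW (((Nat.mod_modEq p W).of_dvd hqW).trans
      ((Nat.modEq_iff_dvd' hp.one_le).2 hdq).symm)

end ART
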