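import Vale.Agent.P016.Defs

noncomputable section
namespace ART
open Complex MeasureTheory NumberField Filter
open scoped Classical Topology

theorem Cls0_odd {n : ℕ} (hn : n ≠ 0) (h : ¬ IsSquare n) :
    ∃ q k m : ℕ, q.Prime ∧ Odd k ∧ ¬ q ∣ m ∧ n = q ^ k * m := by
  by_contra hc
  refine h ?_
  rw [← Nat.prod_factorization_pow_eq_self hn]
  refine Finset.isSquare_prod _ fun q hq => Even.isSquare_pow ?_ _
  have hq' := Nat.prime_of_mem_primeFactors hq
  by_contra ho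
  exact hc ⟨q, _, _, hq', Nat.not_even_iff_odd.1 ho, Nat.not_dvd_ordCompl hq' hn,
    (Nat.ordProj_mul_ordCompl_eq_self n q).symm⟩

theorem Cls0_one {b : ℤ} {r : ℕ} (hb : b ≠ 0) (h : r ≡ 1 [MOD 4 * b.natAbs]) :
    r % 4 = 1 ∧ jacobiSym b r = 1 := by
  have h4 : r % 4 = 1 := h.of_mul_right _
  have h1 : 1 ≤ b.natAbs := Int.natAbs_pos.2 hb
  refine ⟨h4, ?_⟩
  rw [jacobiSym.mod_right b (Nat.odd_iff.2 (by omega)), h, Nat.mod_eq_of_lt (by omega),
    jacobiSym.one_right]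

theorem Cls0_prime {q m : ℕ} (hq : q.Prime) (h : ¬ q ∣ m) :
    ∃ r : ℕ, r ≡ 1 [MOD 4 * m] ∧ jacobiSym q r = -1 := by
  rcases hq.eq_two_or_odd' with rfl | ho
  · refine ⟨1 + 4 * m, by simp [Nat.ModEq], ?_⟩
    rw [Nat.cast_ofNat, jacobiSym.at_two (Nat.odd_iff.2 (by omega)), ZMod.χ₈_nat_mod_eight,
      show (1 + 4 * m) % 8 = 5 by omega]
    rfl
  · have : Fact q.Prime := ⟨hq⟩
    obtain ⟨c, hc⟩ := FiniteField.exists_nonsquare (F := ZMod q) (by
      rw [ZMod.ringChar_zmod_n]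
      rintro rfl
      exact absurd ho (by decide))
    have h4 : (4 * m).Coprime q := Nat.Coprime.mul_left
      ((Nat.coprime_two_left.2 ho).pow_left 2) ((Nat.Prime.coprime_iff_not_dvd hq).2 h).symm
    obtain ⟨r, h1, h2⟩ := Nat.chineseRemainder h4 1 c.val
    refine ⟨r, h1, ?_⟩
    rw [jacobiSym.quadratic_reciprocity_one_mod_four' ho (h1.of_mul_right _),
      ZMod.nonsquare_iff_jacobiSym_eq_neg_one, Int.cast_natCast,
      (ZMod.natCast_eq_natCast_iff _ _ _).2 h2, ZMod.natCast_zmod_val]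
    exact hc

theorem Cls0_ex {a : ℤ} (ha : ¬ IsSquare a) : ∃ r : ℕ, Odd r ∧ jacobiSym a r = -1 := by
  have h0 : a.natAbs ≠ 0 := fun h => ha (by rw [Int.natAbs_eq_zero.1 h]; exact IsSquare.zero)
  by_cases hs : IsSquare a.natAbs
  · obtain ⟨t, ht⟩ := hs
    obtain ⟨r, hr⟩ : ∃ r, 4 * a.natAbs = r + 1 := ⟨4 * a.natAbs - 1, by omega⟩
    have ho : Odd r := Nat.odd_iff.2 (by omega)
    have h1 : a = -(t : ℤ) ^ 2 := by
      rcases Int.natAbs_eq a with h | h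
      · exact absurd ⟨t, by rw [h, ht, Nat.cast_mul]⟩ ha
      · rw [h, ht, Nat.cast_mul, sq]
    refine ⟨r, ho, ?_⟩
    rw [h1, jacobiSym.neg _ ho, ZMod.χ₄_nat_three_mod_four (by omega), jacobiSym.sq_one', mul_one]
    refine Int.isCoprime_iff_gcd_eq_one.1 ⟨4 * t, -1, ?_⟩
    rw [ht] at hr
    zify at hr
    linarith
  · obtain ⟨q, k, m, hq, hk, hm, hn⟩ := Cls0_odd h0 hs
    obtain ⟨r, h1, h2⟩ := Cls0_prime hq hm
    have hm0 : m ≠ 0 := fun h => hm (h ▸ dvd_zero q)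
    obtain ⟨b, hb, hab⟩ : ∃ b : ℤ, b.natAbs = m ∧ a = (q : ℤ) ^ k * b := by
      rcases Int.natAbs_eq a with h | h
      · exact ⟨m, rfl, by rw [h, hn]; push_cast; ring⟩
      · exact ⟨-m, by simp, by rw [h, hn]; push_cast; ring⟩
    obtain ⟨h4, h5⟩ := Cls0_one (b := b) (r := r) (Int.natAbs_ne_zero.1 (hb ▸ hm0)) (hb ▸ h1)
    refine ⟨r, Nat.odd_iff.2 (by omega), ?_⟩
    rw [hab, jacobiSym.mul_left, jacobiSym.pow_left, h2, h5, hk.neg_one_pow, mul_one]

theorem Cls0_cop {a : ℤ} {r : ℕ} (hr : Odd r) (h : jacobiSym a r ≠ 0) : r.Coprime a.natAbs := by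
  have : NeZero r := ⟨hr.pos.ne'⟩
  exact Nat.Coprime.symm (not_not.1 (mt jacobiSym.eq_zero_iff_not_coprime.2 h))

theorem Cls0_three {a : ℤ} (ha : ¬ IsSquare a) :
    ∃ r : ℕ, Odd r ∧ jacobiSym a r = -1 ∧ (3 ∣ a.natAbs → r % 3 = 2) := by
  obtain ⟨r, hr, h⟩ := Cls0_ex ha
  by_cases h3 : 3 ∣ a.natAbs
  swap
  · exact ⟨r, hr, h, fun h' => absurd h' h3⟩
  have h0 : a.natAbs ≠ 0 := fun h => ha (by rw [Int.natAbs_eq_zero.1 h]; exact IsSquare.zero)
  obtain ⟨s, hs⟩ : ∃ s, 2 * a.natAbs = s + 1 := ⟨2 * a.natAbs - 1, by omega⟩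
  have ho : Odd s := Nat.odd_iff.2 (by omega)
  have hc : s.Coprime a.natAbs :=
    Nat.Coprime.coprime_dvd_right (Dvd.intro_left 2 hs) (by simp)
  have h1 : ¬ 3 ∣ r := fun h' => absurd (Nat.eq_one_of_dvd_coprimes
    (Cls0_cop hr (by rw [h]; decide)) h' h3) (by decide)
  rcases jacobiSym.eq_one_or_neg_one (a := a) (b := s) hc.symm with h2 | h2
  · by_cases h4 : r % 3 = 2
    · exact ⟨r, hr, h, fun _ => h4⟩
    · refine ⟨r * s, hr.mul ho, ?_, fun _ => ?_⟩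
      · rw [jacobiSym.mul_right' a hr.pos.ne' ho.pos.ne', h, h2, mul_one]
      · rw [Nat.mul_mod, show r % 3 = 1 by omega, show s % 3 = 2 by omega]
  · exact ⟨s, ho, h2, fun _ => by omega⟩

theorem cls0 : Cls0 := by
  intro a ha
  obtain ⟨r, hr, h, h3⟩ := Cls0_three ha
  have h0 : 4 * a.natAbs ≠ 0 := fun h => ha (by
    rw [Int.natAbs_eq_zero.1 (by omega : a.natAbs = 0)]; exact IsSquare.zero)
  obtain ⟨t, ht⟩ := Nat.chineseRemainderOfFinset
    (fun q => if 5 ≤ q ∧ r ≡ 1 [MOD q] then 2 else 1) (fun q => q) (4 * a.natAbs).primeFactors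
    (fun q hq => (Nat.prime_of_mem_primeFactors hq).ne_zero) fun p hp q hq hpq =>
      (Nat.coprime_primes (Nat.prime_of_mem_primeFactors hp)
        (Nat.prime_of_mem_primeFactors hq)).2 hpq
  have h1 : t.Coprime (4 * a.natAbs) := Nat.coprime_of_dvd fun q hq hqt hq' => by
    have h2 := ((ht q (Nat.mem_primeFactors.2 ⟨hq, hq', h0⟩)).dvd_iff dvd_rfl).1 hqt
    split_ifs at h2 with h5
    · have := Nat.le_of_dvd two_pos h2
      omega
    · exact hq.one_lt.ne' (Nat.dvd_one.1 h2)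
  have h2 : r.Coprime (4 * a.natAbs) :=
    ((Nat.coprime_two_right.2 hr).pow_right 2).mul_right (Cls0_cop hr (by rw [h]; decide))
  have h4 : Odd t := Nat.coprime_two_right.1 (h1.coprime_dvd_right ⟨2 * a.natAbs, by ring⟩)
  have h5 : jacobiSym a (r * t ^ 2) = -1 := by
    rw [jacobiSym.mul_right' a hr.pos.ne' (h4.pow (n := 2)).pos.ne', h, jacobiSym.pow_right,
      jacobiSym.sq_one (Nat.Coprime.symm h1.coprime_mul_left_right), mul_one]
  refine ⟨4 * a.natAbs, r * t ^ 2, Nat.pos_of_ne_zero h0, h2.mul_left (h1.pow_left 2),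
    fun q hq hq3 hqW h6 => ?_, fun p hp h6 => ?_⟩
  · have h7 := (ht q (Nat.mem_primeFactors.2 ⟨hq, hqW, h0⟩)).pow 2
    have h8 := (h7.mul_left r).symm.trans h6
    split_ifs at h8 with h9
    · have h10 := Nat.le_of_dvd (by norm_num)
        ((Nat.modEq_iff_dvd' (by norm_num)).1 (h8.symm.trans (h9.2.mul_right _)))
      omega
    · rw [one_pow, mul_one] at h8
      have h10 : q ≠ 4 := by
        rintro rfl
        exact absurd hq (by decide)
      obtain rfl : q = 3 := by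
        by_contra h11
        exact h9 ⟨by omega, h8⟩
      have := h3 (by omega)
      unfold Nat.ModEq at h8
      omega
  · have h8 : p % 2 = r * t ^ 2 % 2 := h6.of_dvd (m := 2) ⟨2 * a.natAbs, by ring⟩
    have h7 : Odd p := Nat.odd_iff.2 (h8.trans (Nat.odd_iff.1 (hr.mul h4.pow)))
    refine ZMod.nonsquare_of_jacobiSym_eq_neg_one ?_
    rw [jacobiSym.mod_right a h7, h6, ← jacobiSym.mod_right a (hr.mul h4.pow), h5]

end ART
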