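import Vale.Agent.P016.Defs

noncomputable section
namespace ART
open Complex MeasureTheory NumberField Filter
open scoped Classical Topology

theorem Fin_log (K : ℝ) : ∀ᶠ x : ℕ in atTop, 0 < Real.log x ∧ K * Real.log x < x := by
  have h1 := (Real.isLittleO_log_id_atTop.comp_tendsto tendsto_natCast_atTop_atTop).bound
    (show (0 : ℝ) < 1 / (|K| + 1) by positivity)
  filter_upwards [h1, eventually_ge_atTop 2] with x hx hx2
  have h2 : (1 : ℝ) < x := by exact_mod_cast hx2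
  have h3 := Real.log_pos h2
  simp only [Function.comp_apply, id, Real.norm_eq_abs] at hx
  rw [abs_of_pos h3, abs_of_pos (by linarith : (0 : ℝ) < x), one_div_mul_eq_div,
    le_div_iff₀ (by positivity)] at hx
  refine ⟨h3, ?_⟩
  nlinarith [le_abs_self K]

theorem artin_of (h1 : Good) (h2 : Cls) (h3 : Bad) : Artin := by
  intro a ha hsq hfin
  obtain ⟨c, hc, h1⟩ := h1
  obtain ⟨c', hc', h2⟩ := h2 a hsq
  obtain ⟨C, z1, h3⟩ := h3 a ha hsq
  have hcc : 0 < c * c' := mul_pos hc hc'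
  obtain ⟨z, hz1, hz2, hz3⟩ : ∃ z : ℕ, 1 ≤ z ∧ z1 ≤ z ∧ C + 1 ≤ c * c' * √z := by
    obtain ⟨n, hn⟩ := exists_nat_ge (((|C| + 1) / (c * c')) ^ 2)
    refine ⟨max (max 1 z1) n, (le_max_left _ _).trans (le_max_left _ _),
      (le_max_right _ _).trans (le_max_left _ _), ?_⟩
    have h4 : (|C| + 1) / (c * c') ≤ √((max (max 1 z1) n : ℕ) : ℝ) :=
      Real.le_sqrt_of_sq_le (hn.trans (Nat.cast_le.2 (le_max_right _ _)))
    rw [div_le_iff₀' hcc] at h4
    linarith [le_abs_self C]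
  obtain ⟨W, R, hW, hR, hcard, hcls⟩ := h2 z hz1
  have hz0 : (0 : ℝ) < z := by exact_mod_cast hz1
  have hs0 : 0 < √(z : ℝ) := Real.sqrt_pos.2 hz0
  have hφ : (0 : ℝ) < Nat.totient W := by exact_mod_cast Nat.totient_pos.2 hW
  obtain ⟨x, hx1, hx2, hlog, hx3⟩ := (((eventually_all_finset R).2 fun r hr =>
    h1 W r hW (hR r hr).2).and ((h3 z hz2).and (Fin_log (hfin.toFinset.card * z)))).exists
  set G : ℕ → Finset ℕ := fun r => (Finset.Icc 1 x).filter fun p : ℕ =>
    p.Prime ∧ p ≡ r [MOD W] ∧ ∃ d ∈ DD x, d ∣ p - 1 with hG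
  have hmod : ∀ r ∈ R, ∀ p ∈ G r, p % W = r := fun r hr p hp => by
    have h5 : p % W = r % W := (Finset.mem_filter.1 hp).2.2.1
    rw [h5, Nat.mod_eq_of_lt (hR r hr).1]
  have hdis : (R : Set ℕ).PairwiseDisjoint G := fun r hr r' hr' hne =>
    Finset.disjoint_left.2 fun p hp hp' => hne ((hmod r hr p hp).symm.trans (hmod r' hr' p hp'))
  have hsub : R.biUnion G ⊆ hfin.toFinset ∪ (Finset.Icc 1 x).filter fun p : ℕ =>
      p.Prime ∧ ¬ IsSquare (a : ZMod p) ∧ (∀ q : ℕ, q.Prime → 3 ≤ q → q ≤ z → ¬ q ∣ p - 1) ∧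
        (∃ d ∈ DD x, d ∣ p - 1) ∧ orderOf (a : ZMod p) ≠ p - 1 := by
    intro p hp
    obtain ⟨r, hr, hp⟩ := Finset.mem_biUnion.1 hp
    obtain ⟨hI, hpr, -, hd⟩ := Finset.mem_filter.1 hp
    obtain ⟨h5, h6⟩ := hcls p hpr (by rw [hmod r hr p hp]; exact hr)
    by_cases ho : orderOf (a : ZMod p) = p - 1
    · refine Finset.mem_union_left _ (hfin.mem_toFinset.2 ⟨hpr, fun hd => h5 ?_, ho⟩)
      rw [(ZMod.intCast_zmod_eq_zero_iff_dvd a p).2 hd]
      exact IsSquare.zero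
    · exact Finset.mem_union_right _ (Finset.mem_filter.2 ⟨hI, hpr, h5, h6, hd, ho⟩)
  have h7 := (Finset.card_le_card hsub).trans (Finset.card_union_le _ _)
  rw [Finset.card_biUnion hdis] at h7
  have h8 : (R.card : ℝ) * (c * x / (Nat.totient W * Real.log x)) ≤ ∑ r ∈ R, ((G r).card : ℝ) := by
    rw [← nsmul_eq_mul]
    exact Finset.card_nsmul_le_sum R _ _ hx1
  have h9 : ∑ r ∈ R, ((G r).card : ℝ) ≤ hfin.toFinset.card + C * x / (z * Real.log x) := by
    refine le_trans ?_ (add_le_add_right hx2 _)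
    exact_mod_cast h7
  have hx0 : (0 : ℝ) ≤ x := Nat.cast_nonneg x
  have h10 : c' * Nat.totient W / √z * (c * x / (Nat.totient W * Real.log x)) ≤
      (R.card : ℝ) * (c * x / (Nat.totient W * Real.log x)) :=
    mul_le_mul_of_nonneg_right hcard (by positivity)
  have h11 : c' * Nat.totient W / √z * (c * x / (Nat.totient W * Real.log x)) =
      c * c' * √z * (x / (z * Real.log x)) := by
    have h12 : (z : ℝ) = √z * √z := (Real.mul_self_sqrt hz0.le).symm
    generalize √(z : ℝ) = t at h12 hs0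
    rw [h12]
    field_simp
  have h13 : (C + 1) * (x / (z * Real.log x)) ≤ c * c' * √z * (x / (z * Real.log x)) :=
    mul_le_mul_of_nonneg_right hz3 (by positivity)
  have h14 : (hfin.toFinset.card : ℝ) < x / (z * Real.log x) := by
    rw [lt_div_iff₀ (by positivity), ← mul_assoc]
    exact hx3
  rw [mul_div_assoc] at h9
  linarith

end ART
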