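import Vale.Agent.P016.Defs
import Vale.Agent.P031.WI

noncomputable section
namespace ART
open Complex MeasureTheory NumberField Filter
open scoped Classical Topology

open ArithmeticFunction in
theorem Good_pap {W r : ℕ} (hW : 0 < W) (hr : Nat.Coprime r W) : ∀ᶠ x : ℕ in atTop,
    (x : ℝ) / (2 * Nat.totient W) ≤
      (((Finset.Icc 1 x).filter fun p : ℕ => p.Prime ∧ p ≡ r [MOD W]).card : ℝ) * Real.log x := by
  have : NeZero W := ⟨hW.ne'⟩
  have hφ : (0 : ℝ) < Nat.totient W := by exact_mod_cast Nat.totient_pos.2 hW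
  have h1 := Vale.Agent.P031.pnt_residueClass (q := W) (a := (r : ZMod W))
    ((ZMod.isUnit_iff_coprime r W).2 hr)
  have h2 := Vale.Agent.P031.pnt_psi.sub Vale.Agent.P031.pnt_theta
  have h3 := (h1.sub h2).comp tendsto_natCast_atTop_atTop
  have h4 : (2 * Nat.totient W : ℝ)⁻¹ < (Nat.totient W : ℝ)⁻¹ - (1 - 1) := by
    rw [sub_self, sub_zero]
    exact inv_strictAnti₀ hφ (by linarith)
  filter_upwards [h3.eventually (lt_mem_nhds h4), eventually_ge_atTop 1] with x hx hx1
  have hx0 : (0 : ℝ) < x := by exact_mod_cast hx1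
  simp only [Function.comp_apply, Nat.floor_natCast] at hx
  rw [← sub_div, ← sub_div, lt_div_iff₀ hx0, Chebyshev.psi_sub_theta_eq_sum_not_prime,
    Nat.floor_natCast, ← Finset.Icc_add_one_left_eq_Ioc, zero_add, Finset.sum_filter,
    ← Finset.sum_sub_distrib, inv_mul_eq_div] at hx
  refine hx.le.trans ?_
  rw [← nsmul_eq_mul, ← Finset.sum_const, Finset.sum_filter]
  refine Finset.sum_le_sum fun k hk => ?_
  rw [Finset.mem_Icc] at hk
  by_cases hp : k.Prime
  · rw [if_neg (not_not.2 hp), sub_zero]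
    by_cases hkr : k ≡ r [MOD W]
    · rw [if_pos ⟨hp, hkr⟩]
      refine (vonMangoldt.residueClass_le _ _).trans ?_
      rw [vonMangoldt_apply_prime hp]
      exact Real.log_le_log (by exact_mod_cast hk.1) (by exact_mod_cast hk.2)
    · rw [if_neg fun h => hkr h.2]
      refine le_of_eq (Set.indicator_of_notMem ?_ _)
      exact fun h => hkr ((ZMod.natCast_eq_natCast_iff _ _ _).1 h)
  · rw [if_pos hp, if_neg fun h => hp h.1, sub_nonpos]
    exact vonMangoldt.residueClass_le _ _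

theorem Good_block : ∃ y0 : ℝ, 0 < y0 ∧ ∀ (J : ℕ) (y : ℝ), y0 ≤ y → (J : ℝ) / 4 ≤
    ∑ k ∈ Finset.Ioc ⌊y⌋₊ ⌊4 ^ J * y⌋₊, (if k.Prime then Real.log k else 0) / k := by
  have h1 := (Vale.Agent.P031.pnt_theta.eventually
    (Ioo_mem_nhds (show (3 / 4 : ℝ) < 1 by norm_num) one_lt_two)).and (eventually_gt_atTop 0)
  obtain ⟨y0, hy0⟩ := eventually_atTop.1 h1
  have h2 : ∀ y, y0 ≤ y → (1 : ℝ) / 4 ≤
      ∑ k ∈ Finset.Ioc ⌊y⌋₊ ⌊4 * y⌋₊, (if k.Prime then Real.log k else 0) / k := fun y hy => by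
    obtain ⟨⟨-, a1⟩, a2⟩ := hy0 y hy
    obtain ⟨⟨a3, -⟩, a4⟩ := hy0 (4 * y) (by linarith)
    rw [div_lt_iff₀ a2] at a1
    rw [lt_div_iff₀ a4] at a3
    have a5 := Finset.sum_Ioc_consecutive (fun k : ℕ => if k.Prime then Real.log k else 0)
      (Nat.zero_le ⌊y⌋₊) (Nat.floor_mono (show y ≤ 4 * y by linarith))
    rw [Chebyshev.theta, Finset.sum_filter] at a1 a3
    have a6 : (1 : ℝ) / 4 ≤ (∑ k ∈ Finset.Ioc ⌊y⌋₊ ⌊4 * y⌋₊,
        if k.Prime then Real.log k else 0) / (4 * y) := by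
      rw [le_div_iff₀ a4]
      linarith
    refine a6.trans ?_
    rw [Finset.sum_div]
    refine Finset.sum_le_sum fun k hk => ?_
    rw [Finset.mem_Ioc] at hk
    have b1 : (0 : ℝ) < k := by exact_mod_cast Nat.zero_lt_of_lt hk.1
    refine div_le_div_of_nonneg_left ?_ b1 ((Nat.le_floor_iff a4.le).1 hk.2)
    split_ifs
    · exact Real.log_natCast_nonneg k
    · exact le_rfl
  refine ⟨y0, (hy0 y0 le_rfl).2, fun J y hy => ?_⟩
  have hy' := (hy0 y hy).2
  induction J with
  | zero => simp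
  | succ J ih =>
    have a1 : y ≤ 4 ^ J * y := le_mul_of_one_le_left hy'.le (one_le_pow₀ (by norm_num))
    have a2 := h2 (4 ^ J * y) (hy.trans a1)
    have a3 := Finset.sum_Ioc_consecutive (fun k : ℕ => (if k.Prime then Real.log k else 0) / k)
      (Nat.floor_mono a1) (Nat.floor_mono (show 4 ^ J * y ≤ 4 * (4 ^ J * y) by linarith))
    rw [pow_succ', mul_assoc, ← a3]
    push_cast
    linarith

theorem Good_mertens : ∃ c : ℝ, 0 < c ∧ ∀ᶠ x : ℕ in atTop, c ≤ ∑ d ∈ DD x, (1 : ℝ) / d := by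
  obtain ⟨y0, hy0, H⟩ := Good_block
  have h4 : 0 < Real.log 4 := Real.log_pos (by norm_num)
  refine ⟨1 / (3200 * Real.log 4), by positivity, ?_⟩
  filter_upwards [((tendsto_rpow_atTop (show (0 : ℝ) < 199 / 200 by norm_num)).comp
    tendsto_natCast_atTop_atTop).eventually_ge_atTop y0,
    (Real.tendsto_log_atTop.comp tendsto_natCast_atTop_atTop).eventually_ge_atTop
      (800 * Real.log 4), eventually_ge_atTop 1] with x h1 h2 h3
  simp only [Function.comp_apply] at h1 h2
  have hx1 : (1 : ℝ) ≤ x := by exact_mod_cast h3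
  have hx0 : (0 : ℝ) < x := by linarith
  have hl : 0 < Real.log x := lt_of_lt_of_le (by positivity) h2
  set J := ⌊Real.log x / (400 * Real.log 4)⌋₊ with hJ
  have a1 : (J : ℝ) ≤ Real.log x / (400 * Real.log 4) := Nat.floor_le (by positivity)
  have a2 : Real.log x / (800 * Real.log 4) ≤ J := by
    have b1 := Nat.lt_floor_add_one (Real.log x / (400 * Real.log 4))
    have b2 : 1 ≤ Real.log x / (800 * Real.log 4) := (one_le_div (by positivity)).2 h2
    have b3 : Real.log x / (400 * Real.log 4) = 2 * (Real.log x / (800 * Real.log 4)) := by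
      field_simp
      norm_num
    rw [← hJ] at b1
    linarith
  have a3 : 4 ^ J * (x : ℝ) ^ (199 / 200 : ℝ) ≤ (x : ℝ) ^ (399 / 400 : ℝ) := by
    rw [show (399 / 400 : ℝ) = 1 / 400 + 199 / 200 by norm_num, Real.rpow_add hx0]
    refine mul_le_mul_of_nonneg_right ?_ (by positivity)
    rw [Real.le_rpow_iff_log_le (by positivity) hx0, Real.log_pow]
    rw [le_div_iff₀ (by positivity)] at a1
    linarith
  have a4 : (x : ℝ) ^ (399 / 400 : ℝ) ≤ x := by
    simpa using Real.rpow_le_rpow_of_exponent_le hx1 (show (399 / 400 : ℝ) ≤ 1 by norm_num)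
  have a5 := H J _ h1
  have a6 : 1 / (3200 * Real.log 4) ≤ (J : ℝ) / 4 / Real.log x := by
    rw [le_div_iff₀ hl]
    refine le_trans (le_of_eq ?_) (div_le_div_of_nonneg_right a2 (by norm_num))
    field_simp
    norm_num
  refine a6.trans ((div_le_div_of_nonneg_right a5 hl.le).trans ?_)
  simp only [ite_div, zero_div]
  rw [← Finset.sum_filter, Finset.sum_div]
  have a7 : ∀ k ∈ (Finset.Ioc ⌊(x : ℝ) ^ (199 / 200 : ℝ)⌋₊
      ⌊4 ^ J * (x : ℝ) ^ (199 / 200 : ℝ)⌋₊).filter Nat.Prime, k ∈ DD x := fun k hk => by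
    rw [Finset.mem_filter, Finset.mem_Ioc] at hk
    have b1 := ((Nat.le_floor_iff (by positivity)).1 hk.1.2).trans a3
    exact Finset.mem_filter.2 ⟨Finset.mem_Icc.2 ⟨hk.2.one_le, by exact_mod_cast b1.trans a4⟩,
      hk.2, (Nat.lt_of_floor_lt hk.1.1).le, b1⟩
  refine le_trans (Finset.sum_le_sum fun k hk => ?_)
    (Finset.sum_le_sum_of_subset_of_nonneg a7 fun _ _ _ => by positivity)
  have b1 := Finset.mem_Icc.1 (Finset.mem_filter.1 (a7 k hk)).1
  have b2 : (0 : ℝ) < k := by exact_mod_cast b1.1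
  rw [div_right_comm]
  exact div_le_div_of_nonneg_right ((div_le_one hl).2
    (Real.log_le_log b2 (by exact_mod_cast b1.2))) b2.le

theorem Good_div {x p : ℕ} (hx : 1 ≤ x) (hp : p ≤ x) :
    ∑ d ∈ (p - 1).divisors, (if d ∈ DD x then (1 : ℝ) else 0)
      ≤ if ∃ d ∈ DD x, d ∣ p - 1 then 1 else 0 := by
  have hx1 : (1 : ℝ) ≤ x := by exact_mod_cast hx
  rw [Finset.sum_boole]
  split_ifs with h
  · have : ((p - 1).divisors.filter fun d => d ∈ DD x).card ≤ 1 := by
      refine Finset.card_le_one.2 fun d hd e he => ?_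
      by_contra hde
      rw [Finset.mem_filter, Nat.mem_divisors] at hd he
      obtain ⟨-, a1, a2, -⟩ := Finset.mem_filter.1 hd.2
      obtain ⟨-, b1, b2, -⟩ := Finset.mem_filter.1 he.2
      have c1 := Nat.le_of_dvd (Nat.pos_of_ne_zero hd.1.2)
        (((Nat.coprime_primes a1 b1).2 hde).mul_dvd_of_dvd_of_dvd hd.1.1 he.1.1)
      have c2 : d * e < x := by omega
      have c3 : (d : ℝ) * e < x := by exact_mod_cast c2
      have c4 := mul_le_mul a2 b2 (by positivity) (by positivity)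
      rw [← Real.rpow_add (by linarith)] at c4
      have c5 := Real.rpow_le_rpow_of_exponent_le hx1
        (show (1 : ℝ) ≤ 199 / 200 + 199 / 200 by norm_num)
      rw [Real.rpow_one] at c5
      linarith
    exact_mod_cast this
  · rw [Finset.filter_eq_empty_iff.2 fun d hd hd' => h ⟨d, hd', Nat.dvd_of_mem_divisors hd⟩]
    simp

theorem good (h : Vale.Agent.P005.EHstar) : Good := by
  obtain ⟨c, hc, H⟩ := Good_mertens
  refine ⟨c / 4, by positivity, fun W r hW hr => ?_⟩
  have hφ : (0 : ℝ) < Nat.totient W := by exact_mod_cast Nat.totient_pos.2 hW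
  filter_upwards [H, Good_pap hW hr, h (1 / 400) (by norm_num) W r hW hr (c / (4 * Nat.totient W))
    (by positivity), eventually_ge_atTop 2] with x h1 h2 h3 h4
  have hx1 : (1 : ℝ) < x := by exact_mod_cast h4
  have hl : 0 < Real.log x := Real.log_pos hx1
  have h5 := (abs_le.1 (h3 (fun d => if d ∈ DD x then 1 else 0)
    (fun d => by split_ifs <;> simp) fun d hd => ?_)).1
  · have e1 : ∑ d ∈ Finset.Icc 1 x, (if d ∈ DD x then (1 : ℝ) else 0) / d
        = ∑ d ∈ DD x, (1 : ℝ) / d := by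
      simp only [ite_div, zero_div]
      rw [← Finset.sum_filter, Finset.filter_mem_eq_inter,
        Finset.inter_eq_right.2 (show DD x ⊆ Finset.Icc 1 x from Finset.filter_subset _ _)]
    rw [e1, Finset.sum_sub_distrib, Finset.sum_const, nsmul_eq_mul] at h5
    have h6 := Finset.sum_le_sum (s := (Finset.Icc 1 x).filter fun p => p.Prime ∧ p ≡ r [MOD W])
      fun p hp => Good_div (x := x) (p := p) (by omega)
        (Finset.mem_Icc.1 (Finset.mem_filter.1 hp).1).2
    rw [Finset.sum_boole, Finset.filter_filter] at h6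
    simp only [and_assoc] at h6
    refine le_trans ?_ h6
    rw [← div_le_iff₀ hl] at h2
    have h7 := mul_le_mul h2 h1 hc.le (Nat.cast_nonneg _)
    have e2 : c / 4 * x / (Nat.totient W * Real.log x) = x / (2 * Nat.totient W) / Real.log x * c
        - c / (4 * Nat.totient W) * x / Real.log x := by
      field_simp
      ring
    rw [e2]
    linarith
  · have hd' : d ∈ DD x := by
      by_contra h0
      exact hd (if_neg h0)
    obtain ⟨-, a1, a2, a3⟩ := Finset.mem_filter.1 hd'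
    refine ⟨a1.one_le, by convert a3 using 2; norm_num, fun q hq hqd => ?_⟩
    rw [(Nat.prime_dvd_prime_iff_eq hq a1).1 hqd]
    exact (Real.rpow_le_rpow_of_exponent_le hx1.le (by norm_num)).trans a2

end ART
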