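import Vale.Agent.P016.Base

noncomputable section
namespace ART
open Complex MeasureTheory NumberField Filter
open scoped Classical Topology

theorem kCount_kw_pos (t : ℝ) : 0 < kw t := Real.exp_pos _

theorem kCount_kw_le {t : ℝ} (ht : 0 < t) : kw t ≤ Real.exp 4 * (t ^ 2)⁻¹ := by
  have h : (t ^ 2)⁻¹ = Real.exp (-(2 * Real.log t)) := by
    rw [Real.exp_neg, two_mul, Real.exp_add, Real.exp_log ht, sq]
  rw [h, ← Real.exp_add]
  exact Real.exp_le_exp.2 (by nlinarith [sq_nonneg (Real.log t / 2 - 2)])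

theorem kCount_kw_le' {t : ℝ} (ht : 0 < t) : kw t ≤ 2 * Real.exp 4 * (1 + t ^ 2)⁻¹ := by
  have he : 1 ≤ Real.exp 4 := Real.one_le_exp (by norm_num)
  rw [← div_eq_mul_inv, le_div_iff₀ (by positivity)]
  have h1 : kw t ≤ 1 := Real.exp_le_one_iff.2 (by nlinarith [sq_nonneg (Real.log t)])
  have h2 := kCount_kw_le ht
  rw [← div_eq_mul_inv, le_div_iff₀ (by positivity)] at h2
  linarith

theorem kCount_kw_ge {t : ℝ} (h1 : 1 / 2 ≤ t) (h2 : t ≤ 1) : 1 / 2 ≤ kw t := by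
  have h3 : Real.log t ≤ 0 := Real.log_nonpos (by linarith) h2
  have h4 := Real.one_sub_inv_le_log_of_pos (x := t) (by linarith)
  have h5 : t⁻¹ ≤ 2 := (inv_le_comm₀ (by linarith) two_pos).2 (by linarith)
  refine le_trans ?_ (Real.add_one_le_exp _)
  nlinarith

theorem kCount_mm_le {y : ℝ} (hy : 0 < y) : mm y ≤ 2 * Real.exp 4 * Real.pi * y := by
  have hi : Integrable fun s : ℝ => 2 * Real.exp 4 * (1 + (s / y) ^ 2)⁻¹ :=
    (integrable_inv_one_add_sq.comp_div hy.ne').const_mul _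
  have h1 : mm y ≤ ∫ s in Set.Ioi (1 : ℝ), 2 * Real.exp 4 * (1 + (s / y) ^ 2)⁻¹ := by
    refine integral_mono_of_nonneg (Eventually.of_forall fun s => (kCount_kw_pos _).le)
      hi.integrableOn ?_
    filter_upwards [ae_restrict_mem measurableSet_Ioi] with s hs
    exact kCount_kw_le' (div_pos (one_pos.trans hs) hy)
  refine h1.trans ((setIntegral_le_integral hi
    (Eventually.of_forall fun s => by positivity)).trans (le_of_eq ?_))
  rw [integral_const_mul, Measure.integral_comp_div (fun s : ℝ => (1 + s ^ 2)⁻¹),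
    integral_univ_inv_one_add_sq, abs_of_pos hy, smul_eq_mul]
  ring

theorem kCount_block {K : Type} [Field K] [NumberField K] (hZ : ZetaF K) {n : ℕ} {y : ℝ}
    (hy : 0 < y) (B : Finset ℕ) (hB : ∀ p ∈ B, y / 2 ≤ p ∧ (p : ℝ) ≤ y ∧
      ∃ g : Fin n → HS K, Function.Injective g ∧ ∀ i, qv (g i) = p) :
    n * ∑ p ∈ B, Real.log p ≤ 2 * cheb K y := by
  have h1 : ∀ p ∈ B, ∃ S : Finset (HS K), S.card = n ∧ ∀ v ∈ S, qv v = p := by
    intro p hp
    obtain ⟨g, hg, hq⟩ := (hB p hp).2.2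
    refine ⟨Finset.univ.image g, by simp [Finset.card_image_of_injective _ hg], fun v hv => ?_⟩
    obtain ⟨i, -, rfl⟩ := Finset.mem_image.1 hv
    exact hq i
  choose! S hS1 hS2 using h1
  have h0 : ∀ i : HS K × ℕ, 0 ≤ Real.log (qv i.1) * kw ((qv i.1 : ℝ) ^ (i.2 + 1) / y) := fun i =>
    mul_nonneg (Real.log_natCast_nonneg _) (kCount_kw_pos _).le
  have hs : Summable fun i : HS K × ℕ =>
      Real.log (qv i.1) * kw ((qv i.1 : ℝ) ^ (i.2 + 1) / y) := by
    refine Summable.of_nonneg_of_le h0 (fun i => ?_)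
      ((hZ.1 2 one_lt_two).mul_left (Real.exp 4 * y ^ 2))
    rcases Nat.eq_zero_or_pos (qv i.1) with h | h
    · simp [h]
    · have h2 : (0 : ℝ) < (qv i.1 : ℝ) ^ (i.2 + 1) := by positivity
      refine (mul_le_mul_of_nonneg_left (kCount_kw_le (div_pos h2 hy))
        (Real.log_natCast_nonneg _)).trans (le_of_eq ?_)
      rw [Real.rpow_neg h2.le, Real.rpow_two]
      field_simp
  have h2 := hs.sum_le_tsum ((B.biUnion S).image fun v => (v, 0)) fun i _ => h0 i
  rw [Finset.sum_image fun _ _ _ _ h => (Prod.mk.inj h).1, Finset.sum_biUnion] at h2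
  · refine le_trans ?_ (mul_le_mul_of_nonneg_left h2 two_pos.le)
    rw [Finset.mul_sum, Finset.mul_sum]
    refine Finset.sum_le_sum fun p hp => ?_
    rw [Finset.sum_congr rfl (g := fun _ => Real.log p * kw (p / y))
      (fun v hv => by simp only [hS2 p hp v hv, zero_add, pow_one]), Finset.sum_const, hS1 p hp,
      nsmul_eq_mul]
    have h3 := kCount_kw_ge (t := p / y) ((le_div_iff₀ hy).2 (by linarith [(hB p hp).1]))
      ((div_le_one hy).2 (hB p hp).2.1)
    have h4 : 0 ≤ (n : ℝ) * Real.log p := mul_nonneg n.cast_nonneg (Real.log_natCast_nonneg _)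
    nlinarith
  · intro p hp p' hp' hne
    exact Finset.disjoint_left.2 fun v hv hv' => hne ((hS2 p hp v hv).symm.trans (hS2 p' hp' v hv'))

theorem kCount_half {x : ℕ} :
    ((x / 2 : ℕ) : ℝ) ^ (24 / 25 : ℝ) ≤ 3 / 4 * (x : ℝ) ^ (24 / 25 : ℝ) := by
  have h1 : ((x / 2 : ℕ) : ℝ) ≤ 1 / 2 * x := by
    have := Nat.cast_div_le (α := ℝ) (m := x) (n := 2)
    push_cast at this
    linarith
  refine (Real.rpow_le_rpow (Nat.cast_nonneg _) h1 (by norm_num)).trans ?_
  rw [Real.mul_rpow (by norm_num) (Nat.cast_nonneg _)]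
  refine mul_le_mul_of_nonneg_right ?_ (by positivity)
  refine (Real.rpow_le_rpow_of_exponent_ge (z := 1 / 2) (by norm_num) (by norm_num)
    (by norm_num)).trans ?_
  rw [← Real.sqrt_eq_rpow]
  exact Real.sqrt_le_iff.2 (by norm_num)

theorem kCount_ind (P : ℕ → Prop) [DecidablePred P] {A B : ℝ} (hA : 0 ≤ A) (hB : 0 ≤ B)
    (h : ∀ x : ℕ, 1 ≤ x → ∑ p ∈ (Finset.Ioc (x / 2) x).filter P, Real.log p ≤
      A * x + B * (x : ℝ) ^ (24 / 25 : ℝ)) (x : ℕ) :
    ∑ p ∈ (Finset.Ioc 0 x).filter P, Real.log p ≤ 2 * A * x + 4 * B * (x : ℝ) ^ (24 / 25 : ℝ) := by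
  induction x using Nat.strong_induction_on with
  | _ x ih =>
    rcases Nat.eq_zero_or_pos x with rfl | hx
    · simp
    have h1 := ih (x / 2) (by omega)
    have h2 := h x hx
    have h3 : ((x / 2 : ℕ) : ℝ) ≤ 1 / 2 * x := by
      have := Nat.cast_div_le (α := ℝ) (m := x) (n := 2)
      push_cast at this
      linarith
    have h4 := mul_le_mul_of_nonneg_left h3 hA
    have h5 := mul_le_mul_of_nonneg_left (kCount_half (x := x)) hB
    rw [Finset.sum_filter] at h1 h2 ⊢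
    rw [← Finset.sum_Ioc_consecutive _ (Nat.zero_le (x / 2)) (Nat.div_le_self x 2)]
    linarith

theorem kCount (h1 : PITK) (h2 : KumK) (h3 : ZetaA) : KCount := by
  obtain ⟨C, hC, h1⟩ := h1
  have hc : 0 < 2 * Real.exp 4 * Real.pi := by positivity [Real.pi_pos]
  generalize hc' : 2 * Real.exp 4 * Real.pi = c at hc
  refine ⟨8 * c + 8 * C, by positivity, fun a q x hq hq3 ha hx => ?_⟩
  obtain ⟨K, _, _, _, hd, hs, hg⟩ := h2 a q hq hq3 ha
  have ha0 : a ≠ 0 := fun h => ha ⟨0, by rw [h, zero_pow hq.ne_zero]⟩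
  have hH : (1 : ℝ) ≤ |(a : ℝ)| := by exact_mod_cast Int.one_le_abs ha0
  have hL : 0 ≤ 1 + Real.log |(a : ℝ)| := by linarith [Real.log_nonneg hH]
  have hq' : (3 : ℝ) ≤ q := by exact_mod_cast hq3
  have hn : ((q * (q - 1) : ℕ) : ℝ) = q * (q - 1) := by
    rw [Nat.cast_mul, Nat.cast_sub hq.one_le, Nat.cast_one]
  have hn0 : (0 : ℝ) < q * (q - 1) := mul_pos (by linarith) (by linarith)
  have key := kCount_ind (fun p : ℕ => p.Prime ∧ ¬ (p : ℤ) ∣ a ∧ q ∣ p - 1 ∧
      ∃ y : ZMod p, y ^ q = a) (A := 4 * c / (q : ℝ) ^ 2)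
      (B := 2 * C * ((q : ℝ) ^ 4 * (1 + Real.log |(a : ℝ)|))) (by positivity) (by positivity)
      (fun y hy => ?_) x
  · rw [show Finset.Icc 1 x = Finset.Ioc 0 x from rfl]
    refine key.trans ?_
    have e1 : 0 ≤ C * (x / (q : ℝ) ^ 2) := by positivity
    have e2 : 0 ≤ c * ((q : ℝ) ^ 4 * (1 + Real.log |(a : ℝ)|) * (x : ℝ) ^ (24 / 25 : ℝ)) := by
      positivity
    have e3 : 2 * (4 * c / (q : ℝ) ^ 2) * x = 8 * c * (x / (q : ℝ) ^ 2) := by ring
    rw [e3]
    nlinarith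
  · have hy' : (1 : ℝ) ≤ y := by exact_mod_cast hy
    have b1 := kCount_block (h3 K) (n := q * (q - 1)) (one_pos.trans_le hy')
      ((Finset.Ioc (y / 2) y).filter fun p : ℕ => p.Prime ∧ ¬ (p : ℤ) ∣ a ∧ q ∣ p - 1 ∧
        ∃ y : ZMod p, y ^ q = a) fun p hp => ?_
    · have b2 := h1 K _ hH hs y hy'
      have b3 := kCount_mm_le (one_pos.trans_le hy')
      rw [hc'] at b3
      rw [hd, hn] at b2
      rw [hn] at b1
      refine le_of_mul_le_mul_left (b1.trans ?_) hn0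
      have e1 : 2 * (c * y) ≤ q * (q - 1) * (4 * c / (q : ℝ) ^ 2 * y) := by
        have : (q : ℝ) * (q - 1) * (4 * c / (q : ℝ) ^ 2 * y) = 4 * (q - 1) / q * (c * y) := by
          field_simp
        rw [this]
        refine mul_le_mul_of_nonneg_right ?_ (by positivity)
        rw [le_div_iff₀ (by linarith)]
        linarith
      have e2 : ((q : ℝ) * (q - 1)) ^ 3 ≤ q * (q - 1) * (q : ℝ) ^ 4 := by
        have : ((q : ℝ) * (q - 1)) ^ 2 ≤ ((q : ℝ) * q) ^ 2 :=
          pow_le_pow_left₀ hn0.le (by nlinarith) 2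
        nlinarith
      have e3 := mul_le_mul_of_nonneg_right e2
        (show 0 ≤ 2 * C * (1 + Real.log |(a : ℝ)|) * (y : ℝ) ^ (24 / 25 : ℝ) by positivity)
      nlinarith
    · obtain ⟨hp1, hp2, hp3, hp4, hp5⟩ := Finset.mem_filter.1 hp
      obtain ⟨hp6, hp7⟩ := Finset.mem_Ioc.1 hp1
      refine ⟨?_, by exact_mod_cast hp7, hg p hp2 hp3 hp4 hp5⟩
      have : ((y : ℕ) : ℝ) ≤ ((2 * p : ℕ) : ℝ) := Nat.cast_le.2 (by omega)
      push_cast at this
      linarith

end ART
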