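import Vale.Agent.P016.Defs

noncomputable section
namespace ART
open Complex MeasureTheory NumberField Filter
open scoped Classical Topology
open Polynomial

/-- A root of the minimal polynomial modulo a prime gives a prime above it. -/
theorem kumK_over {R S : Type} [CommRing R] [IsDomain R] [IsIntegrallyClosed R] [CommRing S]
    [IsDomain S] [Algebra R S] [Algebra.IsIntegral R S] [Module.IsTorsionFree R S] (θ : S)
    (P : Ideal R) [hP : P.IsPrime] (c : R) (hc : (minpoly R θ).eval c ∈ P) :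
    ∃ Q : Ideal S, Q.IsPrime ∧ Q.comap (algebraMap R S) = P ∧ θ - algebraMap R S c ∈ Q := by
  let : Algebra R[X] S := ((aeval θ).toRingHom : R[X] →+* S).toAlgebra
  have hal : ∀ f : R[X], algebraMap R[X] S f = aeval θ f := fun f => rfl
  have : IsScalarTower R R[X] S := IsScalarTower.of_algebraMap_eq (fun r => by
    rw [hal]; simp)
  have : Algebra.IsIntegral R[X] S := Algebra.IsIntegral.tower_top (R := R)
  let P' : Ideal R[X] := P.comap (evalRingHom c)
  have : P'.IsPrime := Ideal.comap_isPrime _ _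
  have hk : RingHom.ker (algebraMap R[X] S) ≤ P' := by
    have h1 := minpoly.ker_eval (R := R) (Algebra.IsIntegral.isIntegral (R := R) θ)
    have h2 : RingHom.ker (algebraMap R[X] S) = Ideal.span ({minpoly R θ} : Set R[X]) := h1
    rw [h2, Ideal.span_le, Set.singleton_subset_iff]
    exact hc
  obtain ⟨Q, hQ, hQ'⟩ := Ideal.exists_ideal_over_prime_of_isIntegral_of_isDomain P' hk
  have hm : ∀ f : R[X], aeval θ f ∈ Q ↔ f.eval c ∈ P := fun f => by
    have : f ∈ Q.comap (algebraMap R[X] S) ↔ f ∈ P' := by rw [hQ']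
    exact this
  refine ⟨Q, hQ, ?_, ?_⟩
  · ext r
    have := hm (C r)
    simpa [Ideal.mem_comap] using this
  · have := (hm (X - C c)).2 (by simp)
    simpa using this

/-- If there are as many primes above `p` as the degree, then all have norm `p`. -/
theorem kumK_norm (K : Type) [Field K] [NumberField K] (n p : ℕ) (hp : p.Prime)
    (hn : dg K = n) (g : Fin n → HS K) (hg : Function.Injective g)
    (hm : ∀ i, ((p : ℕ) : 𝓞 K) ∈ (g i).asIdeal) (j : Fin n) : qv (g j) = p := by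
  have h0 : Ideal.absNorm (Ideal.span {((p : ℕ) : 𝓞 K)}) = p ^ n := by
    rw [Ideal.absNorm_span_natCast, RingOfIntegers.rank, ← hn]; rfl
  have h1 : ∀ i, (g i).asIdeal ∣ Ideal.span {((p : ℕ) : 𝓞 K)} := fun i => by
    rw [Ideal.dvd_span_singleton]; exact hm i
  have h2 : ∏ i, (g i).asIdeal ∣ Ideal.span {((p : ℕ) : 𝓞 K)} := by
    refine Finset.prod_dvd_of_coprime (fun i _ k _ hik => ?_) (fun i _ => h1 i)
    have := (g i).isMaximal
    have := (g k).isMaximal
    exact Ideal.isCoprime_of_isMaximal (fun h => hik (hg (IsDedekindDomain.HeightOneSpectrum.ext h)))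
  have h3 : ∏ i, qv (g i) ∣ p ^ n := by
    have := map_dvd (Ideal.absNorm (S := 𝓞 K)) h2
    rw [h0, map_prod] at this
    exact this
  have h4 : ∀ i, p ≤ qv (g i) := fun i => by
    have h5 : qv (g i) ∣ p ^ n := by
      have := map_dvd (Ideal.absNorm (S := 𝓞 K)) (h1 i)
      rw [h0] at this
      exact this
    have h6 : qv (g i) ≠ 1 := fun h => (g i).isPrime.ne_top (Ideal.absNorm_eq_one_iff.1 h)
    obtain ⟨k, -, hk⟩ := (Nat.dvd_prime_pow hp).1 h5
    rw [hk] at h6 ⊢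
    have hk0 : k ≠ 0 := fun h => h6 (by rw [h, pow_zero])
    exact Nat.le_self_pow hk0 p
  by_contra hne
  have h7 : p < qv (g j) := lt_of_le_of_ne (h4 j) (Ne.symm hne)
  have h8 : ∏ _i : Fin n, p < ∏ i, qv (g i) :=
    Finset.prod_lt_prod (fun _ _ => hp.pos) (fun i _ => h4 i) ⟨j, Finset.mem_univ j, h7⟩
  have h9 := Nat.le_of_dvd (pow_pos hp.pos n) h3
  rw [Finset.prod_const, Finset.card_univ, Fintype.card_fin] at h8
  omega

/-- An integer that is a `q`-th power in a field of degree `q - 1` is a `q`-th power. -/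
theorem kumK_npow (F : Type) [Field F] [NumberField F] (a : ℤ) (q : ℕ) (hq : 1 ≤ q)
    (hF : Module.finrank ℚ F = q - 1) (ha : ¬ ∃ b : ℤ, b ^ q = a) (b : F) :
    b ^ q ≠ algebraMap ℚ F (a : ℚ) := by
  intro h
  have ha0 : a ≠ 0 := fun h0 => ha ⟨0, by rw [h0, zero_pow (by omega)]⟩
  have h1 := congrArg (Algebra.norm ℚ) h
  rw [map_pow, Algebra.norm_algebraMap, hF] at h1
  have ha1 : (a : ℚ) ≠ 0 := by exact_mod_cast ha0
  have h2 : Algebra.norm ℚ b ≠ 0 := by
    intro h0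
    rw [h0, zero_pow (by omega)] at h1
    exact pow_ne_zero _ ha1 h1.symm
  have h3 : ((a : ℚ) / Algebra.norm ℚ b) ^ q = a := by
    rw [div_pow, h1, div_eq_iff (pow_ne_zero _ ha1), ← pow_succ']
    congr 1
    omega
  have h4 : IsIntegral ℤ (((a : ℚ) / Algebra.norm ℚ b) ^ q) := by
    rw [h3]; exact isIntegral_algebraMap (R := ℤ) (A := ℚ) (x := a)
  obtain ⟨y, hy⟩ := IsIntegrallyClosed.exists_algebraMap_eq_of_isIntegral_pow (R := ℤ) (K := ℚ)
    (show 0 < q by omega) h4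
  refine ha ⟨y, ?_⟩
  rw [← hy] at h3
  have h5 : ((y : ℚ)) ^ q = a := h3
  exact_mod_cast h5

/-- The primes above `p` with prescribed classes of the two generators. -/
theorem kumK_prime (F K : Type) [Field F] [NumberField F] [Field K] [NumberField K] [Algebra F K]
    (a : ℤ) (q p : ℕ) (hq : 0 < q) (hp : p.Prime) (ζ : 𝓞 F) (α : 𝓞 K)
    (hζ : IsPrimitiveRoot (ζ : F) q)
    (hα : minpoly F (α : K) = X ^ q - C (algebraMap ℚ F (a : ℚ))) (s t : ℤ)
    (hs : (p : ℤ) ∣ (cyclotomic q ℤ).eval s) (ht : (p : ℤ) ∣ t ^ q - a) :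
    ∃ Q : HS K, (∀ m : ℤ, (m : 𝓞 K) ∈ Q.asIdeal ↔ (p : ℤ) ∣ m) ∧
      algebraMap (𝓞 F) (𝓞 K) ζ - (s : 𝓞 K) ∈ Q.asIdeal ∧ α - (t : 𝓞 K) ∈ Q.asIdeal := by
  have hpz : Prime (p : ℤ) := Nat.prime_iff_prime_int.1 hp
  have : (Ideal.span {(p : ℤ)}).IsPrime := (Ideal.span_singleton_prime hpz.ne_zero).2 hpz
  have m1 : minpoly ℤ ζ = cyclotomic q ℤ := by
    rw [cyclotomic_eq_minpoly hζ hq]
    exact (minpoly.algebraMap_eq (A := ℤ) (B := 𝓞 F) (B' := F)
      (RingOfIntegers.coe_injective) ζ).symm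
  obtain ⟨P, hP, hP1, hP2⟩ := kumK_over ζ (Ideal.span {(p : ℤ)}) s
    (by rw [m1, Ideal.mem_span_singleton]; exact hs)
  have hPm : ∀ m : ℤ, (m : 𝓞 F) ∈ P ↔ (p : ℤ) ∣ m := fun m => by
    rw [← Ideal.mem_span_singleton, ← hP1, Ideal.mem_comap]; simp
  have m2 : minpoly (𝓞 F) α = X ^ q - C (a : 𝓞 F) := by
    have h1 := minpoly.isIntegrallyClosed_eq_field_fractions (R := 𝓞 F) (S := 𝓞 K) F K
      (Algebra.IsIntegral.isIntegral (R := 𝓞 F) α)
    apply Polynomial.map_injective (algebraMap (𝓞 F) F) RingOfIntegers.coe_injective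
    rw [← h1]
    have h2 : algebraMap (𝓞 K) K α = (α : K) := rfl
    rw [h2, hα]
    simp
  obtain ⟨Q, hQ, hQ1, hQ2⟩ := kumK_over α P (t : 𝓞 F)
    (by
      rw [m2]
      have := (hPm _).2 ht
      simpa using this)
  have hQm : ∀ m : ℤ, (m : 𝓞 K) ∈ Q ↔ (p : ℤ) ∣ m := fun m => by
    rw [← hPm, ← hQ1, Ideal.mem_comap]; simp
  have hQ0 : Q ≠ ⊥ := by
    intro h
    have h1 := (hQm p).2 dvd_rfl
    rw [h, Ideal.mem_bot] at h1
    have h2 : (p : ℤ) = 0 := by exact_mod_cast h1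
    exact hpz.ne_zero h2
  refine ⟨⟨Q, hQ, hQ0⟩, hQm, ?_, ?_⟩
  · have h1 : ζ - algebraMap ℤ (𝓞 F) s ∈ Q.comap (algebraMap (𝓞 F) (𝓞 K)) := by
      rw [hQ1]; exact hP2
    rw [Ideal.mem_comap] at h1
    simpa using h1
  · simpa using hQ2

/-- Complete splitting. -/
theorem kumK_split (F K : Type) [Field F] [NumberField F] [Field K] [NumberField K] [Algebra F K]
    (a : ℤ) (q p : ℕ) (hq : q.Prime) (hp : p.Prime) (ζ : 𝓞 F) (α : 𝓞 K)
    (hζ : IsPrimitiveRoot (ζ : F) q)
    (hα : minpoly F (α : K) = X ^ q - C (algebraMap ℚ F (a : ℚ))) (hK : dg K = q * (q - 1))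
    (hpa : ¬ (p : ℤ) ∣ a) (hqp : q ∣ p - 1) (x : ZMod p) (hx : x ^ q = a) :
    ∃ g : Fin (q * (q - 1)) → HS K, Function.Injective g ∧ ∀ i, qv (g i) = p := by
  have := Fact.mk hp
  obtain ⟨ω, hω⟩ : ∃ ω : ZMod p, IsPrimitiveRoot ω q := by
    obtain ⟨γ, hγ⟩ := IsCyclic.exists_ofOrder_eq_natCard (α := (ZMod p)ˣ)
    rw [Nat.card_eq_fintype_card, ZMod.card_units] at hγ
    have h1 : IsPrimitiveRoot γ (p - 1) := by rw [← hγ]; exact IsPrimitiveRoot.orderOf γ
    obtain ⟨d, hd⟩ := hqp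
    have hp2 := hp.two_le
    have h2 : IsPrimitiveRoot (γ ^ d) q := h1.pow (by omega) (by rw [hd, mul_comm])
    exact ⟨((γ ^ d : (ZMod p)ˣ) : ZMod p), IsPrimitiveRoot.coe_units_iff.2 h2⟩
  have hx0 : x ≠ 0 := by
    intro h
    rw [h, zero_pow hq.ne_zero] at hx
    exact hpa ((ZMod.intCast_zmod_eq_zero_iff_dvd a p).1 hx.symm)
  have key : ∀ ij : Fin q × Fin (q - 1), ∃ Q : HS K,
      (∀ m : ℤ, (m : 𝓞 K) ∈ Q.asIdeal ↔ (p : ℤ) ∣ m) ∧
      algebraMap (𝓞 F) (𝓞 K) ζ - (((ω ^ ((ij.2 : ℕ) + 1)).val : ℤ) : 𝓞 K) ∈ Q.asIdeal ∧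
        α - (((x * ω ^ (ij.1 : ℕ)).val : ℤ) : 𝓞 K) ∈ Q.asIdeal := fun ij => by
    refine kumK_prime F K a q p hq.pos hp ζ α hζ hα _ _ ?_ ?_
    · have h1 : IsPrimitiveRoot (ω ^ ((ij.2 : ℕ) + 1)) q := by
        refine hω.pow_of_coprime _ ?_
        have h2 := ij.2.2
        exact (Nat.coprime_comm.1 ((Nat.Prime.coprime_iff_not_dvd hq).2
          (Nat.not_dvd_of_pos_of_lt (by omega) (by omega))))
      have h3 := h1.isRoot_cyclotomic hq.pos
      rw [← ZMod.intCast_zmod_eq_zero_iff_dvd]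
      have h4 : (((cyclotomic q ℤ).eval ((ω ^ ((ij.2 : ℕ) + 1)).val : ℤ) : ℤ) : ZMod p)
          = (cyclotomic q (ZMod p)).eval (ω ^ ((ij.2 : ℕ) + 1)) := by
        have h5 := Polynomial.eval_intCast_map (Int.castRingHom (ZMod p)) (cyclotomic q ℤ)
          ((ω ^ ((ij.2 : ℕ) + 1)).val : ℤ)
        rw [map_cyclotomic_int, Int.cast_natCast, ZMod.natCast_zmod_val, Int.cast_id] at h5
        rw [h5]
        rfl
      rw [h4]
      exact h3
    · rw [← ZMod.intCast_zmod_eq_zero_iff_dvd]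
      push_cast
      rw [ZMod.natCast_zmod_val, mul_pow, hx, ← pow_mul, mul_comm (ij.1 : ℕ), pow_mul,
        hω.pow_eq_one, one_pow, mul_one, sub_self]
  choose G hG1 hG2 hG3 using key
  have hcast : ∀ u v : ZMod p, (p : ℤ) ∣ ((u.val : ℤ) - (v.val : ℤ)) → u = v := fun u v h => by
    rw [← ZMod.intCast_zmod_eq_zero_iff_dvd] at h
    push_cast at h
    rw [ZMod.natCast_zmod_val, ZMod.natCast_zmod_val, sub_eq_zero] at h
    exact h
  have hinj : Function.Injective G := by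
    intro u v huv
    have e2 := hG2 v
    have e3 := hG3 v
    rw [← huv] at e2 e3
    have f2 := (G u).asIdeal.sub_mem e2 (hG2 u)
    have f3 := (G u).asIdeal.sub_mem e3 (hG3 u)
    rw [sub_sub_sub_cancel_left, ← Int.cast_sub, hG1] at f2 f3
    have g2 := hcast _ _ f2
    have g3 := mul_left_cancel₀ hx0 (hcast _ _ f3)
    have hu := u.2.2
    have hv := v.2.2
    have k2 := hω.pow_inj (by omega) (by omega) g2
    have k3 := hω.pow_inj u.1.2 v.1.2 g3
    exact Prod.ext (Fin.ext k3) (Fin.ext (by omega))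
  refine ⟨G ∘ finProdFinEquiv.symm, hinj.comp finProdFinEquiv.symm.injective, fun i => ?_⟩
  refine kumK_norm K _ p hp hK _ (hinj.comp finProdFinEquiv.symm.injective) (fun k => ?_) i
  have := (hG1 (finProdFinEquiv.symm k) p).2 dvd_rfl
  simpa using this

/-- The field is spanned by small integers. -/
theorem kumK_sp (F K : Type) [Field F] [NumberField F] [Field K] [NumberField K] [Algebra F K]
    (a : ℤ) (q : ℕ) (hq : 0 < q) (ha : a ≠ 0) (B : PowerBasis ℚ F) (D : PowerBasis F K)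
    (hB : B.gen ^ q = 1) (hD : D.gen ^ q = (a : K)) (hd : D.dim = q) : Sp K |(a : ℝ)| := by
  have i1 : IsIntegral ℤ (algebraMap F K B.gen) := by
    refine IsIntegral.of_pow hq ?_
    rw [← map_pow, hB, map_one]
    exact isIntegral_one
  have i2 : IsIntegral ℤ D.gen := by
    refine IsIntegral.of_pow hq ?_
    rw [hD]
    exact isIntegral_algebraMap (R := ℤ) (A := K) (x := a)
  have ha1 : (1 : ℝ) ≤ |(a : ℝ)| := by exact_mod_cast Int.one_le_abs ha
  unfold Sp
  rw [eq_top_iff, ← (B.basis.smulTower D.basis).span_eq]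
  refine Submodule.span_mono ?_
  rintro y ⟨ij, rfl⟩
  rw [Module.Basis.smulTower_apply, B.basis_eq_pow, D.basis_eq_pow, Algebra.smul_def, map_pow]
  refine ⟨(i1.pow _).mul (i2.pow _), fun φ => ?_⟩
  have n1 : ‖φ (algebraMap F K B.gen)‖ = 1 := by
    have h1 : ‖φ (algebraMap F K B.gen)‖ ^ q = 1 := by
      rw [← norm_pow, ← map_pow, ← map_pow, hB, map_one, map_one, norm_one]
    exact (pow_eq_one_iff_of_nonneg (norm_nonneg _) hq.ne').1 h1
  have n2 : ‖φ D.gen‖ ^ q = |(a : ℝ)| := by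
    rw [← norm_pow, ← map_pow, hD, map_intCast, Complex.norm_intCast]
  have n3 : 1 ≤ ‖φ D.gen‖ := by
    by_contra h
    have := pow_lt_one₀ (norm_nonneg (φ D.gen)) (not_le.1 h) hq.ne'
    linarith
  rw [map_mul, map_pow, map_pow, norm_mul, norm_pow, norm_pow, n1, one_pow, one_mul, ← n2]
  refine pow_le_pow_right₀ n3 ?_
  have := ij.2.2
  omega

theorem kumK : KumK := by
  intro a q hq h3 ha
  have : NeZero q := ⟨hq.ne_zero⟩
  let F := CyclotomicField q ℚ
  have : IsCyclotomicExtension {q} ℚ F := CyclotomicField.isCyclotomicExtension q ℚ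
  have : NumberField F := IsCyclotomicExtension.numberField {q} ℚ F
  have hF : Module.finrank ℚ F = q - 1 := by
    rw [IsCyclotomicExtension.finrank (n := q) F (cyclotomic.irreducible_rat hq.pos),
      Nat.totient_prime hq]
  have : IsTotallyComplex F := IsCyclotomicExtension.Rat.isTotallyComplex (n := q) F (by omega)
  have ha0 : a ≠ 0 := fun h0 => ha ⟨0, by rw [h0, zero_pow hq.ne_zero]⟩
  let f : F[X] := X ^ q - C (algebraMap ℚ F (a : ℚ))
  have hirr : Irreducible f :=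
    X_pow_sub_C_irreducible_of_prime hq (kumK_npow F a q hq.pos hF ha)
  have hmon : f.Monic := monic_X_pow_sub_C _ hq.ne_zero
  have : Fact (Irreducible f) := ⟨hirr⟩
  let K := AdjoinRoot f
  let D : PowerBasis F K := AdjoinRoot.powerBasis hmon.ne_zero
  have hDd : D.dim = q := by
    rw [AdjoinRoot.powerBasis_dim]; exact natDegree_X_pow_sub_C
  have hDm : minpoly F D.gen = f := AdjoinRoot.minpoly_powerBasis_gen_of_monic hmon
  have : Module.Finite F K := D.finite
  have : CharZero K := charZero_of_injective_algebraMap (algebraMap F K).injective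
  have : NumberField K := NumberField.of_module_finite F K
  have : IsTotallyComplex K := isTotallyComplex_of_algebra F K
  have hK : dg K = q * (q - 1) := by
    unfold dg
    rw [← Module.finrank_mul_finrank ℚ F K, hF, D.finrank, hDd, mul_comm]
  have hζ := IsCyclotomicExtension.zeta_spec q ℚ F
  have hD : D.gen ^ q = (a : K) := by
    have h1 := minpoly.aeval F D.gen
    rw [hDm] at h1
    simp only [f, map_sub, map_pow, aeval_X, aeval_C, sub_eq_zero] at h1
    rw [h1]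
    simp
  refine ⟨K, inferInstance, inferInstance, inferInstance, hK, ?_, ?_⟩
  · refine kumK_sp F K a q hq.pos ha0 (hζ.powerBasis ℚ) D ?_ hD hDd
    rw [IsPrimitiveRoot.powerBasis_gen]
    exact hζ.pow_eq_one
  · rintro p hp hpa hqp ⟨x, hx⟩
    have i2 : IsIntegral ℤ D.gen := by
      refine IsIntegral.of_pow hq.pos ?_
      rw [hD]
      exact isIntegral_algebraMap (R := ℤ) (A := K) (x := a)
    exact kumK_split F K a q p hq hp ⟨_, hζ.isIntegral hq.pos⟩ ⟨_, i2⟩ hζ hDm hK hpa hqp x hx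

end ART
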