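import Vale.Agent.P016.Base

noncomputable section
namespace ART
open Complex MeasureTheory NumberField Filter
open scoped Classical Topology

theorem PITK_ext {f g : ℂ → ℂ} (hf : Differentiable ℂ f) (hg : Differentiable ℂ g)
    (h : ∀ z : ℂ, 1 < z.re → f z = g z) : f = g := by
  have hf' : AnalyticOnNhd ℂ f Set.univ := fun z _ => hf.analyticAt z
  have hg' : AnalyticOnNhd ℂ g Set.univ := fun z _ => hg.analyticAt z
  refine AnalyticOnNhd.eq_of_eventuallyEq hf' hg' (z₀ := 2) ?_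
  have : {z : ℂ | 1 < z.re} ∈ 𝓝 (2 : ℂ) :=
    (isOpen_lt continuous_const Complex.continuous_re).mem_nhds (by simp)
  filter_upwards [this] with z hz using h z hz

theorem PITK_zf (h1 : HK) (h2 : ZFree) (h3 : Dec) (h4 : Rm3) (K : Type) [Field K] [NumberField K]
    [IsTotallyComplex K] (Λ : ℂ → ℂ) (hd : Differentiable ℂ Λ)
    (he : ∀ z : ℂ, 1 < z.re → Λ z = z * (z - 1) * GG z ^ rk K * zeta K z) (hone : Λ 1 ≠ 0)
    (z : ℂ) (hz : 11 / 12 < z.re) : Λ z ≠ 0 := by
  by_cases hz1 : z = 1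
  · rwa [hz1]
  have hdg : dg K = 2 * rk K := dg_eq
  by_cases hw : ∃ w : K, w ^ 2 + w + 1 = 0
  · obtain ⟨w, hw⟩ := hw
    obtain ⟨Λ', hd', he', hne⟩ := h2 K w hw
    have hr : Module.finrank ℚ K / 2 = rk K := by
      change dg K / 2 = rk K
      omega
    have : Λ = Λ' := PITK_ext hd hd' fun z hz => by rw [he z hz, he' z hz, hr]
    rw [this]
    exact hne z hz hz1
  · obtain ⟨L, _, _, w, hw', hL, hm⟩ := h3 K hw
    obtain ⟨Λ', hd', he', hne⟩ := h2 L w hw'
    have hr : Module.finrank ℚ L / 2 = 2 * rk K := by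
      change dg L / 2 = 2 * rk K
      omega
    obtain ⟨EL, hEL, hEL0, hELe⟩ := h4 L
    obtain ⟨EK, hEK, -, hEKe⟩ := h4 K
    obtain ⟨C, -, hC⟩ := h1
    obtain ⟨Λ3, hd3, he3, -, -⟩ := hC K x3 (fun a => by simp [x3]) (fun a => by
      unfold x3; split_ifs <;> simp)
    have key : (fun z => z * (z - 1) * Λ' z * EL z) = fun z => Λ z * EK z * Λ3 z := by
      refine PITK_ext (by fun_prop) (by fun_prop) fun z hz => ?_
      have e := hm z hz
      rw [hELe z hz, hEKe z hz] at e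
      rw [he z hz, he' z hz, he3 z hz, hr]
      linear_combination (z * (z - 1)) ^ 2 * GG z ^ (2 * rk K) * e
    have hz0 : z ≠ 0 := by
      rintro rfl
      norm_num at hz
    have k1 := congrFun key z
    intro h0
    simp only [h0, zero_mul] at k1
    exact mul_ne_zero (mul_ne_zero (mul_ne_zero hz0 (sub_ne_zero.2 hz1)) (hne z hz hz1))
      (hEL0 z (by linarith)) k1

theorem PITK_log {n d H : ℝ} {k : ℕ} (hk : (k : ℝ) = n) (hn : 1 ≤ n) (hd : 1 ≤ d) (hH : 1 ≤ H)
    (h : d ≤ (n * H) ^ (2 * k)) : n * (n + Real.log d) ≤ 3 * (n ^ 3 * (1 + Real.log H)) := by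
  have h1 : Real.log d ≤ 2 * n * (Real.log n + Real.log H) := by
    have := Real.log_le_log (by linarith) h
    rw [Real.log_pow, Real.log_mul (by linarith) (by linarith)] at this
    push_cast at this
    rwa [hk] at this
  have h2 : Real.log n ≤ n := (Real.log_le_sub_one_of_pos (by linarith)).trans (by linarith)
  have h3 : 0 ≤ Real.log H := Real.log_nonneg hH
  have h4 : Real.log d ≤ 2 * n * (n + Real.log H) :=
    h1.trans (mul_le_mul_of_nonneg_left (by linarith) (by linarith))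
  have h5 : n * Real.log d ≤ n * (2 * n * (n + Real.log H)) :=
    mul_le_mul_of_nonneg_left h4 (by linarith)
  have h6 : n ^ 2 ≤ n ^ 3 := pow_le_pow_right₀ hn (by norm_num)
  have h7 : n ^ 2 * Real.log H ≤ n ^ 3 * Real.log H := mul_le_mul_of_nonneg_right h6 h3
  have h8 : 0 ≤ n ^ 3 * Real.log H := by positivity
  nlinarith

theorem pITK (h1 : HK) (h2 : ZFree) (h3 : Dec) (h4 : Rm3) (h5 : DiscB) (h6 : ZetaA) (h7 : LDer)
    (h8 : Cont) : PITK := by
  obtain ⟨C, hC0, hC⟩ := id h1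
  obtain ⟨CL, hCL0, hCL⟩ := h7
  obtain ⟨Cc, hCc0, hCc⟩ := h8
  refine ⟨Cc * CL * (3 * C + 2), by positivity, ?_⟩
  intro K _ _ _ H hH hSp x hx
  obtain ⟨Λ, hd, he, hone, hb⟩ := hC K (fun _ => 1) (fun _ => rfl) (fun _ => by simp)
  have he' : ∀ z : ℂ, 1 < z.re → Λ z = z * (z - 1) * GG z ^ rk K * zeta K z := fun z hz => by
    rw [he z hz, zg_one]
  have hzf := PITK_zf h1 h2 h3 h4 K Λ hd he' (hone fun _ => rfl)
  obtain ⟨z1, z2, -, z4⟩ := h6 K
  have hn : (1 : ℝ) ≤ dg K := by exact_mod_cast (dg_pos (K := K))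
  have hdc : (1 : ℝ) ≤ dc K := by exact_mod_cast (dc_pos (K := K))
  have hlog := PITK_log rfl hn hdc hH (h5 K H hH hSp)
  have hlH : 0 ≤ Real.log H := Real.log_nonneg hH
  set A : ℝ := (dg K : ℝ) ^ 3 * (1 + Real.log H) with hA
  have hnA : (dg K : ℝ) ≤ A := by
    have a1 : (dg K : ℝ) ^ 1 ≤ (dg K : ℝ) ^ 3 := pow_le_pow_right₀ hn (by norm_num)
    have a2 : 0 ≤ (dg K : ℝ) ^ 3 * Real.log H := by positivity
    rw [pow_one] at a1
    rw [hA]
    linarith
  have hCA : 0 ≤ C * A := mul_nonneg hC0.le (by linarith)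
  have hr : (rk K : ℝ) ≤ dg K := by
    have : dg K = 2 * rk K := dg_eq
    exact_mod_cast (by omega : rk K ≤ dg K)
  obtain ⟨h, hh1, hh2, hh3⟩ := hCL (rk K) ((3 * C + 2) * A) Λ (zeta K)
    (fun z => ∑' i : HS K × ℕ, (Real.log (qv i.1) : ℂ) *
      (((qv i.1 : ℝ) ^ (i.2 + 1) : ℝ) : ℂ) ^ (-z)) (by linarith) (by linarith) hd hzf he'
    (fun z a b => (hb z a b).trans (mul_le_mul_of_nonneg_left (Real.exp_le_exp.2 (by
      have := mul_le_mul_of_nonneg_left hlog hC0.le
      linarith)) (by positivity)))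
    (fun t => (Real.exp_le_exp.2 (by
      change _ ≤ -(2 * (dg K : ℝ))
      linarith)).trans (z4 t)) z2
  have : Countable (HS K) := countable_HS
  have hq : ∀ v : HS K, (1 : ℝ) ≤ qv v := fun v => by
    exact_mod_cast (by have := two_le_qv v; omega : 1 ≤ qv v)
  have key := hCc (HS K × ℕ) inferInstance (fun i => (qv i.1 : ℝ) ^ (i.2 + 1))
    (fun i => Real.log (qv i.1)) h (CL * ((3 * C + 2) * A))
    (mul_nonneg hCL0.le (by linarith)) (fun i => pow_pos (by linarith [hq i.1]) _)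
    (fun i => Real.log_nonneg (hq i.1)) (z1 2 (by norm_num)) hh1
    (fun t => hh2 _ (by simp)) hh3 x hx
  have k2 := (le_abs_self _).trans key
  change cheb K x - mm x ≤ _ at k2
  linarith

end ART
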