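import Vale.Agent.P016.Phi
import Vale.Agent.P016.EP
import Vale.Agent.P016.Dec
import Vale.Agent.P016.Unf
import Vale.Agent.P016.PoisL
import Vale.Agent.P016.PoisK
import Vale.Agent.P016.Tail
import Vale.Agent.P016.HZ
import Vale.Agent.P016.ClsZ
import Vale.Agent.P016.HK
import Vale.Agent.P016.PITK
import Vale.Agent.P016.KumK
import Vale.Agent.P016.KCount
import Vale.Agent.P016.Good
import Vale.Agent.P016.Cls0
import Vale.Agent.P016.Cls
import Vale.Agent.P016.Bad
import Vale.Agent.P016.Fin

noncomputable section
namespace ART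
open Complex MeasureTheory NumberField Filter
open scoped Classical Topology

/-- Artin's conjecture from the two analytic inputs. -/
theorem artin_asm (h1 : Vale.Agent.P005.EHstar) (h2 : ZFree) (h3 : ZetaA) (h4 : LDer) (h5 : Cont) :
    Artin :=
  artin_of (good h1) (cls cls0) (bad (kCount (pITK (hK (hZ exPhi pushF (unf eP) (poisK poisL)
    (zpB eP h3) (tail (unf eP) (zpB eP h3))) (clsZ eP h3)) h2 (dec eP) rm3 discB h3 h4 h5) kumK h3))

end ART
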