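import Vale.Agent.P016.Defs

noncomputable section
namespace ART
open Complex MeasureTheory NumberField Filter
open scoped Classical Topology

variable {K : Type} [Field K] [NumberField K]

theorem dc_pos : 0 < dc K := Int.natAbs_pos.2 (discr_ne_zero K)
theorem dg_pos : 0 < dg K := Module.finrank_pos
theorem rk_pos : 0 < rk K := Fintype.card_pos
theorem dg_eq [IsTotallyComplex K] : dg K = 2 * rk K := by
  rw [dg, rk, InfinitePlace.card_eq_nrRealPlaces_add_nrComplexPlaces,
    IsTotallyComplex.nrRealPlaces_eq_zero, zero_add, IsTotallyComplex.finrank]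
theorem prod_sq [IsTotallyComplex K] (x : K) :
    ∏ w : InfinitePlace K, w x ^ 2 = |((Algebra.norm ℚ x : ℚ) : ℝ)| := by
  have h := InfinitePlace.prod_eq_abs_norm x
  simp only [IsTotallyComplex.mult_eq] at h
  rw [h, Rat.cast_abs]
theorem prod_sq_int [IsTotallyComplex K] (x : 𝓞 K) :
    ∏ w : InfinitePlace K, w (x : K) ^ 2 = (Ideal.absNorm (Ideal.span {x}) : ℝ) := by
  rw [prod_sq, Ideal.absNorm_span_singleton, ← Algebra.coe_norm_int, Nat.cast_natAbs]
  push_cast
  rfl
theorem norm_int_nonneg [IsTotallyComplex K] (x : 𝓞 K) : 0 ≤ Algebra.norm ℤ x := by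
  have h1 := Algebra.norm_eq_prod_embeddings ℚ ℂ (x : K)
  have h2 : (algebraMap ℚ ℂ) (Algebra.norm ℚ (x : K)) = ∏ φ : K →+* ℂ, φ x :=
    h1.trans (Fintype.prod_equiv (RingHom.equivRatAlgHom K ℂ) _ _ fun _ => rfl).symm
  rw [← Finset.prod_fiberwise Finset.univ InfinitePlace.mk] at h2
  have h3 : ∀ w : InfinitePlace K, ∏ φ ∈ Finset.univ.filter (fun φ => InfinitePlace.mk φ = w), φ x
      = ((w x ^ 2 : ℝ) : ℂ) := fun w => by
    have h4 : Finset.univ.filter (fun φ => InfinitePlace.mk φ = w)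
        = {w.embedding, ComplexEmbedding.conjugate w.embedding} := by
      ext φ
      simp only [Finset.mem_filter, Finset.mem_univ, true_and, Finset.mem_insert,
        Finset.mem_singleton]
      constructor
      · intro h
        rcases InfinitePlace.mk_eq_iff.1 (h.trans (InfinitePlace.mk_embedding w).symm) with h | h
        · exact Or.inl h
        · exact Or.inr (by rw [← h]; exact (star_star φ).symm)
      · rintro (rfl | rfl)
        · exact InfinitePlace.mk_embedding w
        · rw [InfinitePlace.mk_conjugate_eq, InfinitePlace.mk_embedding]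
    have h5 : w.embedding ≠ ComplexEmbedding.conjugate w.embedding := fun h =>
      IsTotallyComplex.complexEmbedding_not_isReal w.embedding
        (ComplexEmbedding.isReal_iff.2 h.symm)
    rw [h4, Finset.prod_pair h5, ComplexEmbedding.conjugate_coe_eq, Complex.mul_conj,
      Complex.normSq_eq_norm_sq, InfinitePlace.norm_embedding_eq]
  simp only [h3] at h2
  rw [← Complex.ofReal_prod, ← Algebra.coe_norm_int] at h2
  have h6 : ((Algebra.norm ℤ x : ℤ) : ℝ) = ∏ w : InfinitePlace K, w (x : K) ^ 2 := by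
    apply Complex.ofReal_injective
    rw [← h2]
    simp
  have h7 : (0 : ℝ) ≤ ((Algebra.norm ℤ x : ℤ) : ℝ) := by
    rw [h6]
    positivity
  exact_mod_cast h7
theorem exp_lg {x : K} (hx : x ≠ 0) (w : InfinitePlace K) : Real.exp (lg x w) = w x ^ 2 :=
  Real.exp_log (pow_pos (InfinitePlace.pos_iff.2 hx) 2)
theorem lg_mul {x y : K} (hx : x ≠ 0) (hy : y ≠ 0) : lg (x * y) = lg x + lg y := by
  funext w
  simp only [lg, map_mul, mul_pow, Pi.add_apply]
  exact Real.log_mul (pow_pos (InfinitePlace.pos_iff.2 hx) 2).ne'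
    (pow_pos (InfinitePlace.pos_iff.2 hy) 2).ne'
theorem lg_inv (x : K) : lg x⁻¹ = -lg x := by
  funext w
  simp only [lg, map_inv₀, inv_pow, Real.log_inv, Pi.neg_apply]
theorem sum_lg_unit [IsTotallyComplex K] (e : (𝓞 K)ˣ) : ∑ w, lg ((e : 𝓞 K) : K) w = 0 := by
  simp only [lg]
  rw [← Real.log_prod fun w _ => (pow_pos (InfinitePlace.pos_iff.2 (Units.coe_ne_zero e)) 2).ne',
    prod_sq, ← Rat.cast_abs, Units.norm, Rat.cast_one, Real.log_one]
theorem finite_box (R : ℝ) : {x : 𝓞 K | ∀ w : InfinitePlace K, w (x : K) ≤ R}.Finite := by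
  refine Set.Finite.of_finite_image (f := fun x : 𝓞 K => (x : K))
    ((Embeddings.finite_of_norm_le K ℂ R).subset ?_) (RingOfIntegers.coe_injective.injOn)
  rintro _ ⟨x, hx, rfl⟩
  exact ⟨x.isIntegral_coe, fun φ => hx (InfinitePlace.mk φ)⟩
open NumberField.Units NumberField.Units.dirichletUnitTheorem in
theorem exists_unit_close [IsTotallyComplex K] : ∃ R : ℝ, ∀ u : InfinitePlace K → ℝ,
    ∑ w, u w = 0 → ∃ e : (𝓞 K)ˣ, ∀ w, |u w + lg ((e : 𝓞 K) : K) w| ≤ R := by
  let b := (basisUnitLattice K).ofZLatticeBasis ℝ (unitLattice K)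
  have hC : 0 ≤ ∑ i, ‖b i‖ := by positivity
  refine ⟨(rk K + 1) * ∑ i, ‖b i‖, fun u hu => ?_⟩
  let m : logSpace K := fun v => -u v.1
  have h1 : (ZSpan.floor b m : logSpace K) ∈ unitLattice K :=
    (basisUnitLattice K).ofZLatticeBasis_span ℝ ▸ (ZSpan.floor b m).2
  obtain ⟨x, -, hx⟩ := h1
  have h2 : ∀ w : InfinitePlace K, w ≠ w₀ →
      |u w + lg ((x.toMul : 𝓞 K) : K) w| ≤ ∑ i, ‖b i‖ := fun w hw => by
    have h3 := (norm_le_pi_norm _ ⟨_, hw⟩).trans (ZSpan.norm_fract_le b m)
    have h6 : logEmbedding K x ⟨_, hw⟩ = lg ((x.toMul : 𝓞 K) : K) w := by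
      rw [lg, Real.log_pow, ← IsTotallyComplex.mult_eq w]
      rfl
    rw [ZSpan.fract_apply, ← hx, Pi.sub_apply, Real.norm_eq_abs, ← abs_neg] at h3
    simp only [m] at h3
    rw [neg_sub, sub_neg_eq_add, add_comm] at h3
    exact h6 ▸ h3
  refine ⟨x.toMul, fun w => ?_⟩
  by_cases hw : w = w₀
  · have h3 : ∑ w, (u w + lg ((x.toMul : 𝓞 K) : K) w) = 0 := by
      rw [Finset.sum_add_distrib, hu, sum_lg_unit, add_zero]
    rw [← Finset.add_sum_erase _ _ (Finset.mem_univ w), add_eq_zero_iff_eq_neg] at h3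
    rw [h3, abs_neg]
    refine (Finset.abs_sum_le_sum_abs _ _).trans ((Finset.sum_le_card_nsmul _ _ _ fun w' hw' =>
      h2 w' fun h => (Finset.mem_erase.1 hw').1 (h.trans hw.symm)).trans ?_)
    rw [nsmul_eq_mul]
    refine mul_le_mul_of_nonneg_right ?_ hC
    have : (Finset.univ.erase w).card ≤ rk K + 1 := (Finset.card_le_univ _).trans (Nat.le_succ _)
    exact_mod_cast this
  · exact (h2 w hw).trans (le_mul_of_one_le_left hC (by simp))
theorem IsPhi.neg {φ : (InfinitePlace K → ℝ) → ℝ} (h : IsPhi φ) : IsPhi fun u => φ (-u) := by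
  obtain ⟨h1, h2, h3, ⟨R, h4⟩, h5⟩ := h
  refine ⟨h1.comp measurable_neg, fun u => h2 _, fun u t => ?_, ⟨R, fun u hu w w' => ?_⟩,
    fun u => ?_⟩
  · refine Eq.trans ?_ (h3 (-u) (-t))
    refine congrArg φ ?_
    funext w
    simp [add_comm]
  · have := h4 _ hu w' w
    simpa [add_comm, sub_eq_add_neg] using this
  · have h6 := (Equiv.inv (𝓞 K)ˣ).hasSum_iff.2 (h5 (-u))
    convert h6 using 1
    funext e
    have h7 : (((e⁻¹ : (𝓞 K)ˣ) : 𝓞 K) : K) = (((e : 𝓞 K) : K))⁻¹ := by simp
    simp only [Function.comp_apply, Equiv.inv_apply, h7, lg_inv, neg_add]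
theorem Gs_pos (x : K) (u : InfinitePlace K → ℝ) : 0 < Gs x u := Finset.prod_pos fun _ _ => Real.exp_pos _
theorem Gs_zero (u : InfinitePlace K → ℝ) : Gs (0 : K) u = 1 := by simp [Gs, Vg]
theorem Gs_mul {y : K} (hy : y ≠ 0) (x : K) (u : InfinitePlace K → ℝ) :
    Gs (y * x) u = Gs x (u + lg y) := by
  refine Finset.prod_congr rfl fun w _ => ?_
  rw [Pi.add_apply, Real.exp_add, exp_lg hy, map_mul]
  congr 1
  ring
theorem continuous_Gs (x : K) : Continuous (Gs x) := by
  unfold Gs Vg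
  fun_prop
theorem summable_Gs {a : K} (ha : a ≠ 0) (y : K) (u : InfinitePlace K → ℝ) :
    Summable fun x : 𝓞 K => Gs (y + a * x) u := by
  let L := mixedEmbedding.integerLattice K
  let k := Module.finrank ℤ L + 1
  let v := u + lg a
  obtain ⟨δ, hδ, hv⟩ : ∃ δ : ℝ, 0 < δ ∧ ∀ w, δ ≤ Real.exp (v w) :=
    ⟨Real.exp (-‖v‖), Real.exp_pos _, fun w => Real.exp_le_exp.2 (by
      have := norm_le_pi_norm v w
      rw [Real.norm_eq_abs] at this
      linarith [neg_abs_le (v w)])⟩
  let c : ℝ := 2 * Real.pi / √3 * δ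
  have hc : 0 < c := by positivity
  let f : 𝓞 K → L := fun x => ⟨mixedEmbedding K x, x, rfl⟩
  have hf : Function.Injective f := fun x x' h =>
    RingOfIntegers.coe_injective (mixedEmbedding_injective K (congrArg Subtype.val h))
  have h1 := ((ZLattice.summable_norm_sub_inv_pow L (2 * k) (by omega)
    (mixedEmbedding K (-(y / a)))).comp_injective hf).mul_left ((k.factorial : ℝ) / c ^ k)
  refine Summable.of_norm_bounded_eventually h1 ?_
  have h2 : {x : 𝓞 K | (x : K) = -(y / a)}.Finite :=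
    Set.Subsingleton.finite fun x hx x' hx' => RingOfIntegers.coe_injective (hx.trans hx'.symm)
  filter_upwards [h2.compl_mem_cofinite] with x hx
  have h3 : (x : K) + y / a ≠ 0 := fun h => hx (eq_neg_of_add_eq_zero_left h)
  have h4 : y + a * x = a * (x + y / a) := by field_simp; ring
  rw [Real.norm_of_nonneg (Gs_pos _ _).le, h4, Gs_mul ha]
  have h5 : (f x : mixedEmbedding.mixedSpace K) - mixedEmbedding K (-(y / a))
      = mixedEmbedding K (x + y / a) := by simp [f]
  simp only [Function.comp_apply, h5, mixedEmbedding.norm_eq_sup'_normAtPlace]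
  obtain ⟨w, -, hw⟩ := Finset.exists_mem_eq_sup' Finset.univ_nonempty
    fun w => mixedEmbedding.normAtPlace w (mixedEmbedding K ((x : K) + y / a))
  rw [hw, mixedEmbedding.normAtPlace_apply]
  have hN : 0 < w ((x : K) + y / a) := InfinitePlace.pos_iff.2 h3
  have h6 : Gs ((x : K) + y / a) v ≤ Vg (w ((x : K) + y / a) ^ 2 * Real.exp (v w)) := by
    rw [Gs, ← Finset.mul_prod_erase _ _ (Finset.mem_univ w)]
    refine mul_le_of_le_one_right (Real.exp_pos _).le (Finset.prod_le_one
      (fun _ _ => (Real.exp_pos _).le) fun w' _ => Real.exp_le_one_iff.2 ?_)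
    rw [neg_mul]
    exact neg_nonpos.2 (by positivity)
  refine h6.trans ?_
  generalize w ((x : K) + y / a) = N at *
  have h7 : Vg (N ^ 2 * Real.exp (v w)) ≤ Real.exp (-(c * N ^ 2)) := by
    refine Real.exp_le_exp.2 ?_
    have := mul_le_mul_of_nonneg_left (hv w) (show 0 ≤ 2 * Real.pi / √3 * N ^ 2 by positivity)
    simp only [c]
    linarith
  refine h7.trans ?_
  have h8 := Real.pow_div_factorial_le_exp (c * N ^ 2) (by positivity) k
  rw [Real.exp_neg]
  refine (inv_anti₀ (by positivity) h8).trans (le_of_eq ?_)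
  rw [inv_pow, pow_mul, mul_pow]
  field_simp
theorem summable_Th {ρ : 𝓞 K → ℂ} (h : ∀ x, ‖ρ x‖ ≤ 1) (u : InfinitePlace K → ℝ) :
    Summable fun x : 𝓞 K => ‖if x = 0 then 0 else ρ x * (Gs (x : K) u : ℝ)‖ := by
  refine Summable.of_nonneg_of_le (fun _ => norm_nonneg _) (fun x => ?_)
    (summable_Gs (one_ne_zero (α := K)) 0 u)
  rw [zero_add, one_mul]
  split_ifs
  · simpa using (Gs_pos _ _).le
  · rw [norm_mul, Complex.norm_real, Real.norm_of_nonneg (Gs_pos _ _).le]
    exact mul_le_of_le_one_left (Gs_pos _ _).le (h x)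
theorem countable_int : Countable (𝓞 K) :=
  (RingOfIntegers.basis K).equivFun.injective.countable
theorem measurable_Th {ρ : 𝓞 K → ℂ} (h : ∀ x, ‖ρ x‖ ≤ 1) : Measurable (Th ρ) := by
  have := countable_int (K := K)
  have := Encodable.ofCountable (𝓞 K)
  refine measurable_of_tendsto_metrizable' (atTop : Filter (Finset (𝓞 K)))
    (f := fun s u => ∑ x ∈ s, if x = 0 then 0 else ρ x * (Gs (x : K) u : ℝ)) (fun s => ?_) ?_
  · refine Finset.measurable_sum _ fun x _ => ?_
    split_ifs
    · exact measurable_const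
    · exact (continuous_const.mul (Complex.continuous_ofReal.comp (continuous_Gs _))).measurable
  · exact tendsto_pi_nhds.2 fun u => (summable_Th h u).of_norm.hasSum
theorem norm_Th_le {ρ : 𝓞 K → ℂ} (h : ∀ x, ‖ρ x‖ ≤ 1) (u : InfinitePlace K → ℝ) :
    ‖Th ρ u‖ ≤ (Th (fun _ : 𝓞 K => 1) u).re := by
  have h1 := summable_Th (ρ := fun _ : 𝓞 K => 1) (fun _ => by simp) u
  rw [Th, Th, Complex.re_tsum h1.of_norm]
  refine tsum_of_norm_bounded (Complex.reCLM.summable h1.of_norm).hasSum fun x => ?_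
  rw [Complex.reCLM_apply]
  split_ifs
  · simp
  · rw [norm_mul, Complex.norm_real, Real.norm_of_nonneg (Gs_pos _ _).le, one_mul,
      Complex.ofReal_re]
    exact mul_le_of_le_one_left (Gs_pos _ _).le (h x)
theorem Th_one_eq (u : InfinitePlace K → ℝ) :
    Th (fun _ : 𝓞 K => 1) u = ((Th (fun _ : 𝓞 K => 1) u).re : ℝ) := by
  have h1 := summable_Th (ρ := fun _ : 𝓞 K => 1) (fun _ => by simp) u
  refine Complex.ext (by simp) ?_
  rw [Complex.ofReal_im, Th, Complex.im_tsum h1.of_norm]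
  refine (tsum_congr fun x => ?_).trans tsum_zero
  split_ifs <;> simp
theorem Dl.integral {ξ : K} (h : Dl ξ) : ∃ y : 𝓞 K, (y : K) = dc K * ξ := by
  let b := integralBasis K
  let A : Matrix _ _ ℤ := Algebra.traceMatrix ℤ (RingOfIntegers.basis K)
  choose n hn using h
  let t := fun i => n (RingOfIntegers.basis K i)
  have hA : A.map (Int.cast : ℤ → ℚ) = Algebra.traceMatrix ℚ b := by
    ext i j
    simp only [A, b, Matrix.map_apply, Algebra.traceMatrix_apply, Algebra.traceForm_apply,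
      integralBasis_apply, Algebra.coe_trace_int, map_mul]
  have h1 : (A.map (Int.cast : ℤ → ℚ)).mulVec (b.equivFun ξ) = fun i => (t i : ℚ) := by
    rw [hA, Algebra.traceMatrix_of_basis_mulVec]
    funext i
    simp only [b, t, integralBasis_apply]
    exact hn _
  have h2 : ∀ i, (discr K : ℚ) * b.equivFun ξ i = (A.adjugate.mulVec t i : ℤ) := fun i => by
    have h3 := congrArg ((A.map (Int.cast : ℤ → ℚ)).adjugate.mulVec) h1
    rw [Matrix.mulVec_mulVec, Matrix.adjugate_mul, Matrix.smul_mulVec, Matrix.one_mulVec] at h3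
    have h4 := congrFun h3 i
    have h5 : (A.map (Int.cast : ℤ → ℚ)).det = (discr K : ℚ) :=
      ((Int.castRingHom ℚ).map_det A).symm
    have h6 : (A.map (Int.cast : ℤ → ℚ)).adjugate = A.adjugate.map (Int.cast : ℤ → ℚ) :=
      ((Int.castRingHom ℚ).map_adjugate A).symm
    rw [h5, h6, Pi.smul_apply, smul_eq_mul] at h4
    rw [h4]
    simp [Matrix.mulVec, dotProduct]
  have h7 : ((∑ i, A.adjugate.mulVec t i • RingOfIntegers.basis K i : 𝓞 K) : K)
      = (discr K : K) * ξ := by
    conv_rhs => rw [← b.sum_equivFun ξ, Finset.mul_sum]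
    rw [RingOfIntegers.coe_eq_algebraMap, map_sum]
    refine Finset.sum_congr rfl fun i _ => ?_
    rw [map_zsmul, ← integralBasis_apply, ← Int.cast_smul_eq_zsmul ℚ, ← h2, mul_smul,
      Int.cast_smul_eq_zsmul, zsmul_eq_mul]
  rcases Int.natAbs_eq (discr K) with h8 | h8
  · exact ⟨_, h7.trans (by rw [h8, dc]; simp)⟩
  · refine ⟨-∑ i, A.adjugate.mulVec t i • RingOfIntegers.basis K i, ?_⟩
    rw [RingOfIntegers.coe_eq_algebraMap, map_neg, ← RingOfIntegers.coe_eq_algebraMap, h7, h8, dc]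
    simp
theorem card_quot {m : ℕ} (hm : 0 < m) :
    Nat.card (𝓞 K ⧸ Ideal.span {(m : 𝓞 K)}) = m ^ dg K := by
  rw [← Submodule.cardQuot_apply, ← Ideal.absNorm_apply, Ideal.absNorm_span_singleton]
  have : (m : 𝓞 K) = algebraMap ℤ (𝓞 K) m := by simp
  rw [this, Algebra.norm_algebraMap, RingOfIntegers.rank, Int.natAbs_pow, Int.natAbs_natCast, dg]
theorem countable_ideal : Countable (Ideal (𝓞 K)) := by
  have := countable_int (K := K)
  refine Function.Surjective.countable (f := fun s : Finset (𝓞 K) => Ideal.span (s : Set (𝓞 K)))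
    fun J => ?_
  exact (IsNoetherian.noetherian J)
theorem countable_HS : Countable (HS K) := by
  have := countable_ideal (K := K)
  exact Function.Injective.countable (f := fun v : HS K => v.asIdeal)
    fun _ _ h => IsDedekindDomain.HeightOneSpectrum.ext h
theorem two_le_qv (v : HS K) : 2 ≤ qv v := by
  have h0 : qv v ≠ 0 := fun h => v.ne_bot (Ideal.absNorm_eq_zero_iff.1 h)
  have h1 : qv v ≠ 1 := fun h => v.isPrime.ne_top (Ideal.absNorm_eq_one_iff.1 h)
  omega
theorem zg_one (z : ℂ) : zg K (fun _ => 1) z = zeta K z := by simp [zg, zeta]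

end ART
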