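import Vale.Agent.NQ.Stm2
import Vale.Agent.P005.EHDef

/-! Artin's primitive root conjecture: definitions and the statements of the parts of the proof.
Each statement is proved in its own file; files that use one of them take it as a hypothesis. -/

noncomputable section
namespace ART
open Complex MeasureTheory NumberField Filter
open scoped Classical Topology

export NQ (HS qv zeta cheb kw mm GG LDer Cont ZetaF)
export QRH (Vg)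

section Field
variable (K : Type) [Field K] [NumberField K]

/-- The number of infinite places. -/
def rk : ℕ := Fintype.card (InfinitePlace K)
/-- The degree. -/
def dg : ℕ := Module.finrank ℚ K
/-- The absolute value of the discriminant. -/
def dc : ℕ := (discr K).natAbs
/-- The zeta function twisted by a function of the norm. -/
def zg (g : ℕ → ℂ) (z : ℂ) : ℂ :=
  ∑' J : {J : Ideal (𝓞 K) // J ≠ ⊥}, g (Ideal.absNorm J.1) * (Ideal.absNorm J.1 : ℂ) ^ (-z)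
/-- The field is spanned by integers with conjugates bounded by `H`. -/
def Sp (H : ℝ) : Prop :=
  Submodule.span ℚ {y : K | IsIntegral ℤ y ∧ ∀ φ : K →+* ℂ, ‖φ y‖ ≤ H} = ⊤

variable {K}

/-- The logarithmic embedding. -/
def lg (x : K) : InfinitePlace K → ℝ := fun w => Real.log (w x ^ 2)
/-- A partition of unity for the action of the units. -/
def IsPhi (φ : (InfinitePlace K → ℝ) → ℝ) : Prop := Measurable φ ∧ (∀ u, 0 ≤ φ u ∧ φ u ≤ 1) ∧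
  (∀ u (t : ℝ), φ (fun w => u w + t) = φ u) ∧ (∃ R : ℝ, ∀ u, φ u ≠ 0 → ∀ w w', |u w - u w'| ≤ R) ∧
  ∀ u, HasSum (fun e : (𝓞 K)ˣ => φ (u + lg ((e : 𝓞 K) : K))) 1
/-- The Gaussian weight. -/
def Gs (x : K) (u : InfinitePlace K → ℝ) : ℝ := ∏ w : InfinitePlace K, Vg (w x ^ 2 * Real.exp (u w))
/-- The theta function without its constant term. -/
def Th (ρ : 𝓞 K → ℂ) (u : InfinitePlace K → ℝ) : ℂ :=
  ∑' x : 𝓞 K, if x = 0 then 0 else ρ x * (Gs (x : K) u : ℝ)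
/-- The zeta function of the principal ideals, with a weight. -/
def Zp (ρ : 𝓞 K → ℂ) (z : ℂ) : ℂ :=
  ∑' J : {J : Ideal (𝓞 K) // J ≠ ⊥}, if h : ∃ x, J.1 = Ideal.span {x} then
    ρ h.choose * (Ideal.absNorm J.1 : ℂ) ^ (-z) else 0
/-- Periodic modulo `m`. -/
def Per (m : ℕ) (ρ : 𝓞 K → ℂ) : Prop := ∀ x y : 𝓞 K, ρ (x + m * y) = ρ x
/-- Invariant under the units. -/
def Inv (ρ : 𝓞 K → ℂ) : Prop := ∀ (e : (𝓞 K)ˣ) (x : 𝓞 K), ρ (e * x) = ρ x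
/-- The mean value over the residues modulo `m`. -/
def mean (m : ℕ) (ρ : 𝓞 K → ℂ) : ℂ :=
  (∑ᶠ x : 𝓞 K ⧸ Ideal.span {(m : 𝓞 K)}, ρ (Quotient.out x)) / (m : ℂ) ^ dg K
/-- The dual lattice of the integers. -/
def Dl (ξ : K) : Prop := ∀ y : 𝓞 K, ∃ n : ℤ, Algebra.trace ℚ K (ξ * y) = n
/-- The additive character. -/
def ch (x : K) : ℂ := Complex.exp (2 * Real.pi * I * ((Algebra.trace ℚ K x : ℚ) : ℂ))
/-- The weight that belongs to an ideal class. -/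
def rho (b : Ideal (𝓞 K)) (g : ℕ → ℂ) (x : 𝓞 K) : ℂ :=
  if x ∈ b then g (Ideal.absNorm (Ideal.span {x}) / Ideal.absNorm b) else 0

end Field

/-- The principal character modulo three. -/
def x0 (n : ℕ) : ℂ := if n % 3 = 0 then 0 else 1
/-- The nontrivial character modulo three. -/
def x3 (n : ℕ) : ℂ := if n % 3 = 0 then 0 else if n % 3 = 1 then 1 else -1

/-- Euler products. -/
def EP : Prop := ∀ (F : Type) [Field F] [NumberField F],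
  (∀ θ : ℝ, 1 < θ →
    Summable fun J : {J : Ideal (𝓞 F) // J ≠ ⊥} => (Ideal.absNorm J.1 : ℝ) ^ (-θ)) ∧
  (∀ θ : ℝ, 1 < θ → Summable fun v : HS F => (qv v : ℝ) ^ (-θ)) ∧
  ∀ (g : ℕ → ℂ) (z : ℂ), g 1 = 1 → (∀ a b, g (a * b) = g a * g b) → (∀ a, ‖g a‖ ≤ 1) → 1 < z.re →
    HasProd (fun v : HS F => (1 - g (qv v) * (qv v : ℂ) ^ (-z))⁻¹) (zg F g z)
/-- Removal of the Euler factors at three. -/
def Rm3 : Prop := ∀ (F : Type) [Field F] [NumberField F], ∃ E : ℂ → ℂ, Differentiable ℂ E ∧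
  (∀ z : ℂ, 0 < z.re → E z ≠ 0) ∧ ∀ z : ℂ, 1 < z.re → zg F x0 z = zeta F z * E z
/-- Adjoining a cube root of unity. -/
def Dec : Prop := ∀ (K : Type) [Field K] [NumberField K], (¬ ∃ w : K, w ^ 2 + w + 1 = 0) →
  ∃ (L : Type) (_ : Field L) (_ : NumberField L) (w : L), w ^ 2 + w + 1 = 0 ∧ dg L = 2 * dg K ∧
    ∀ z : ℂ, 1 < z.re → zg L x0 z = zg K x0 z * zg K x3 z
/-- The zero free half plane for fields with a cube root of unity (proved in `NQ`). -/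
def ZFree : Prop := ∀ (F : Type) [Field F] [NumberField F] (w : F), w ^ 2 + w + 1 = 0 →
  ∃ Λ : ℂ → ℂ, Differentiable ℂ Λ ∧
    (∀ z : ℂ, 1 < z.re → Λ z = z * (z - 1) * GG z ^ (Module.finrank ℚ F / 2) * zeta F z) ∧
    ∀ z : ℂ, 11 / 12 < z.re → z ≠ 1 → Λ z ≠ 0
/-- The Euler product facts for all number fields (proved in `NQ`). -/
def ZetaA : Prop := ∀ (F : Type) [Field F] [NumberField F], ZetaF F

/-- The image of the measure `φ du` under the sum of the coordinates. -/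
def PushF : Prop := ∀ (K : Type) [Field K] [NumberField K] [IsTotallyComplex K]
  (φ : (InfinitePlace K → ℝ) → ℝ), IsPhi φ → ∃ V : ℝ, 0 < V ∧ ∀ h : ℝ → ℂ, Integrable h →
    Integrable (fun u : InfinitePlace K → ℝ => (φ u : ℂ) * h (∑ w, u w)) ∧
    ∫ u : InfinitePlace K → ℝ, (φ u : ℂ) * h (∑ w, u w) = V * ∫ t, h t
/-- Existence of the partition of unity. -/
def ExPhi : Prop := ∀ (K : Type) [Field K] [NumberField K] [IsTotallyComplex K],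
  ∃ φ : (InfinitePlace K → ℝ) → ℝ, IsPhi φ
/-- Unfolding. -/
def Unf : Prop := ∀ (K : Type) [Field K] [NumberField K] [IsTotallyComplex K]
  (φ : (InfinitePlace K → ℝ) → ℝ) (ρ : 𝓞 K → ℂ) (z : ℂ), IsPhi φ → Inv ρ → (∀ x, ‖ρ x‖ ≤ 1) →
  1 < z.re →
  Integrable (fun u => (φ u : ℂ) * Th ρ u * Complex.exp (z * (∑ w, u w : ℝ))) ∧
  ∫ u, (φ u : ℂ) * Th ρ u * Complex.exp (z * (∑ w, u w : ℝ)) = GG z ^ rk K * Zp ρ z
/-- Poisson summation for a translate of a multiple of the lattice of integers. -/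
def PoisL : Prop := ∀ (K : Type) [Field K] [NumberField K] [IsTotallyComplex K], ∃ κ : ℝ,
  ((4 : ℝ) ^ dg K * dc K)⁻¹ ≤ κ ∧ κ ≤ 4 ^ dg K ∧ ∀ (m : ℕ) (y : 𝓞 K) (u : InfinitePlace K → ℝ),
    0 < m → ∑' x : 𝓞 K, ((Gs ((y + m * x : 𝓞 K) : K) u : ℝ) : ℂ)
      = ((κ / (m : ℝ) ^ dg K * Real.exp (-∑ w, u w) : ℝ) : ℂ) * ∑' ξ : K, if Dl ξ then
          ch (y * ξ / m) * (Gs (ξ / m) (fun w => Real.log 3 - u w) : ℝ) else 0
/-- Poisson summation with periodic coefficients. -/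
def PoisK : Prop := ∀ (K : Type) [Field K] [NumberField K] [IsTotallyComplex K], ∃ κ : ℝ,
  ((4 : ℝ) ^ dg K * dc K)⁻¹ ≤ κ ∧ κ ≤ 4 ^ dg K ∧ ∀ (m : ℕ) (ρ : 𝓞 K → ℂ), 0 < m → Per m ρ →
    (∀ x, ‖ρ x‖ ≤ 1) → ∃ ρ' : 𝓞 K → ℂ, (∀ y, ‖ρ' y‖ ≤ 1) ∧ ρ' 0 = mean m ρ ∧ ∀ u,
      ρ 0 + Th ρ u = ((κ * Real.exp (-∑ w, u w) : ℝ) : ℂ) *
        (ρ' 0 + Th ρ' fun w => Real.log 3 - 2 * Real.log (m * dc K) - u w)
/-- A bound at the integers two, three and four. -/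
def ZpB : Prop := ∀ (K : Type) [Field K] [NumberField K] (ρ : 𝓞 K → ℂ) (k : ℕ), (∀ x, ‖ρ x‖ ≤ 1) →
  2 ≤ k → k ≤ 4 → ‖GG k ^ rk K * Zp ρ k‖ ≤ Real.exp (2 * dg K)
/-- The tails of the unfolded integral are entire. -/
def Tail : Prop := ∀ (K : Type) [Field K] [NumberField K] [IsTotallyComplex K]
  (φ : (InfinitePlace K → ℝ) → ℝ) (ρ : 𝓞 K → ℂ) (S : Set (InfinitePlace K → ℝ)) (a : ℝ), IsPhi φ →
  (∀ x, ‖ρ x‖ ≤ 1) → MeasurableSet S → (∀ u ∈ S, a ≤ ∑ w, u w) →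
  (∀ z : ℂ, IntegrableOn (fun u => (φ u : ℂ) * Th ρ u * Complex.exp (z * (∑ w, u w : ℝ))) S) ∧
  Differentiable ℂ (fun z : ℂ => ∫ u in S, (φ u : ℂ) * Th ρ u * Complex.exp (z * (∑ w, u w : ℝ))) ∧
  ∀ (z : ℂ) (k : ℕ), 2 ≤ k → k ≤ 4 → z.re ≤ k →
    ‖∫ u in S, (φ u : ℂ) * Th ρ u * Complex.exp (z * (∑ w, u w : ℝ))‖
      ≤ Real.exp ((z.re - k) * a) * Real.exp (2 * dg K)
/-- Continuation of the zeta function of the principal ideals. -/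
def HZ : Prop := ∃ C : ℝ, 1 ≤ C ∧ ∀ (K : Type) [Field K] [NumberField K] [IsTotallyComplex K],
  ∃ c : ℝ, 0 < c ∧ ∀ (m : ℕ) (ρ : 𝓞 K → ℂ), 0 < m → Per m ρ → Inv ρ → (∀ x, ‖ρ x‖ ≤ 1) →
    ∃ Λ : ℂ → ℂ, Differentiable ℂ Λ ∧
      (∀ z : ℂ, 1 < z.re → Λ z = z * (z - 1) * GG z ^ rk K * Zp ρ z) ∧ Λ 1 = c * mean m ρ ∧
      ∀ z : ℂ, -2 ≤ z.re → z.re ≤ 4 → ‖Λ z‖ ≤ (1 + ‖z‖) ^ 2 * (C * m * dc K) ^ (6 * dg K)
/-- Decomposition into ideal classes. -/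
def ClsZ : Prop := ∀ (K : Type) [Field K] [NumberField K], ∃ B : Finset (Ideal (𝓞 K)),
  B.Nonempty ∧ (∀ b ∈ B, b ≠ ⊥ ∧ Ideal.absNorm b ≤ 2 ^ dg K * dc K) ∧
  (B.card : ℝ) ≤ (2 ^ dg K * dc K) ^ 2 * Real.exp (2 * dg K) ∧
  ∀ (g : ℕ → ℂ) (z : ℂ), (∀ a, ‖g a‖ ≤ 1) → 1 < z.re →
    zg K g z = ∑ b ∈ B, (Ideal.absNorm b : ℂ) ^ z * Zp (rho b g) z
/-- Continuation of the twisted zeta functions. -/
def HK : Prop := ∃ C : ℝ, 0 < C ∧ ∀ (K : Type) [Field K] [NumberField K] [IsTotallyComplex K]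
  (g : ℕ → ℂ), (∀ a, g (a + 3) = g a) → (∀ a, ‖g a‖ ≤ 1) →
  ∃ Λ : ℂ → ℂ, Differentiable ℂ Λ ∧
    (∀ z : ℂ, 1 < z.re → Λ z = z * (z - 1) * GG z ^ rk K * zg K g z) ∧
    ((∀ a, g a = 1) → Λ 1 ≠ 0) ∧ ∀ z : ℂ, -2 ≤ z.re → z.re ≤ 4 →
      ‖Λ z‖ ≤ (1 + ‖z‖) ^ 2 * Real.exp (C * dg K * (dg K + Real.log (dc K)))
/-- A bound for the discriminant. -/
def DiscB : Prop := ∀ (K : Type) [Field K] [NumberField K] (H : ℝ), 1 ≤ H → Sp K H →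
  (dc K : ℝ) ≤ (dg K * H) ^ (2 * dg K)
/-- The smoothed prime ideal theorem for totally complex fields, upper bound. -/
def PITK : Prop := ∃ C : ℝ, 0 < C ∧ ∀ (K : Type) [Field K] [NumberField K] [IsTotallyComplex K]
  (H : ℝ), 1 ≤ H → Sp K H → ∀ x : ℝ, 1 ≤ x →
    cheb K x ≤ mm x + C * ((dg K : ℝ) ^ 3 * (1 + Real.log H)) * x ^ (24 / 25 : ℝ)
/-- The Kummer fields. -/
def KumK : Prop := ∀ (a : ℤ) (q : ℕ), q.Prime → 3 ≤ q → (¬ ∃ b : ℤ, b ^ q = a) →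
  ∃ (K : Type) (_ : Field K) (_ : NumberField K) (_ : IsTotallyComplex K), dg K = q * (q - 1) ∧
    Sp K |(a : ℝ)| ∧ ∀ p : ℕ, p.Prime → ¬ (p : ℤ) ∣ a → q ∣ p - 1 → (∃ x : ZMod p, x ^ q = a) →
      ∃ g : Fin (q * (q - 1)) → HS K, Function.Injective g ∧ ∀ i, qv (g i) = p
/-- Primes modulo which `a` is a `q`-th power. -/
def KCount : Prop := ∃ C : ℝ, 0 < C ∧ ∀ (a : ℤ) (q x : ℕ), q.Prime → 3 ≤ q →
  (¬ ∃ b : ℤ, b ^ q = a) → 1 ≤ x →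
  ∑ p ∈ (Finset.Icc 1 x).filter (fun p : ℕ => p.Prime ∧ ¬ (p : ℤ) ∣ a ∧ q ∣ p - 1 ∧
      ∃ y : ZMod p, y ^ q = a), Real.log p
    ≤ C * (x / (q : ℝ) ^ 2 + (q : ℝ) ^ 4 * (1 + Real.log |(a : ℝ)|) * (x : ℝ) ^ (24 / 25 : ℝ))

/-- The large prime factors that are used. -/
def DD (x : ℕ) : Finset ℕ := (Finset.Icc 1 x).filter fun d =>
  d.Prime ∧ (x : ℝ) ^ (199 / 200 : ℝ) ≤ d ∧ (d : ℝ) ≤ (x : ℝ) ^ (399 / 400 : ℝ)
/-- Many primes `p` in a class have a large prime factor of `p - 1`. -/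
def Good : Prop := ∃ c : ℝ, 0 < c ∧ ∀ W r : ℕ, 0 < W → Nat.Coprime r W → ∀ᶠ x : ℕ in atTop,
  c * x / (Nat.totient W * Real.log x) ≤ (((Finset.Icc 1 x).filter fun p : ℕ =>
    p.Prime ∧ p ≡ r [MOD W] ∧ ∃ d ∈ DD x, d ∣ p - 1).card : ℝ)
/-- One class of non residues. -/
def Cls0 : Prop := ∀ a : ℤ, ¬ IsSquare a → ∃ W r : ℕ, 0 < W ∧ Nat.Coprime r W ∧
  (∀ q : ℕ, q.Prime → 3 ≤ q → q ∣ W → ¬ r ≡ 1 [MOD q]) ∧
  ∀ p : ℕ, p.Prime → p ≡ r [MOD W] → ¬ IsSquare (a : ZMod p)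
/-- Many classes of non residues that avoid small prime factors of `p - 1`. -/
def Cls : Prop := ∀ a : ℤ, ¬ IsSquare a → ∃ c : ℝ, 0 < c ∧ ∀ z : ℕ, 1 ≤ z →
  ∃ (W : ℕ) (R : Finset ℕ), 0 < W ∧ (∀ r ∈ R, r < W ∧ Nat.Coprime r W) ∧
    c * Nat.totient W / √z ≤ R.card ∧ ∀ p : ℕ, p.Prime → p % W ∈ R →
      ¬ IsSquare (a : ZMod p) ∧ ∀ q : ℕ, q.Prime → 3 ≤ q → q ≤ z → ¬ q ∣ p - 1
/-- Few of the primes fail. -/
def Bad : Prop := ∀ a : ℤ, a ≠ -1 → ¬ IsSquare a → ∃ (C : ℝ) (z1 : ℕ), ∀ z : ℕ, z1 ≤ z →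
  ∀ᶠ x : ℕ in atTop, (((Finset.Icc 1 x).filter fun p : ℕ => p.Prime ∧ ¬ IsSquare (a : ZMod p) ∧
      (∀ q : ℕ, q.Prime → 3 ≤ q → q ≤ z → ¬ q ∣ p - 1) ∧ (∃ d ∈ DD x, d ∣ p - 1) ∧
      orderOf (a : ZMod p) ≠ p - 1).card : ℝ) ≤ C * x / (z * Real.log x)
/-- Artin's conjecture. -/
def Artin : Prop := ∀ a : ℤ, a ≠ -1 → ¬ IsSquare a →
  {p : ℕ | p.Prime ∧ ¬ (p : ℤ) ∣ a ∧ orderOf (a : ZMod p) = p - 1}.Infinite

end ART
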