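import Vale.Agent.P016.Asm
import Vale.Agent.P016.ZF
import Vale.Agent.NQ.Main
import Vale.Agent.P005.Final

namespace ART

/-- Artin's primitive root conjecture. -/
theorem artin : Artin :=
  artin_asm Vale.Agent.P005.ehstar (zFree NQ.heckeB NQ.zf) (fun F _ _ => NQ.zetaF F)
    (NQ.lDer NQ.bC) NQ.cont

end ART
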